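import Crest.Agent.R332.TrBasic

-- ▼ part R332/TrIneq
section

/-! # Row 332: trace inequalities (Young, convexity of `tr X^γ`) -/

set_option autoImplicit false
set_option linter.unusedSectionVars false

namespace Crest.Agent.R332

open Matrix Unitary
open scoped ComplexOrder

variable {n : Type*} [Fintype n] [DecidableEq n]

lemma cfc_self {A : Matrix n n ℂ} (hA : A.IsHermitian) : cfc (fun t : ℝ => t) A = A :=
  cfc_id' ℝ A hA

lemma mpow_one {A : Matrix n n ℂ} (hA : A.IsHermitian) : mpow A 1 = A := by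
  have h : (fun t : ℝ => t ^ (1 : ℝ)) = fun t => t := by
    funext t; exact Real.rpow_one t
  rw [mpow, h]
  exact cfc_id' ℝ A hA

lemma cfc_one' {A : Matrix n n ℂ} (hA : A.IsHermitian) : cfc (fun _ : ℝ => (1 : ℝ)) A = 1 := by
  exact cfc_const_one ℝ A hA


lemma mpow_add {A : Matrix n n ℂ} (hA : A.PosDef) (p q : ℝ) :
    mpow A (p + q) = mpow A p * mpow A q := by
  rw [mpow, mpow, mpow, ← cfc_mul']
  exact cfc_congr_eig hA.1 fun i => Real.rpow_add (hA.eigenvalues_pos i) p q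

lemma mpow_add' {A : Matrix n n ℂ} (hA : A.PosSemidef) {p q : ℝ} (hp : 0 < p) (hq : 0 < q) :
    mpow A (p + q) = mpow A p * mpow A q := by
  rw [mpow, mpow, mpow, ← cfc_mul']
  refine cfc_congr_eig hA.1 fun i => ?_
  exact Real.rpow_add_of_nonneg (hA.eigenvalues_nonneg i) hp.le hq.le

lemma mpow_add_one {A : Matrix n n ℂ} (hA : A.PosSemidef) {p : ℝ} (hp : 0 ≤ p) :
    mpow A (1 + p) = A * mpow A p := by
  have h : A * mpow A p = cfc (fun t : ℝ => t) A * mpow A p := by rw [cfc_self hA.1]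
  rw [h, mpow, mpow, ← cfc_mul']
  refine cfc_congr_eig hA.1 fun i => ?_
  rw [Real.rpow_add_of_nonneg (hA.eigenvalues_nonneg i) zero_le_one hp, Real.rpow_one]

lemma mpow_two {A : Matrix n n ℂ} (hA : A.IsHermitian) : mpow A 2 = A * A := by
  have h : A * A = cfc (fun t : ℝ => t) A * cfc (fun t : ℝ => t) A := by rw [cfc_self hA]
  rw [h, mpow, ← cfc_mul']
  refine cfc_congr_eig hA fun i => ?_
  rw [Real.rpow_two, sq]

lemma mpow_mpow {A : Matrix n n ℂ} (hA : A.PosSemidef) (p q : ℝ) :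
    mpow (mpow A p) q = mpow A (p * q) := by
  rw [mpow, mpow, mpow]
  have h := cfc_comp' (fun t : ℝ => t ^ q) (fun t : ℝ => t ^ p) A
    (((Matrix.finite_real_spectrum (A := A)).image _).continuousOn _) (contOn_spec _) hA.1
  refine h.symm.trans ?_
  exact cfc_congr_eig hA.1 fun i => by
    rw [← Real.rpow_mul (hA.eigenvalues_nonneg i)]

/-- Scalar Young inequality with the sharp constant. -/
lemma scalar_young {α : ℝ} (hα : 0 < α) {w x : ℝ} (hw : 0 ≤ w) (hx : 0 ≤ x) :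
    0 ≤ (α / (1 + α)) ^ α / (1 + α) * w ^ (1 + α) - w * x + x ^ (1 + 1 / α) := by
  have hp : 0 < 1 + α := by positivity
  have hq : 0 < 1 + 1 / α := by positivity
  set q : ℝ := 1 + 1 / α with hqdef
  have hconj : (1 + α).HolderConjugate q := by
    rw [Real.holderConjugate_iff]
    refine ⟨by linarith, ?_⟩
    rw [hqdef]
    field_simp
    ring
  set l : ℝ := q ^ (1 / q) with hl
  have hlpos : 0 < l := Real.rpow_pos_of_pos hq _
  have hy := Real.young_inequality_of_nonneg (a := w / l) (b := l * x)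
    (div_nonneg hw hlpos.le) (mul_nonneg hlpos.le hx) hconj
  have e1 : w / l * (l * x) = w * x := by field_simp
  have e2 : (l * x) ^ q / q = x ^ q := by
    rw [Real.mul_rpow hlpos.le hx, hl, ← Real.rpow_mul hq.le, one_div,
      inv_mul_cancel₀ hq.ne', Real.rpow_one]
    field_simp
  have e3 : (w / l) ^ (1 + α) / (1 + α) = (α / (1 + α)) ^ α / (1 + α) * w ^ (1 + α) := by
    rw [Real.div_rpow hw hlpos.le, hl, ← Real.rpow_mul hq.le]
    have e4 : 1 / q * (1 + α) = α := by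
      rw [hqdef]; field_simp; ring
    rw [e4]
    have e5 : q = (α / (1 + α))⁻¹ := by
      rw [hqdef]; field_simp; ring
    have h6 : q ^ α = ((α / (1 + α)) ^ α)⁻¹ := by
      rw [e5, Real.inv_rpow (by positivity)]
    rw [h6]
    have : (α / (1 + α)) ^ α ≠ 0 := (Real.rpow_pos_of_pos (by positivity) _).ne'
    field_simp
  rw [e1, e2, e3] at hy
  linarith

/-- Scalar tangent line inequality, `γ ≥ 1`. -/
lemma scalar_tangent_ge {γ : ℝ} (hγ : 1 ≤ γ) {e y : ℝ} (he : 0 < e) (hy : 0 ≤ y) :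
    e ^ γ + γ * e ^ (γ - 1) * (y - e) ≤ y ^ γ := by
  have h1 := one_add_mul_self_le_rpow_one_add (s := y / e - 1) (p := γ)
    (by have := div_nonneg hy he.le; linarith) hγ
  have h2 : (1 + (y / e - 1)) = y / e := by ring
  rw [h2, Real.div_rpow hy he.le] at h1
  have h3 : e ^ (γ - 1) = e ^ γ / e := by rw [Real.rpow_sub_one he.ne']
  have h4 : 0 < e ^ γ := Real.rpow_pos_of_pos he _
  rw [le_div_iff₀ h4] at h1
  rw [h3]
  calc e ^ γ + γ * (e ^ γ / e) * (y - e) = (1 + γ * (y / e - 1)) * e ^ γ := by field_simp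
    _ ≤ y ^ γ := h1

/-- Scalar tangent line inequality, `0 ≤ γ ≤ 1`. -/
lemma scalar_tangent_le {γ : ℝ} (hγ0 : 0 ≤ γ) (hγ : γ ≤ 1) {e y : ℝ} (he : 0 ≤ e) (hy : 0 < y) :
    e ^ γ ≤ y ^ γ + γ * y ^ (γ - 1) * (e - y) := by
  have h1 := rpow_one_add_le_one_add_mul_self (s := e / y - 1) (p := γ)
    (by have := div_nonneg he hy.le; linarith) hγ0 hγ
  have h2 : (1 + (e / y - 1)) = e / y := by ring
  rw [h2, Real.div_rpow he hy.le] at h1
  have h3 : y ^ (γ - 1) = y ^ γ / y := by rw [Real.rpow_sub_one hy.ne']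
  have h4 : 0 < y ^ γ := Real.rpow_pos_of_pos hy _
  rw [div_le_iff₀ h4] at h1
  rw [h3]
  calc e ^ γ ≤ (1 + γ * (e / y - 1)) * y ^ γ := h1
    _ = y ^ γ + γ * (y ^ γ / y) * (e - y) := by field_simp

/-- **Matrix Young inequality** with the sharp constant. -/
lemma matrix_young {α : ℝ} (hα : 0 < α) {W R : Matrix n n ℂ} (hW : W.PosSemidef)
    (hR : R.PosSemidef) :
    0 ≤ (α / (1 + α)) ^ α / (1 + α) * trp W (1 + α) - rtr (W * R) + trp R (1 + 1 / α) := by
  set c : ℝ := (α / (1 + α)) ^ α / (1 + α)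
  have h := klein (κ := Fin 3) Finset.univ hW.1 hR.1
    ![fun w => c * w ^ (1 + α), fun w => -w, fun _ => 1]
    ![fun _ => 1, fun x => x, fun x => x ^ (1 + 1 / α)] (by
      intro i j
      rw [Fin.sum_univ_three]
      simp only [Matrix.cons_val_zero, Matrix.cons_val_one, Matrix.cons_val]
      have := scalar_young hα (hW.eigenvalues_nonneg i) (hR.eigenvalues_nonneg j)
      simp only [mul_one, one_mul, neg_mul]
      linarith)
  rw [Fin.sum_univ_three] at h
  simp only [Matrix.cons_val_zero, Matrix.cons_val_one, Matrix.cons_val] at h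
  rw [cfc_one' hW.1, cfc_one' hR.1, Matrix.mul_one, Matrix.one_mul] at h
  have e1 : cfc (fun w : ℝ => c * w ^ (1 + α)) W = c • mpow W (1 + α) := by
    rw [mpow, ← cfc_const_mul c (fun w : ℝ => w ^ (1 + α)) W (contOn_spec _)]
  have e2 : cfc (fun w : ℝ => -w) W = -W := by
    rw [cfc_neg (fun w : ℝ => w) W, cfc_self hW.1]
  have e3 : cfc (fun x : ℝ => x) R = R := cfc_self hR.1
  rw [e1, e2, e3, rtr_smul, Matrix.neg_mul, rtr_neg] at h
  simp only [trp, mpow] at h ⊢
  linarith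

/-- Convexity step, `γ ≥ 1`. -/
lemma convex_ge {γ : ℝ} (hγ : 1 ≤ γ) {E K : Matrix n n ℂ} (hE : E.PosDef) (hK : K.PosSemidef) :
    trp E γ ≤ γ * rtr (mpow E (γ - 1) * (E - K * K)) + trp K (2 * γ) := by
  have h := klein (κ := Fin 3) Finset.univ hE.1 hK.1
    ![fun e => γ * e ^ γ - e ^ γ, fun e => -(γ * e ^ (γ - 1)), fun _ => 1]
    ![fun _ => 1, fun x => x * x, fun x => x ^ (2 * γ)] (by
      intro i j
      rw [Fin.sum_univ_three]
      simp only [Matrix.cons_val_zero, Matrix.cons_val_one, Matrix.cons_val]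
      have he := hE.eigenvalues_pos i
      have hk := hK.eigenvalues_nonneg j
      have h1 := scalar_tangent_ge hγ he (mul_self_nonneg (hK.1.eigenvalues j))
      have h2 : (hK.1.eigenvalues j * hK.1.eigenvalues j) ^ γ =
          hK.1.eigenvalues j ^ (2 * γ) := by
        rw [Real.rpow_mul hk, Real.rpow_two, sq]
      have h3 : (hE.1.eigenvalues i) ^ γ = (hE.1.eigenvalues i) ^ (γ - 1) *
          hE.1.eigenvalues i := by
        rw [Real.rpow_sub_one he.ne']
        field_simp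
      rw [h2] at h1
      simp only [mul_one, one_mul, neg_mul]
      rw [h3] at h1 ⊢
      nlinarith)
  rw [Fin.sum_univ_three] at h
  simp only [Matrix.cons_val_zero, Matrix.cons_val_one, Matrix.cons_val] at h
  rw [cfc_one' hE.1, cfc_one' hK.1, Matrix.mul_one, Matrix.one_mul] at h
  have e1 : cfc (fun e : ℝ => γ * e ^ γ - e ^ γ) E = γ • mpow E γ - mpow E γ := by
    rw [cfc_sub (fun e : ℝ => γ * e ^ γ) (fun e : ℝ => e ^ γ) E (contOn_spec _) (contOn_spec _),
      cfc_const_mul γ (fun e : ℝ => e ^ γ) E (contOn_spec _)]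
    rfl
  have e2 : cfc (fun e : ℝ => -(γ * e ^ (γ - 1))) E = -(γ • mpow E (γ - 1)) := by
    rw [cfc_neg, cfc_const_mul γ (fun e : ℝ => e ^ (γ - 1)) E (contOn_spec _)]
    rfl
  have e3 : cfc (fun x : ℝ => x * x) K = K * K := by
    rw [cfc_mul', cfc_self hK.1]
  have e4 : mpow E γ = mpow E (γ - 1) * E := by
    conv_lhs => rw [show γ = (γ - 1) + 1 by ring]
    rw [mpow_add hE, mpow_one hE.1]
  rw [e1, e2, e3, rtr_sub, rtr_smul, Matrix.neg_mul, rtr_neg, Matrix.smul_mul, rtr_smul] at h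
  rw [Matrix.mul_sub, rtr_sub, ← e4]
  simp only [trp, mpow] at h ⊢
  linarith

/-- Concavity step, `0 ≤ γ ≤ 1`. -/
lemma convex_le {γ : ℝ} (hγ0 : 0 ≤ γ) (hγ : γ ≤ 1) {E K : Matrix n n ℂ} (hE : E.PosSemidef)
    (hK : K.PosDef) :
    trp E γ ≤ γ * rtr (mpow K (2 * γ - 2) * (E - K * K)) + trp K (2 * γ) := by
  have h := klein (κ := Fin 3) Finset.univ hE.1 hK.1
    ![fun e => -e ^ γ, fun e => e, fun _ => 1]
    ![fun _ => 1, fun x => γ * x ^ (2 * γ - 2), fun x => x ^ (2 * γ) - γ * x ^ (2 * γ)] (by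
      intro i j
      rw [Fin.sum_univ_three]
      simp only [Matrix.cons_val_zero, Matrix.cons_val_one, Matrix.cons_val]
      have he := hE.eigenvalues_nonneg i
      have hk := hK.eigenvalues_pos j
      have h1 := scalar_tangent_le hγ0 hγ he (mul_pos hk hk)
      have h2 : (hK.1.eigenvalues j * hK.1.eigenvalues j) ^ γ =
          hK.1.eigenvalues j ^ (2 * γ) := by
        rw [Real.rpow_mul hk.le, Real.rpow_two, sq]
      have h3 : (hK.1.eigenvalues j * hK.1.eigenvalues j) ^ (γ - 1) =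
          hK.1.eigenvalues j ^ (2 * γ - 2) := by
        rw [show 2 * γ - 2 = 2 * (γ - 1) by ring, Real.rpow_mul hk.le, Real.rpow_two, sq]
      have h4 : hK.1.eigenvalues j ^ (2 * γ) = hK.1.eigenvalues j ^ (2 * γ - 2) *
          (hK.1.eigenvalues j * hK.1.eigenvalues j) := by
        rw [← sq, ← Real.rpow_two, ← Real.rpow_add hk]
        congr 1; ring
      rw [h2, h3] at h1
      simp only [mul_one, one_mul]
      rw [h4] at h1 ⊢
      nlinarith)
  rw [Fin.sum_univ_three] at h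
  simp only [Matrix.cons_val_zero, Matrix.cons_val_one, Matrix.cons_val] at h
  rw [cfc_one' hE.1, cfc_one' hK.1, Matrix.mul_one, Matrix.one_mul] at h
  have e1 : cfc (fun e : ℝ => -e ^ γ) E = -mpow E γ := by
    rw [cfc_neg]
    rfl
  have e2 : cfc (fun x : ℝ => γ * x ^ (2 * γ - 2)) K = γ • mpow K (2 * γ - 2) := by
    rw [cfc_const_mul γ (fun e : ℝ => e ^ (2 * γ - 2)) K (contOn_spec _)]
    rfl
  have e3 : cfc (fun e : ℝ => e) E = E := cfc_id' ℝ E hE.1
  have e5 : cfc (fun x : ℝ => x ^ (2 * γ) - γ * x ^ (2 * γ)) K =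
      mpow K (2 * γ) - γ • mpow K (2 * γ) := by
    rw [cfc_sub (fun e : ℝ => e ^ (2 * γ)) (fun e : ℝ => γ * e ^ (2 * γ)) K (contOn_spec _)
      (contOn_spec _), cfc_const_mul γ (fun e : ℝ => e ^ (2 * γ)) K (contOn_spec _)]
    rfl
  have e4 : mpow K (2 * γ) = mpow K (2 * γ - 2) * (K * K) := by
    conv_lhs => rw [show 2 * γ = (2 * γ - 2) + 2 by ring]
    rw [mpow_add hK, mpow_two hK.1]
  rw [e1, e2, e3, e5, rtr_sub, rtr_smul, rtr_neg, Matrix.mul_smul, rtr_smul, rtr_mul_comm] at h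
  rw [Matrix.mul_sub, rtr_sub, ← e4]
  simp only [trp]
  linarith

end Crest.Agent.R332
end

-- ▼ part R332/TrRect

/-! # Row 332: intertwining, rectangular matrices, continuity of the functional calculus -/

set_option autoImplicit false
set_option linter.unusedSectionVars false

namespace Crest.Agent.R332

open Matrix Unitary
open scoped ComplexOrder Topology

variable {n : Type*} [Fintype n] [DecidableEq n]
variable {m : Type*} [Fintype m] [DecidableEq m]

/-- If `A X = X B` (A, B Hermitian) then `f(A) X = X f(B)`. -/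
lemma cfc_intertwine {A : Matrix m m ℂ} {B : Matrix n n ℂ} (hA : A.IsHermitian)
    (hB : B.IsHermitian) {X : Matrix m n ℂ} (h : A * X = X * B) (f : ℝ → ℝ) :
    cfc f A * X = X * cfc f B := by
  set U : Matrix m m ℂ := (hA.eigenvectorUnitary : Matrix m m ℂ) with hU
  set V : Matrix n n ℂ := (hB.eigenvectorUnitary : Matrix n n ℂ) with hV
  have hU1 : Uᴴ * U = 1 := unitary_conj_mul hA
  have hU2 : U * Uᴴ = 1 := unitary_mul_conj hA
  have hV1 : Vᴴ * V = 1 := unitary_conj_mul hB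
  have hV2 : V * Vᴴ = 1 := unitary_mul_conj hB
  set T : Matrix m n ℂ := Uᴴ * X * V with hT
  have hX : X = U * T * Vᴴ := by
    rw [hT]
    calc X = (U * Uᴴ) * X * (V * Vᴴ) := by rw [hU2, hV2, Matrix.one_mul, Matrix.mul_one]
      _ = U * (Uᴴ * X * V) * Vᴴ := by simp only [Matrix.mul_assoc]
  have key : diagonal (fun i => ((hA.eigenvalues i : ℝ) : ℂ)) * T =
      T * diagonal (fun i => ((hB.eigenvalues i : ℝ) : ℂ)) := by
    have h1 := eq_conj hA
    have h2 := eq_conj hB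
    have h3 : Uᴴ * (A * X) * V = Uᴴ * (X * B) * V := by rw [h]
    have h4 : Uᴴ * (A * X) * V = diagonal (fun i => ((hA.eigenvalues i : ℝ) : ℂ)) * T := by
      conv_lhs => rw [h1]
      calc Uᴴ * (U * diagonal (fun i => ((hA.eigenvalues i : ℝ) : ℂ)) * Uᴴ * X) * V
          = (Uᴴ * U) * (diagonal (fun i => ((hA.eigenvalues i : ℝ) : ℂ)) * (Uᴴ * X * V)) := by
            simp only [Matrix.mul_assoc]
        _ = _ := by rw [hU1, Matrix.one_mul]
    have h5 : Uᴴ * (X * B) * V = T * diagonal (fun i => ((hB.eigenvalues i : ℝ) : ℂ)) := by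
      conv_lhs => rw [h2]
      calc Uᴴ * (X * (V * diagonal (fun i => ((hB.eigenvalues i : ℝ) : ℂ)) * Vᴴ)) * V
          = (Uᴴ * X * V) * diagonal (fun i => ((hB.eigenvalues i : ℝ) : ℂ)) * (Vᴴ * V) := by
            simp only [Matrix.mul_assoc]
        _ = _ := by rw [hV1, Matrix.mul_one]
    rw [← h4, ← h5, h3]
  have key2 : diagonal (fun i => ((f (hA.eigenvalues i) : ℝ) : ℂ)) * T =
      T * diagonal (fun i => ((f (hB.eigenvalues i) : ℝ) : ℂ)) := by
    ext i j
    have h1 := congrFun (congrFun key i) j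
    rw [Matrix.diagonal_mul, Matrix.mul_diagonal] at h1 ⊢
    by_cases h0 : T i j = 0
    · simp [h0]
    · have h2 : ((hA.eigenvalues i : ℝ) : ℂ) = ((hB.eigenvalues j : ℝ) : ℂ) := by
        apply mul_right_cancel₀ h0
        rw [h1, mul_comm]
      have h3 : hA.eigenvalues i = hB.eigenvalues j := by exact_mod_cast h2
      rw [h3, mul_comm]
  rw [cfc_eq_conj hA, cfc_eq_conj hB]
  change U * diagonal (fun i => ((f (hA.eigenvalues i) : ℝ) : ℂ)) * Uᴴ * X =
    X * (V * diagonal (fun i => ((f (hB.eigenvalues i) : ℝ) : ℂ)) * Vᴴ)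
  rw [hX]
  calc U * diagonal (fun i => ((f (hA.eigenvalues i) : ℝ) : ℂ)) * Uᴴ * (U * T * Vᴴ)
      = U * (diagonal (fun i => ((f (hA.eigenvalues i) : ℝ) : ℂ)) * ((Uᴴ * U) * T)) * Vᴴ := by
        simp only [Matrix.mul_assoc]
    _ = U * (T * diagonal (fun i => ((f (hB.eigenvalues i) : ℝ) : ℂ))) * Vᴴ := by
        rw [hU1, Matrix.one_mul, key2]
    _ = U * T * (Vᴴ * V) * diagonal (fun i => ((f (hB.eigenvalues i) : ℝ) : ℂ)) * Vᴴ := by
        rw [hV1, Matrix.mul_one]; simp only [Matrix.mul_assoc]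
    _ = U * T * Vᴴ * (V * diagonal (fun i => ((f (hB.eigenvalues i) : ℝ) : ℂ)) * Vᴴ) := by
        simp only [Matrix.mul_assoc]

lemma conj_posSemidef (X : Matrix m n ℂ) : (Xᴴ * X).PosSemidef :=
  Matrix.posSemidef_conjTranspose_mul_self X

lemma self_conj_posSemidef (X : Matrix m n ℂ) : (X * Xᴴ).PosSemidef :=
  Matrix.posSemidef_self_mul_conjTranspose X

/-- `f(ΨΨᴴ) Ψ = Ψ f(ΨᴴΨ)`. -/
lemma cfc_rect (X : Matrix m n ℂ) (f : ℝ → ℝ) :
    cfc f (X * Xᴴ) * X = X * cfc f (Xᴴ * X) :=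
  cfc_intertwine (self_conj_posSemidef X).1 (conj_posSemidef X).1 (Matrix.mul_assoc _ _ _) f

lemma mpow_rect (X : Matrix m n ℂ) (q : ℝ) :
    mpow (X * Xᴴ) q * X = X * mpow (Xᴴ * X) q := cfc_rect X _


lemma rtr_cfc_rect (X : Matrix m n ℂ) (f : ℝ → ℝ) :
    rtr (cfc (fun t => f t * t) (X * Xᴴ)) = rtr (cfc (fun t => f t * t) (Xᴴ * X)) := by
  rw [cfc_mul', cfc_mul', cfc_self (self_conj_posSemidef X).1, cfc_self (conj_posSemidef X).1,
    ← Matrix.mul_assoc, cfc_rect, rtr_mul_comm, ← Matrix.mul_assoc, rtr_mul_comm]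

lemma mpow_eq_mul {A : Matrix n n ℂ} (hA : A.PosSemidef) {q : ℝ} (hq : 0 < q) :
    mpow A q = cfc (fun t : ℝ => t ^ (q - 1) * t) A := by
  refine cfc_congr_eig hA.1 fun i => ?_
  rcases (hA.eigenvalues_nonneg i).eq_or_lt with h | h
  · rw [← h, mul_zero, Real.zero_rpow hq.ne']
  · rw [Real.rpow_sub_one h.ne']; field_simp

/-- `tr (ΨΨᴴ)^q = tr (ΨᴴΨ)^q`. -/
lemma trp_rect (X : Matrix m n ℂ) {q : ℝ} (hq : 0 < q) :
    trp (X * Xᴴ) q = trp (Xᴴ * X) q := by
  rw [trp, trp, mpow_eq_mul (self_conj_posSemidef X) hq, mpow_eq_mul (conj_posSemidef X) hq]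
  exact rtr_cfc_rect X _

open scoped Matrix.Norms.L2Operator in
/-- Continuity of `x ↦ f(A x)` for a continuous Hermitian family. -/
lemma continuous_cfc_comp {T : Type*} [TopologicalSpace T] {A : T → Matrix n n ℂ}
    (hA : Continuous A) (hAh : ∀ x, (A x).IsHermitian) {f : ℝ → ℝ} (hf : Continuous f) :
    Continuous (fun x => cfc f (A x)) :=
  Continuous.cfc_of_mem_nhdsSet (s := Set.univ) f Filter.univ_mem hA
    (fun x => hAh x) hf.continuousOn

open scoped Matrix.Norms.L2Operator in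
lemma continuousOn_cfc_comp {T : Type*} [TopologicalSpace T] {A : T → Matrix n n ℂ} {S : Set T}
    (hA : ContinuousOn A S) (hAh : ∀ x ∈ S, (A x).IsHermitian) {f : ℝ → ℝ} (hf : Continuous f) :
    ContinuousOn (fun x => cfc f (A x)) S :=
  ContinuousOn.cfc_of_mem_nhdsSet (s := Set.univ) f Filter.univ_mem hA
    (fun x hx => hAh x hx) hf.continuousOn

lemma continuous_mpow {T : Type*} [TopologicalSpace T] {A : T → Matrix n n ℂ}
    (hA : Continuous A) (hAh : ∀ x, (A x).IsHermitian) {q : ℝ} (hq : 0 ≤ q) :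
    Continuous (fun x => mpow (A x) q) :=
  continuous_cfc_comp hA hAh (Real.continuous_rpow_const hq)

lemma continuousOn_mpow {T : Type*} [TopologicalSpace T] {A : T → Matrix n n ℂ} {S : Set T}
    (hA : ContinuousOn A S) (hAh : ∀ x ∈ S, (A x).IsHermitian) {q : ℝ} (hq : 0 ≤ q) :
    ContinuousOn (fun x => mpow (A x) q) S :=
  continuousOn_cfc_comp hA hAh (Real.continuous_rpow_const hq)


lemma continuous_rtr {T : Type*} [TopologicalSpace T] {A : T → Matrix n n ℂ}
    (hA : Continuous A) : Continuous (fun x => rtr (A x)) :=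
  Complex.continuous_re.comp (Continuous.matrix_trace hA)

lemma continuousOn_rtr {T : Type*} [TopologicalSpace T] {A : T → Matrix n n ℂ} {S : Set T}
    (hA : ContinuousOn A S) : ContinuousOn (fun x => rtr (A x)) S := by
  have h : Continuous (fun B : Matrix n n ℂ => rtr B) := continuous_rtr continuous_id
  exact h.comp_continuousOn hA

lemma continuous_trp {T : Type*} [TopologicalSpace T] {A : T → Matrix n n ℂ}
    (hA : Continuous A) (hAh : ∀ x, (A x).IsHermitian) {q : ℝ} (hq : 0 ≤ q) :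
    Continuous (fun x => trp (A x) q) := continuous_rtr (continuous_mpow hA hAh hq)

/-- Unitary conjugation commutes with the functional calculus. -/
lemma cfc_conj {A : Matrix n n ℂ} (hA : A.IsHermitian) {U : Matrix n n ℂ} (h1 : Uᴴ * U = 1)
    (h2 : U * Uᴴ = 1) (f : ℝ → ℝ) : cfc f (U * A * Uᴴ) = U * cfc f A * Uᴴ := by
  have hB : (U * A * Uᴴ).IsHermitian := Matrix.isHermitian_mul_mul_conjTranspose U hA
  have h := cfc_intertwine hB hA (X := U) (by
    rw [Matrix.mul_assoc, h1, Matrix.mul_one]) f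
  calc cfc f (U * A * Uᴴ) = cfc f (U * A * Uᴴ) * (U * Uᴴ) := by rw [h2, Matrix.mul_one]
    _ = cfc f (U * A * Uᴴ) * U * Uᴴ := by rw [← Matrix.mul_assoc (cfc f (U * A * Uᴴ)) U Uᴴ]
    _ = U * cfc f A * Uᴴ := by rw [h]

lemma cfc_diag_eq (d : n → ℝ) (f : ℝ → ℝ) :
    cfc f (diagonal (fun i => ((d i : ℝ) : ℂ))) = diagonal (fun i => ((f (d i) : ℝ) : ℂ)) := by
  have hD : (diagonal (fun i => ((d i : ℝ) : ℂ))).IsHermitian := by
    rw [Matrix.IsHermitian, Matrix.diagonal_conjTranspose]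
    congr 1
    funext i
    simp
  rw [cfc_eq_conj hD]
  set V : Matrix n n ℂ := (hD.eigenvectorUnitary : Matrix n n ℂ) with hV
  have hV1 : Vᴴ * V = 1 := unitary_conj_mul hD
  have hV2 : V * Vᴴ = 1 := unitary_mul_conj hD
  have key : diagonal (fun i => ((d i : ℝ) : ℂ)) * V =
      V * diagonal (fun i => ((hD.eigenvalues i : ℝ) : ℂ)) := by
    conv_lhs => rw [eq_conj hD]
    rw [Matrix.mul_assoc]
    change V * diagonal (fun i => ((hD.eigenvalues i : ℝ) : ℂ)) * (Vᴴ * V) = _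
    rw [hV1, Matrix.mul_one]
  have key2 : diagonal (fun i => ((f (d i) : ℝ) : ℂ)) * V =
      V * diagonal (fun i => ((f (hD.eigenvalues i) : ℝ) : ℂ)) := by
    ext i j
    have h1 := congrFun (congrFun key i) j
    rw [Matrix.diagonal_mul, Matrix.mul_diagonal] at h1 ⊢
    by_cases h0 : V i j = 0
    · simp [h0]
    · have h2 : ((d i : ℝ) : ℂ) = ((hD.eigenvalues j : ℝ) : ℂ) := by
        apply mul_right_cancel₀ h0
        rw [h1, mul_comm]
      have h3 : d i = hD.eigenvalues j := by exact_mod_cast h2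
      rw [h3, mul_comm]
  rw [← key2, Matrix.mul_assoc, hV2, Matrix.mul_one]

end Crest.Agent.R332
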