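import Crest.Agent.R332.AsmCore
import Crest.Agent.R332.ChanFinal
import Crest.Agent.R332.ChanScalar
import Crest.Agent.R332.ChanRot

-- ▼ part R332/AsmFinal
section

/-! # Row 332: final assembly of S0515, modulo module (A) (rotated) and (B) (instances) -/

set_option autoImplicit false
set_option linter.unusedSectionVars false

namespace Crest.Agent.R332

open Matrix Unitary MeasureTheory Set
open scoped ComplexOrder Topology ContDiff
open Crest.MathPhysics.LiebThirring

theorem final_of (γ : ℝ) (hγ : 1 / 2 < γ) (m : ℕ)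
    (W : ℝ → Matrix (Fin m) (Fin m) ℂ) (hW : ∀ i j, Measurable fun x => W x i j)
    (hWp : ∀ x, (W x).PosSemidef)
    (hWi : Integrable fun x => tracePow (W x) (γ + 1 / 2))
    (n : ℕ) (φ : Fin n → ℝ → Vec m) (hφ : IsTrialFamily φ)
    (hfull : ∀ (ι : Type) [Fintype ι] [DecidableEq ι] (S : Red m W ι),
      ∃ C K F, FullData S (γ - 1 / 2) C K F)
    (hchan : ∀ (ι : Type) [Fintype ι] [DecidableEq ι] (S : Red m W ι) (C K : Matrix ι ι ℂ)
      (F : ℝ → Matrix ι ι ℂ), FullData S (γ - 1 / 2) C K F →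
      betaC (γ - 1 / 2) * trp K (1 + 2 * (γ - 1 / 2)) ≤
      (1 / (γ - 1 / 2)) * ∫ x in (-S.L)..S.L, trp (S.P C x) (1 + 1 / (γ - 1 / 2))) :
    negMoment (energyMatrix W φ) γ ≤ sharpConst γ * ∫ x, tracePow (W x) (γ + 1 / 2) := by
  have hα : 0 < γ - 1 / 2 := by linarith
  obtain ⟨ι, hι1, hι2, S, hS⟩ := exists_red (p := γ + 1 / 2) (by linarith) hW hWp hWi hφ
    (show 0 < γ by linarith)
  obtain ⟨C, K, F, h⟩ := hfull ι S
  have e1 : γ + 1 / 2 = 1 + (γ - 1 / 2) := by ring
  have hWi' : Integrable fun x => trp (W x) (1 + (γ - 1 / 2)) := by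
    rw [← e1]; exact hWi
  have hm := h.master hα hWi' (T := 0) (by simpa using hchan ι S C K F h)
  have hy : 0 ≤ ∫ x, S.yd (γ - 1 / 2) C x := integral_nonneg fun x => S.yd_nonneg hα hWp C x
  have hk : 0 ≤ ∫ x in (-S.L)..S.L, S.kd C F x :=
    intervalIntegral.integral_nonneg (by linarith [S.L_pos]) fun x _ => S.kd_nonneg C F x
  have e2 : γ - 1 / 2 + 1 / 2 = γ := by ring
  rw [e2, hS] at hm
  have hβ := betaC_pos hα
  have hs := sharpConst_mul_betaC hγ
  have h3 : betaC (γ - 1 / 2) * negMoment (energyMatrix W φ) γ ≤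
      cC (γ - 1 / 2) * ∫ x, trp (W x) (1 + (γ - 1 / 2)) := by linarith
  have h4 : (∫ x, tracePow (W x) (γ + 1 / 2)) = ∫ x, trp (W x) (1 + (γ - 1 / 2)) := by
    rw [← e1]; rfl
  rw [h4]
  have h5 : betaC (γ - 1 / 2) * negMoment (energyMatrix W φ) γ ≤
      betaC (γ - 1 / 2) * (sharpConst γ * ∫ x, trp (W x) (1 + (γ - 1 / 2))) := by
    calc _ ≤ _ := h3
      _ = _ := by rw [← hs]; ring
  exact le_of_mul_le_mul_left h5 hβ

end Crest.Agent.R332
end

-- ▼ part R332/ChanScalar2
section

/-!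
Row 332, module A: the scalar inputs of the channel theorem in the form used there (helper208).
-/

set_option autoImplicit false

namespace Crest.Agent.R332.Chan

theorem scalUpper {α : ℝ} (h0 : 0 < α) (h1 : α < 1) : ScalUpper α :=
  fun _ _ _ hy hs0 h => scal_upper h0 h1 hy hs0 h

theorem scalEndp {α : ℝ} (h0 : 0 < α) (h1 : α < 1) : ScalEndp α :=
  fun _ hk => scal_endp h0 h1 hk

end Crest.Agent.R332.Chan
end

-- ▼ part R332/AsmChan

/-! # Row 332: the channel inequality for the full data -/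

set_option autoImplicit false
set_option linter.unusedSectionVars false

namespace Crest.Agent.R332

open Matrix Unitary MeasureTheory Set
open scoped ComplexOrder Topology ContDiff
open Crest.MathPhysics.LiebThirring

variable {m : ℕ} {W : ℝ → Matrix (Fin m) (Fin m) ℂ} {ι : Type} [Fintype ι] [DecidableEq ι]

namespace FullData

variable {S : Red m W ι} {α : ℝ} {C K : Matrix ι ι ℂ} {F : ℝ → Matrix ι ι ℂ}

lemma gpath (h : FullData S α C K F) : GPath α S.L K (S.P C) F where
  hL := S.L_pos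
  hPc := (S.P_cont C).continuousOn
  hPp := fun x _ => S.P_pos C x
  herm := h.path.herm
  sub := h.sub
  add := h.add
  deriv := h.path.deriv
  h0 := h.h0
  h1 := h.h1

lemma chan (h : FullData S α C K F) (hα : 0 < α) (hα1 : α < 1) :
    betaC α * trp K (1 + 2 * α) ≤
      (1 / α) * ∫ x in (-S.L)..S.L, trp (S.P C x) (1 + 1 / α) := by
  obtain ⟨U, k, h1, h2, h3, h4⟩ := exists_diag h.hK.1
  have hp := h.gpath.toPath hα h1 h2 h3
  have hk : ∀ i, 0 < k i := by
    have hD : (Chan.dg k).PosDef := by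
      rw [← h3]
      have := h.hK.conjTranspose_mul_mul_same (B := U) ?_
      · exact this
      · have : IsUnit U := ⟨⟨U, Uᴴ, h2, h1⟩, rfl⟩
        exact Matrix.mulVec_injective_iff_isUnit.mpr this
    exact Chan.posDef_dg_iff.1 hD
  have e : ∀ x, Chan.rtr (cfc (fun t : ℝ => t ^ (1 + α)) (cj U (mpow (S.P C x) (1 / α)))) =
      trp (S.P C x) (1 + 1 / α) := by
    intro x
    show rtr (cfc (fun t : ℝ => t ^ (1 + α)) (cj U (mpow (S.P C x) (1 / α)))) = _
    rw [cj_cfc h1 h2 (mpow_isHermitian _ _), rtr_cj h2]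
    show rtr (mpow (mpow (S.P C x) (1 / α)) (1 + α)) = _
    rw [mpow_mpow (S.P_pos C x), trp]
    congr 2
    field_simp
    ring
  have hint : IntervalIntegrable (fun x => trp (S.P C x) (1 + 1 / α)) volume (-S.L) S.L :=
    (continuous_trp (S.P_cont C) (fun x => (S.P_pos C x).1) (by positivity)).intervalIntegrable _ _
  have hc := Chan.channel hp hα hα1 hk (Chan.scalUpper hα hα1) (Chan.scalEndp hα hα1)
    (by
      simp only [e]; exact hint) (t0 := 1) (t1 := 1) one_pos le_rfl
  simp only [intervalIntegral.integral_same, intervalIntegral.integral_zero, mul_zero,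
    add_zero] at hc
  rw [trp_eq_sum_cj h.hK.1 h1 h2 h3, mul_comm]
  simp only [e] at hc
  exact hc

end FullData

end Crest.Agent.R332
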