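import Crest.Agent.R332.TrRect
import Crest.Prelude.Def_LiebThirring

-- ▼ part R332/FamRed
section

/-! # Row 332: reduction of a trial family to a matrix path on the negative subspace -/

set_option autoImplicit false
set_option linter.unusedSectionVars false

namespace Crest.Agent.R332

open Matrix Unitary MeasureTheory
open scoped ComplexOrder Topology ContDiff
open Crest.MathPhysics.LiebThirring

lemma tracePow_eq {m : ℕ} (A : Matrix (Fin m) (Fin m) ℂ) (p : ℝ) : tracePow A p = trp A p := rfl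

section Entry

variable {n : Type*} [Fintype n] [DecidableEq n]

lemma trp_eq_sum {A : Matrix n n ℂ} (hA : A.IsHermitian) (q : ℝ) :
    trp A q = ∑ i, hA.eigenvalues i ^ q := rtr_cfc hA _

lemma trp_nonneg {A : Matrix n n ℂ} (hA : A.PosSemidef) (q : ℝ) : 0 ≤ trp A q := by
  rw [trp_eq_sum hA.1]
  exact Finset.sum_nonneg fun i _ => Real.rpow_nonneg (hA.eigenvalues_nonneg i) _

lemma rtr_eq_sum {A : Matrix n n ℂ} (hA : A.IsHermitian) : rtr A = ∑ i, hA.eigenvalues i := by
  conv_lhs => rw [← cfc_self hA]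
  exact rtr_cfc hA _

/-- Entries of a positive semidefinite matrix are bounded by its trace. -/
lemma norm_entry_le_rtr {A : Matrix n n ℂ} (hA : A.PosSemidef) (i j : n) :
    ‖A i j‖ ≤ rtr A := by
  set U : Matrix n n ℂ := (hA.1.eigenvectorUnitary : Matrix n n ℂ) with hU
  have h1 : A i j = ∑ k, U i k * ((hA.1.eigenvalues k : ℝ) : ℂ) * (starRingEnd ℂ) (U j k) := by
    conv_lhs => rw [eq_conj hA.1]
    rw [Matrix.mul_apply]
    refine Finset.sum_congr rfl fun k _ => ?_
    rw [Matrix.mul_diagonal, Matrix.conjTranspose_apply]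
    rfl
  have hb : ∀ a b, ‖U a b‖ ≤ 1 := fun a b =>
    entry_norm_bound_of_unitary (hA.1.eigenvectorUnitary).2 a b
  rw [h1, rtr_eq_sum hA.1]
  refine (norm_sum_le _ _).trans (Finset.sum_le_sum fun k _ => ?_)
  rw [norm_mul, norm_mul, Complex.norm_real, RCLike.norm_conj, Real.norm_of_nonneg
    (hA.eigenvalues_nonneg k)]
  have h0 := hA.eigenvalues_nonneg k
  calc ‖U i k‖ * hA.1.eigenvalues k * ‖U j k‖ ≤ 1 * hA.1.eigenvalues k * 1 := by
        gcongr
        · exact hb i k
        · exact hb j k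
    _ = hA.1.eigenvalues k := by ring

lemma rtr_le_card_add_trp {A : Matrix n n ℂ} (hA : A.PosSemidef) {q : ℝ} (hq : 1 ≤ q) :
    rtr A ≤ Fintype.card n + trp A q := by
  rw [rtr_eq_sum hA.1, trp_eq_sum hA.1]
  have : (Fintype.card n : ℝ) = ∑ _i : n, (1 : ℝ) := by simp
  rw [this, ← Finset.sum_add_distrib]
  refine Finset.sum_le_sum fun i _ => ?_
  have h0 := hA.eigenvalues_nonneg i
  rcases le_total (hA.1.eigenvalues i) 1 with h | h
  · have := Real.rpow_nonneg h0 q
    linarith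
  · have h2 : hA.1.eigenvalues i ≤ hA.1.eigenvalues i ^ q := Real.self_le_rpow_of_one_le h hq
    linarith

end Entry

/-- Reduced data: `N` orthonormal compactly supported functions (columns of `Φ`) on which the
quadratic form of `-d²/dx² - W` is the diagonal matrix `-e`. -/
structure Red (m : ℕ) (W : ℝ → Matrix (Fin m) (Fin m) ℂ) (ι : Type) [Fintype ι]
    [DecidableEq ι] where
  Φ : ℝ → Matrix (Fin m) ι ℂ
  DΦ : ℝ → Matrix (Fin m) ι ℂ
  e : ι → ℝ
  L : ℝ
  e_pos : ∀ i, 0 < e i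
  L_pos : 0 < L
  hasDeriv : ∀ x a i, HasDerivAt (fun y => Φ y a i) (DΦ x a i) x
  cont : Continuous Φ
  contD : Continuous DΦ
  supp : ∀ x, L ≤ |x| → Φ x = 0
  suppD : ∀ x, L ≤ |x| → DΦ x = 0
  orth : ∀ i j, ∫ x, ((Φ x)ᴴ * Φ x) i j = (1 : Matrix ι ι ℂ) i j
  integ : ∀ i j, Integrable fun x => ((Φ x)ᴴ * W x * Φ x) i j
  energy : ∀ i j, ∫ x, ((DΦ x)ᴴ * DΦ x - (Φ x)ᴴ * W x * Φ x) i j =
    -(diagonal (fun i => ((e i : ℝ) : ℂ)) : Matrix ι ι ℂ) i j

section TrialFam

variable {m n : ℕ} {W : ℝ → Matrix (Fin m) (Fin m) ℂ} {φ : Fin n → ℝ → Vec m}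

/-- matrix of the family -/
def famMat (φ : Fin n → ℝ → Vec m) (x : ℝ) : Matrix (Fin m) (Fin n) ℂ :=
  Matrix.of fun a k => φ k x a

lemma inner_eq (φ : Fin n → ℝ → Vec m) (x : ℝ) (k l : Fin n) :
    inner ℂ (φ k x) (φ l x) = ((famMat φ x)ᴴ * famMat φ x) k l := by
  rw [Matrix.mul_apply, PiLp.inner_apply]
  refine Finset.sum_congr rfl fun a _ => ?_
  rw [Matrix.conjTranspose_apply]
  simp [famMat, RCLike.inner_apply, mul_comm]

lemma inner_W_eq (W : ℝ → Matrix (Fin m) (Fin m) ℂ) (φ : Fin n → ℝ → Vec m) (x : ℝ)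
    (k l : Fin n) :
    inner ℂ (φ k x) (Matrix.toEuclideanLin (W x) (φ l x)) =
      ((famMat φ x)ᴴ * W x * famMat φ x) k l := by
  rw [Matrix.mul_assoc, Matrix.mul_apply, PiLp.inner_apply]
  refine Finset.sum_congr rfl fun a _ => ?_
  rw [Matrix.conjTranspose_apply]
  simp only [famMat, Matrix.of_apply, RCLike.inner_apply, Matrix.toLpLin_apply,
    Matrix.mulVec, dotProduct, Matrix.mul_apply]
  rw [mul_comm]
  rfl

lemma trial_cont (hφ : IsTrialFamily φ) : Continuous (famMat φ) := by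
  refine continuous_matrix fun a k => ?_
  have h := (hφ.1 k).continuous
  exact (EuclideanSpace.proj a : Vec m →L[ℂ] ℂ).continuous.comp h

lemma trial_contD (hφ : IsTrialFamily φ) : Continuous (famMat (fun k => deriv (φ k))) := by
  refine continuous_matrix fun a k => ?_
  have h : Continuous (deriv (φ k)) := (hφ.1 k).continuous_deriv (by simp)
  exact (EuclideanSpace.proj a : Vec m →L[ℂ] ℂ).continuous.comp h

lemma trial_hasDeriv (hφ : IsTrialFamily φ) (x : ℝ) (a : Fin m) (k : Fin n) :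
    HasDerivAt (fun y => famMat φ y a k) (famMat (fun k => deriv (φ k)) x a k) x := by
  have h : HasDerivAt (φ k) (deriv (φ k) x) x :=
    ((hφ.1 k).differentiable (by simp)).differentiableAt.hasDerivAt
  have h2 := ((EuclideanSpace.proj a : Vec m →L[ℂ] ℂ).restrictScalars ℝ).hasFDerivAt.comp_hasDerivAt
    x h
  exact h2

lemma trial_supp (hφ : IsTrialFamily φ) : ∃ L : ℝ, 0 < L ∧ ∀ x, L ≤ |x| →
    famMat φ x = 0 ∧ famMat (fun k => deriv (φ k)) x = 0 := by
  have h1 : ∀ k, ∃ L : ℝ, 0 < L ∧ ∀ x, L ≤ |x| → φ k x = 0 ∧ deriv (φ k) x = 0 := by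
    intro k
    have hc := (hφ.2.1 k).isCompact
    obtain ⟨R, hR⟩ := hc.isBounded.subset_closedBall (0 : ℝ)
    refine ⟨|R| + 1, by positivity, fun x hx => ?_⟩
    have hx' : x ∉ tsupport (φ k) := by
      intro hmem
      have := hR hmem
      rw [Metric.mem_closedBall, dist_zero_right, Real.norm_eq_abs] at this
      have h2 := le_abs_self R
      linarith
    refine ⟨image_eq_zero_of_notMem_tsupport hx', ?_⟩
    have : x ∉ tsupport (deriv (φ k)) := fun h => hx' (closure_minimal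
      (support_deriv_subset (f := φ k)) (isClosed_tsupport _) h)
    exact image_eq_zero_of_notMem_tsupport this
  choose L hL h2 using h1
  refine ⟨∑ k, L k + 1, by
    have : 0 ≤ ∑ k, L k := Finset.sum_nonneg fun k _ => (hL k).le
    linarith, fun x hx => ?_⟩
  have h3 : ∀ k, L k ≤ |x| := fun k => by
    have : L k ≤ ∑ k, L k :=
      Finset.single_le_sum (f := L) (fun k _ => (hL k).le) (Finset.mem_univ k)
    linarith
  constructor
  · ext a k
    simp [famMat, (h2 k x (h3 k)).1]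
  · ext a k
    simp [famMat, (h2 k x (h3 k)).2]

/-- entrywise integral -/
noncomputable def mint {a b : Type*} (M : ℝ → Matrix a b ℂ) : Matrix a b ℂ :=
  Matrix.of fun i j => ∫ x, M x i j

lemma integrable_mul_mul {a b c d : Type*} [Fintype a] [Fintype b] [Fintype c] [Fintype d]
    (B : Matrix a b ℂ) (C : Matrix c d ℂ) {M : ℝ → Matrix b c ℂ}
    (hM : ∀ i j, Integrable fun x => M x i j) (i : a) (j : d) :
    Integrable fun x => (B * M x * C) i j := by
  simp only [Matrix.mul_apply]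
  refine integrable_finsetSum _ fun l _ => ?_
  refine Integrable.mul_const ?_ _
  exact integrable_finsetSum _ fun k _ => (hM k l).const_mul _

lemma integral_mul_mul {a b c d : Type*} [Fintype a] [Fintype b] [Fintype c] [Fintype d]
    (B : Matrix a b ℂ) (C : Matrix c d ℂ) {M : ℝ → Matrix b c ℂ}
    (hM : ∀ i j, Integrable fun x => M x i j) (i : a) (j : d) :
    ∫ x, (B * M x * C) i j = (B * mint M * C) i j := by
  simp only [Matrix.mul_apply, mint, Matrix.of_apply]
  rw [integral_finsetSum]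
  · refine Finset.sum_congr rfl fun l _ => ?_
    rw [integral_mul_const]
    congr 1
    rw [integral_finsetSum]
    · refine Finset.sum_congr rfl fun k _ => ?_
      rw [integral_const_mul]
    · exact fun k _ => (hM k l).const_mul _
  · intro l _
    refine Integrable.mul_const ?_ _
    exact integrable_finsetSum _ fun k _ => (hM k l).const_mul _

lemma integrable_W_mul {m : ℕ} {W : ℝ → Matrix (Fin m) (Fin m) ℂ} {p : ℝ} (hp : 1 ≤ p)
    (hW : ∀ i j, Measurable fun x => W x i j)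
    (hWp : ∀ x, (W x).PosSemidef) (hWi : Integrable fun x => tracePow (W x) p)
    {g : ℝ → ℂ} (hg : Continuous g) {L : ℝ} (hgL : ∀ x, L ≤ |x| → g x = 0) (a b : Fin m) :
    Integrable fun x => W x a b * g x := by
  obtain ⟨C, hC⟩ : ∃ C : ℝ, ∀ x, ‖g x‖ ≤ C := by
    have hcs : HasCompactSupport g := by
      refine HasCompactSupport.intro (isCompact_Icc (a := -L) (b := L)) fun x hx => hgL x ?_
      rw [Set.mem_Icc, not_and_or, not_le, not_le] at hx
      rcases hx with h | h
      · exact (by linarith [neg_le_abs x] : L ≤ |x|)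
      · exact h.le.trans (le_abs_self x)
    obtain ⟨C, hC⟩ := hcs.exists_bound_of_continuous hg
    exact ⟨C, hC⟩
  have hC0 : 0 ≤ C := (norm_nonneg _).trans (hC 0)
  have hbound : Integrable fun x => C * ((Set.Icc (-L) L).indicator (fun _ => (m : ℝ)) x +
      tracePow (W x) p) := by
    refine Integrable.const_mul ?_ _
    refine Integrable.add ?_ hWi
    refine (integrable_indicator_iff measurableSet_Icc).2 ?_
    exact integrableOn_const (by simp) (by simp)
  refine hbound.mono' ?_ ?_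
  · exact ((hW a b).mul hg.measurable).aestronglyMeasurable
  · refine Filter.Eventually.of_forall fun x => ?_
    by_cases hx : L ≤ |x|
    · rw [hgL x hx, mul_zero, norm_zero]
      refine mul_nonneg hC0 (add_nonneg (Set.indicator_nonneg (fun _ _ => by positivity) _) ?_)
      rw [tracePow_eq]
      exact trp_nonneg (hWp x) p
    · have hx' : x ∈ Set.Icc (-L) L := by
        rw [not_le, abs_lt] at hx
        exact ⟨hx.1.le, hx.2.le⟩
      rw [Set.indicator_of_mem hx', norm_mul, mul_comm]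
      have h1 := norm_entry_le_rtr (hWp x) a b
      have h2 := rtr_le_card_add_trp (hWp x) hp
      rw [Fintype.card_fin] at h2
      have h3 : ‖W x a b‖ ≤ m + tracePow (W x) p := h1.trans h2
      have h4 := hC x
      have h5 := norm_nonneg (W x a b)
      exact mul_le_mul h4 h3 h5 hC0

end TrialFam

end Crest.Agent.R332
end

-- ▼ part R332/FamRed2
section

/-! # Row 332: existence of reduced data -/

set_option autoImplicit false
set_option linter.unusedSectionVars false

namespace Crest.Agent.R332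

open Matrix Unitary MeasureTheory
open scoped ComplexOrder Topology ContDiff
open Crest.MathPhysics.LiebThirring

variable {m n : ℕ} {W : ℝ → Matrix (Fin m) (Fin m) ℂ} {φ : Fin n → ℝ → Vec m}

lemma integrable_of_cont_supp {g : ℝ → ℂ} (hg : Continuous g) {L : ℝ}
    (hgL : ∀ x, L ≤ |x| → g x = 0) : Integrable g := by
  refine hg.integrable_of_hasCompactSupport ?_
  refine HasCompactSupport.intro (isCompact_Icc (a := -L) (b := L)) fun x hx => hgL x ?_
  rw [Set.mem_Icc, not_and_or, not_le, not_le] at hx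
  rcases hx with h | h
  · exact (by linarith [neg_le_abs x] : L ≤ |x|)
  · exact h.le.trans (le_abs_self x)

lemma integrable_conj_W {κ : Type*} [Fintype κ] {Φ : ℝ → Matrix (Fin m) κ ℂ}
    {p : ℝ} (hp : 1 ≤ p)
    (hW : ∀ i j, Measurable fun x => W x i j)
    (hWp : ∀ x, (W x).PosSemidef) (hWi : Integrable fun x => tracePow (W x) p)
    (hΦ : Continuous Φ) {L : ℝ} (hL : ∀ x, L ≤ |x| → Φ x = 0) (i j : κ) :
    Integrable fun x => ((Φ x)ᴴ * W x * Φ x) i j := by
  simp only [Matrix.mul_apply, Matrix.conjTranspose_apply, Finset.sum_mul]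
  refine integrable_finsetSum _ fun b _ => integrable_finsetSum _ fun a _ => ?_
  have h := integrable_W_mul hp hW hWp hWi (g := fun x => star (Φ x a i) * Φ x b j)
    (by
      have h1 : Continuous fun x => Φ x a i := hΦ.matrix_elem a i
      have h2 : Continuous fun x => Φ x b j := hΦ.matrix_elem b j
      fun_prop) (L := L) (fun x hx => by simp [hL x hx]) a b
  refine h.congr (Filter.Eventually.of_forall fun x => ?_)
  show W x a b * (star (Φ x a i) * Φ x b j) = star (Φ x a i) * W x a b * Φ x b j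
  ring

lemma integrable_conj_self {κ : Type*} [Fintype κ] {Φ : ℝ → Matrix (Fin m) κ ℂ}
    (hΦ : Continuous Φ) {L : ℝ} (hL : ∀ x, L ≤ |x| → Φ x = 0) (i j : κ) :
    Integrable fun x => ((Φ x)ᴴ * Φ x) i j := by
  refine integrable_of_cont_supp (L := L) ?_ ?_
  · exact (hΦ.matrix_conjTranspose.matrix_mul hΦ).matrix_elem i j
  · intro x hx
    simp [hL x hx]

/-- The integrand of the energy matrix. -/
lemma energyMatrix_eq (W : ℝ → Matrix (Fin m) (Fin m) ℂ) (φ : Fin n → ℝ → Vec m) :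
    energyMatrix W φ = mint (fun x => (famMat (fun k => deriv (φ k)) x)ᴴ *
      famMat (fun k => deriv (φ k)) x - (famMat φ x)ᴴ * W x * famMat φ x) := by
  ext k l
  simp only [energyMatrix, mint, Matrix.of_apply]
  refine integral_congr_ae (Filter.Eventually.of_forall fun x => ?_)
  have h1 := inner_W_eq W φ x k l
  have h2 := inner_eq (fun k => deriv (φ k)) x k l
  beta_reduce at h2 ⊢
  rw [h1, h2, Matrix.sub_apply]

lemma isHermitian_mint {κ : Type*} {M : ℝ → Matrix κ κ ℂ} (hM : ∀ x, (M x).IsHermitian) :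
    (mint M).IsHermitian := by
  ext i j
  rw [Matrix.conjTranspose_apply]
  simp only [mint, Matrix.of_apply]
  rw [RCLike.star_def, ← integral_conj]
  refine integral_congr_ae (Filter.Eventually.of_forall fun x => ?_)
  exact (hM x).apply i j

theorem exists_red {p : ℝ} (hp : 1 ≤ p)
    (hW : ∀ i j, Measurable fun x => W x i j)
    (hWp : ∀ x, (W x).PosSemidef) (hWi : Integrable fun x => tracePow (W x) p)
    (hφ : IsTrialFamily φ) {γ : ℝ} (hγ : 0 < γ) :
    ∃ (ι : Type) (_ : Fintype ι) (_ : DecidableEq ι) (S : Red m W ι),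
      ∑ i, S.e i ^ γ = negMoment (energyMatrix W φ) γ := by
  classical
  set Φ₀ := famMat φ with hΦ₀
  set D₀ := famMat (fun k => deriv (φ k)) with hD₀
  have hcΦ : Continuous Φ₀ := trial_cont hφ
  have hcD : Continuous D₀ := trial_contD hφ
  obtain ⟨L, hL, hsupp⟩ := trial_supp hφ
  set M₀ : ℝ → Matrix (Fin n) (Fin n) ℂ := fun x => (D₀ x)ᴴ * D₀ x - (Φ₀ x)ᴴ * W x * Φ₀ x
    with hM₀
  set A := energyMatrix W φ with hAdef
  have hAeq : A = mint M₀ := energyMatrix_eq W φ
  have hMh : ∀ x, (M₀ x).IsHermitian := fun x =>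
    (conj_posSemidef (D₀ x)).1.sub (Matrix.isHermitian_conjTranspose_mul_mul _ (hWp x).1)
  have hA : A.IsHermitian := by rw [hAeq]; exact isHermitian_mint hMh
  have hMint : ∀ i j, Integrable fun x => M₀ x i j := by
    intro i j
    simp only [hM₀, Matrix.sub_apply]
    exact (integrable_conj_self hcD (fun x hx => (hsupp x hx).2) i j).sub
      (integrable_conj_W hp hW hWp hWi hcΦ (fun x hx => (hsupp x hx).1) i j)
  have hPint : ∀ i j, Integrable fun x => ((Φ₀ x)ᴴ * Φ₀ x) i j := fun i j =>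
    integrable_conj_self hcΦ (fun x hx => (hsupp x hx).1) i j
  have hP1 : mint (fun x => (Φ₀ x)ᴴ * Φ₀ x) = 1 := by
    ext k l
    simp only [mint, Matrix.of_apply]
    have h := hφ.2.2 k l
    rw [Matrix.one_apply, ← h]
    refine integral_congr_ae (Filter.Eventually.of_forall fun x => ?_)
    exact (inner_eq φ x k l).symm
  let ι := {i : Fin n // hA.eigenvalues i < 0}
  set U : Matrix (Fin n) (Fin n) ℂ := (hA.eigenvectorUnitary : Matrix (Fin n) (Fin n) ℂ) with hU
  let V : Matrix (Fin n) ι ℂ := U.submatrix id Subtype.val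
  have hU1 : Uᴴ * U = 1 := unitary_conj_mul hA
  have hVV : Vᴴ * V = 1 := by
    ext i j
    have h := congrFun (congrFun hU1 i.1) j.1
    rw [Matrix.mul_apply] at h ⊢
    simp only [Matrix.conjTranspose_apply, V, Matrix.submatrix_apply, id] at h ⊢
    rw [h, Matrix.one_apply, Matrix.one_apply]
    by_cases hij : i = j
    · subst hij; simp
    · have hij' : i.1 ≠ j.1 := fun h => hij (Subtype.ext h)
      rw [if_neg hij, if_neg hij']
  have hVA : Vᴴ * A * V = diagonal (fun i : ι => ((hA.eigenvalues i.1 : ℝ) : ℂ)) := by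
    have h1 : Uᴴ * A * U = diagonal (fun i => ((hA.eigenvalues i : ℝ) : ℂ)) := by
      conv_lhs => rw [eq_conj hA]
      calc Uᴴ * (U * diagonal (fun i => ((hA.eigenvalues i : ℝ) : ℂ)) * Uᴴ) * U
          = (Uᴴ * U) * diagonal (fun i => ((hA.eigenvalues i : ℝ) : ℂ)) * (Uᴴ * U) := by
            simp only [Matrix.mul_assoc]
        _ = _ := by rw [hU1, Matrix.one_mul, Matrix.mul_one]
    ext i j
    have h := congrFun (congrFun h1 i.1) j.1
    have h2 : (Vᴴ * A * V) i j = (Uᴴ * A * U) i.1 j.1 := by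
      simp only [Matrix.mul_apply, Matrix.conjTranspose_apply, V, Matrix.submatrix_apply, id]
    rw [h2, h, Matrix.diagonal_apply, Matrix.diagonal_apply]
    by_cases hij : i = j
    · subst hij; simp
    · have hij' : i.1 ≠ j.1 := fun h => hij (Subtype.ext h)
      rw [if_neg hij, if_neg hij']
  have hderiv : ∀ x a (i : ι), HasDerivAt (fun y => (Φ₀ y * V) a i) ((D₀ x * V) a i) x := by
    intro x a i
    simp only [Matrix.mul_apply]
    have h1 : ∀ k ∈ Finset.univ, HasDerivAt (fun y => Φ₀ y a k * V k i) (D₀ x a k * V k i) x :=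
      fun k _ => (trial_hasDeriv hφ x a k).mul_const _
    have h2 := HasDerivAt.sum h1
    have h3 : (∑ k, fun y => Φ₀ y a k * V k i) = fun y => ∑ k, Φ₀ y a k * V k i := by
      funext y; simp
    rw [h3] at h2
    exact h2
  refine ⟨ι, inferInstance, inferInstance,
    { Φ := fun x => Φ₀ x * V
      DΦ := fun x => D₀ x * V
      e := fun i => -hA.eigenvalues i.1
      L := L
      e_pos := fun i => by have := i.2; linarith
      L_pos := hL
      hasDeriv := hderiv
      cont := hcΦ.matrix_mul continuous_const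
      contD := hcD.matrix_mul continuous_const
      supp := fun x hx => by rw [show Φ₀ x = 0 from (hsupp x hx).1, Matrix.zero_mul]
      suppD := fun x hx => by rw [show D₀ x = 0 from (hsupp x hx).2, Matrix.zero_mul]
      orth := ?_
      integ := ?_
      energy := ?_ }, ?_⟩
  · intro i j
    have h : ∀ x, (Φ₀ x * V)ᴴ * (Φ₀ x * V) = Vᴴ * ((Φ₀ x)ᴴ * Φ₀ x) * V := by
      intro x
      rw [Matrix.conjTranspose_mul]
      simp only [Matrix.mul_assoc]
    simp only [h]
    rw [integral_mul_mul Vᴴ V hPint i j, hP1, Matrix.mul_one, hVV]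
  · intro i j
    have h : ∀ x, (Φ₀ x * V)ᴴ * W x * (Φ₀ x * V) = Vᴴ * ((Φ₀ x)ᴴ * W x * Φ₀ x) * V := by
      intro x
      rw [Matrix.conjTranspose_mul]
      simp only [Matrix.mul_assoc]
    simp only [h]
    exact integrable_mul_mul Vᴴ V (fun i j =>
      integrable_conj_W hp hW hWp hWi hcΦ (fun x hx => (hsupp x hx).1) i j) i j
  · intro i j
    have h : ∀ x, (D₀ x * V)ᴴ * (D₀ x * V) - (Φ₀ x * V)ᴴ * W x * (Φ₀ x * V) =
        Vᴴ * M₀ x * V := by
      intro x
      rw [Matrix.conjTranspose_mul, Matrix.conjTranspose_mul, hM₀]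
      simp only [Matrix.mul_sub, Matrix.sub_mul, Matrix.mul_assoc]
    simp only [h]
    rw [integral_mul_mul Vᴴ V hMint i j, ← hAeq, hVA]
    rw [Matrix.diagonal_apply, Matrix.diagonal_apply]
    split_ifs with h
    · push_cast; ring
    · simp
  · show ∑ i : ι, (-hA.eigenvalues i.1) ^ γ = negMoment A γ
    have h1 : negMoment A γ = ∑ i, (max (-hA.eigenvalues i) 0) ^ γ := rtr_cfc hA _
    rw [h1]
    have h2 : ∑ i : ι, (-hA.eigenvalues i.1) ^ γ =
        ∑ i ∈ Finset.univ.filter (fun i => hA.eigenvalues i < 0), (-hA.eigenvalues i) ^ γ := by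
      rw [← Finset.sum_subtype_eq_sum_filter]
      simp only [Finset.subtype_univ]
      rfl
    rw [h2, Finset.sum_filter]
    refine Finset.sum_congr rfl fun i _ => ?_
    split_ifs with h
    · rw [max_eq_left (by linarith)]
    · rw [max_eq_right (by linarith), Real.zero_rpow hγ.ne']

end Crest.Agent.R332
end

-- ▼ part R332/FamStep
section

/-! # Row 332: the basic identity (step (1)) for reduced data and a Riccati path -/

set_option autoImplicit false
set_option linter.unusedSectionVars false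

namespace Crest.Agent.R332

open Matrix Unitary MeasureTheory Set
open scoped ComplexOrder Topology ContDiff
open Crest.MathPhysics.LiebThirring

section matcalc

variable {a b : Type*} [Fintype a] [Fintype b] [DecidableEq a] [DecidableEq b]


lemma hasDerivWithinAt_mul_entry {κ : Type*} {A : ℝ → Matrix κ a ℂ} {B : ℝ → Matrix a b ℂ}
    {A' : Matrix κ a ℂ} {B' : Matrix a b ℂ} {s : Set ℝ} {x : ℝ}
    (hA : ∀ i j, HasDerivWithinAt (fun y => A y i j) (A' i j) s x)
    (hB : ∀ i j, HasDerivWithinAt (fun y => B y i j) (B' i j) s x) (i : κ) (j : b) :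
    HasDerivWithinAt (fun y => (A y * B y) i j) ((A' * B x + A x * B') i j) s x := by
  simp only [Matrix.mul_apply, Matrix.add_apply, ← Finset.sum_add_distrib]
  have h := HasDerivWithinAt.sum (u := (Finset.univ : Finset a))
    (A := fun k y => A y i k * B y k j) (A' := fun k => A' i k * B x k j + A x i k * B' k j)
    (s := s) (x := x) (fun k _ => (hA i k).mul (hB k j))
  have e : (∑ k, fun y => A y i k * B y k j) = fun y => ∑ k, A y i k * B y k j := by
    funext y; simp
  rw [e] at h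
  exact h

lemma hasDerivWithinAt_conj_entry {A : ℝ → Matrix a b ℂ} {A' : Matrix a b ℂ} {s : Set ℝ} {x : ℝ}
    (hA : ∀ i j, HasDerivWithinAt (fun y => A y i j) (A' i j) s x) (i : b) (j : a) :
    HasDerivWithinAt (fun y => (A y)ᴴ i j) (A'ᴴ i j) s x := by
  simp only [Matrix.conjTranspose_apply]
  exact (hA j i).star

lemma hasDerivWithinAt_rtr {A : ℝ → Matrix a a ℂ} {A' : Matrix a a ℂ} {s : Set ℝ} {x : ℝ}
    (hA : ∀ i j, HasDerivWithinAt (fun y => A y i j) (A' i j) s x) :
    HasDerivWithinAt (fun y => rtr (A y)) (rtr A') s x := by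
  have h := HasDerivWithinAt.sum (u := (Finset.univ : Finset a))
    (A := fun k y => A y k k) (A' := fun k => A' k k)
    (s := s) (x := x) (fun k _ => hA k k)
  have h2 := Complex.reCLM.hasFDerivAt.comp_hasDerivWithinAt x h
  have e : (fun y => rtr (A y)) = Complex.reCLM ∘ (∑ k, fun y => A y k k) := by
    funext y; simp [rtr, Matrix.trace]
  have e2 : rtr A' = Complex.reCLM (∑ k, A' k k) := by
    simp [rtr, Matrix.trace]
  rw [e, e2]
  exact h2

lemma hasDerivWithinAt_rtr_mul {A : ℝ → Matrix a b ℂ} {B : ℝ → Matrix b a ℂ}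
    {A' : Matrix a b ℂ} {B' : Matrix b a ℂ} {s : Set ℝ} {x : ℝ}
    (hA : ∀ i j, HasDerivWithinAt (fun y => A y i j) (A' i j) s x)
    (hB : ∀ i j, HasDerivWithinAt (fun y => B y i j) (B' i j) s x) :
    HasDerivWithinAt (fun y => rtr (A y * B y)) (rtr (A' * B x) + rtr (A x * B')) s x := by
  have h := hasDerivWithinAt_rtr (A := fun y => A y * B y) (A' := A' * B x + A x * B')
    (hasDerivWithinAt_mul_entry hA hB)
  rwa [rtr_add] at h

end matcalc

variable {m : ℕ} {W : ℝ → Matrix (Fin m) (Fin m) ℂ} {ι : Type} [Fintype ι] [DecidableEq ι]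

namespace Red

variable (S : Red m W ι)

/-- the weight matrix `p(x) = Φᴴ Φ` -/
noncomputable def p (x : ℝ) : Matrix ι ι ℂ := (S.Φ x)ᴴ * S.Φ x

/-- `Ψ = Φ C` -/
noncomputable def Ψ (C : Matrix ι ι ℂ) (x : ℝ) : Matrix (Fin m) ι ℂ := S.Φ x * C

noncomputable def DΨ (C : Matrix ι ι ℂ) (x : ℝ) : Matrix (Fin m) ι ℂ := S.DΦ x * C

/-- `P = Ψᴴ Ψ` -/
noncomputable def P (C : Matrix ι ι ℂ) (x : ℝ) : Matrix ι ι ℂ := (S.Ψ C x)ᴴ * S.Ψ C x

/-- `R = Ψ Ψᴴ` -/
noncomputable def R (C : Matrix ι ι ℂ) (x : ℝ) : Matrix (Fin m) (Fin m) ℂ :=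
  S.Ψ C x * (S.Ψ C x)ᴴ

/-- `E = diag e` -/
noncomputable def E : Matrix ι ι ℂ := diagonal (fun i => ((S.e i : ℝ) : ℂ))

lemma p_cont : Continuous S.p := S.cont.matrix_conjTranspose.matrix_mul S.cont

lemma p_pos (x : ℝ) : (S.p x).PosSemidef := conj_posSemidef _

lemma Ψ_cont (C : Matrix ι ι ℂ) : Continuous (S.Ψ C) := S.cont.matrix_mul continuous_const

lemma DΨ_cont (C : Matrix ι ι ℂ) : Continuous (S.DΨ C) := S.contD.matrix_mul continuous_const

lemma P_cont (C : Matrix ι ι ℂ) : Continuous (S.P C) :=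
  (S.Ψ_cont C).matrix_conjTranspose.matrix_mul (S.Ψ_cont C)

lemma R_cont (C : Matrix ι ι ℂ) : Continuous (S.R C) :=
  (S.Ψ_cont C).matrix_mul (S.Ψ_cont C).matrix_conjTranspose

lemma P_pos (C : Matrix ι ι ℂ) (x : ℝ) : (S.P C x).PosSemidef := conj_posSemidef _

lemma R_pos (C : Matrix ι ι ℂ) (x : ℝ) : (S.R C x).PosSemidef := self_conj_posSemidef _

lemma P_eq {C : Matrix ι ι ℂ} (hC : C.IsHermitian) (x : ℝ) : S.P C x = C * S.p x * C := by
  rw [P, Ψ, Matrix.conjTranspose_mul, hC.eq, p]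
  simp only [Matrix.mul_assoc]

lemma Ψ_supp (C : Matrix ι ι ℂ) {x : ℝ} (hx : S.L ≤ |x|) : S.Ψ C x = 0 := by
  rw [Ψ, S.supp x hx, Matrix.zero_mul]

lemma DΨ_supp (C : Matrix ι ι ℂ) {x : ℝ} (hx : S.L ≤ |x|) : S.DΨ C x = 0 := by
  rw [DΨ, S.suppD x hx, Matrix.zero_mul]

lemma Ψ_hasDeriv (C : Matrix ι ι ℂ) (x : ℝ) (i : Fin m) (j : ι) :
    HasDerivAt (fun y => S.Ψ C y i j) (S.DΨ C x i j) x := by
  have h := hasDerivWithinAt_mul_entry (A := S.Φ) (A' := S.DΦ x) (B := fun _ => C) (B' := 0)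
    (s := univ) (x := x) (fun i j => (S.hasDeriv x i j).hasDerivWithinAt)
    (fun i j => hasDerivWithinAt_const _ _ _) i j
  rw [Matrix.mul_zero, add_zero, hasDerivWithinAt_univ] at h
  exact h

/-- The Young defect density. -/
noncomputable def yd (α : ℝ) (C : Matrix ι ι ℂ) (x : ℝ) : ℝ :=
  (α / (1 + α)) ^ α / (1 + α) * trp (W x) (1 + α) - rtr (W x * S.R C x) +
    trp (S.R C x) (1 + 1 / α)

/-- The kinetic defect density `|Ψ' - Ψ F|²`. -/
noncomputable def kd (C : Matrix ι ι ℂ) (F : ℝ → Matrix ι ι ℂ) (x : ℝ) : ℝ :=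
  rtr ((S.DΨ C x - S.Ψ C x * F x)ᴴ * (S.DΨ C x - S.Ψ C x * F x))

lemma rtr_conj_self_nonneg {a b : Type*} [Fintype a] [Fintype b] [DecidableEq a] [DecidableEq b]
    (X : Matrix a b ℂ) : 0 ≤ rtr (Xᴴ * X) := by
  rw [rtr_eq_sum (conj_posSemidef X).1]
  exact Finset.sum_nonneg fun i _ => (conj_posSemidef X).eigenvalues_nonneg i

lemma kd_nonneg (C : Matrix ι ι ℂ) (F : ℝ → Matrix ι ι ℂ) (x : ℝ) : 0 ≤ S.kd C F x :=
  rtr_conj_self_nonneg _

lemma yd_nonneg {α : ℝ} (hα : 0 < α) (hWp : ∀ x, (W x).PosSemidef) (C : Matrix ι ι ℂ) (x : ℝ) :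
    0 ≤ S.yd α C x := matrix_young hα (hWp x) (S.R_pos C x)

end Red

section ints

variable {a : Type*} [Fintype a] [DecidableEq a]

lemma integrable_rtr {M : ℝ → Matrix a a ℂ} (hM : ∀ i j, Integrable fun x => M x i j) :
    Integrable fun x => rtr (M x) := by
  simp only [rtr, Matrix.trace, Matrix.diag_apply, Complex.re_sum]
  exact integrable_finsetSum _ fun i _ => (hM i i).re

lemma integral_rtr {M : ℝ → Matrix a a ℂ} (hM : ∀ i j, Integrable fun x => M x i j) :
    ∫ x, rtr (M x) = rtr (mint M) := by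
  simp only [rtr, Matrix.trace, Matrix.diag_apply, Complex.re_sum, mint, Matrix.of_apply]
  rw [integral_finsetSum]
  · refine Finset.sum_congr rfl fun i _ => ?_
    exact integral_re (hM i i)
  · exact fun i _ => (hM i i).re

lemma integrable_mul_right {b c : Type*} [Fintype b] (C : Matrix b c ℂ) {M : ℝ → Matrix a b ℂ}
    (hM : ∀ i j, Integrable fun x => M x i j) (i : a) (j : c) :
    Integrable fun x => (M x * C) i j := by
  simp only [Matrix.mul_apply]
  exact integrable_finsetSum _ fun l _ => (hM i l).mul_const _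

lemma mint_mul_right {b c : Type*} [Fintype b] (C : Matrix b c ℂ) {M : ℝ → Matrix a b ℂ}
    (hM : ∀ i j, Integrable fun x => M x i j) : mint (fun x => M x * C) = mint M * C := by
  ext i j
  simp only [Matrix.mul_apply, mint, Matrix.of_apply]
  rw [integral_finsetSum]
  · refine Finset.sum_congr rfl fun l _ => ?_
    rw [integral_mul_const]
  · exact fun l _ => (hM i l).mul_const _

end ints

namespace Red

variable (S : Red m W ι)

lemma p_integrable (i j : ι) : Integrable fun x => S.p x i j :=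
  integrable_conj_self S.cont S.supp i j

lemma mint_p : mint S.p = 1 := by
  ext i j
  exact S.orth i j

lemma integral_p_mul (B : Matrix ι ι ℂ) : ∫ x, rtr (S.p x * B) = rtr B := by
  rw [integral_rtr (M := fun x => S.p x * B) (integrable_mul_right B S.p_integrable),
    mint_mul_right B S.p_integrable, mint_p, Matrix.one_mul]


lemma q_integrable (i j : ι) :
    Integrable fun x => ((S.DΦ x)ᴴ * S.DΦ x - (S.Φ x)ᴴ * W x * S.Φ x) i j := by
  simp only [Matrix.sub_apply]
  exact (integrable_conj_self S.contD S.suppD i j).sub (S.integ i j)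

lemma mint_q : mint (fun x => (S.DΦ x)ᴴ * S.DΦ x - (S.Φ x)ᴴ * W x * S.Φ x) = -S.E := by
  ext i j
  exact S.energy i j

lemma integral_q_mul (B : Matrix ι ι ℂ) :
    ∫ x, rtr (((S.DΦ x)ᴴ * S.DΦ x - (S.Φ x)ᴴ * W x * S.Φ x) * B) = -rtr (S.E * B) := by
  rw [integral_rtr (M := fun x => ((S.DΦ x)ᴴ * S.DΦ x - (S.Φ x)ᴴ * W x * S.Φ x) * B)
    (integrable_mul_right B S.q_integrable), mint_mul_right B S.q_integrable, mint_q,
    Matrix.neg_mul, rtr_neg]


lemma rtr_P_mul {C : Matrix ι ι ℂ} (hC : C.IsHermitian) (B : Matrix ι ι ℂ) (x : ℝ) :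
    rtr (S.P C x * B) = rtr (S.p x * (C * B * C)) := by
  rw [S.P_eq hC, rtr_mul_comm (S.p x)]
  rw [show C * S.p x * C * B = C * (S.p x * (C * B)) by simp only [Matrix.mul_assoc],
    rtr_mul_comm C, show S.p x * (C * B) * C = S.p x * (C * B * C) by
      simp only [Matrix.mul_assoc], rtr_mul_comm]

lemma integral_P_mul {C : Matrix ι ι ℂ} (hC : C.IsHermitian) (B : Matrix ι ι ℂ) :
    ∫ x, rtr (S.P C x * B) = rtr (C * C * B) := by
  simp only [S.rtr_P_mul hC]
  rw [integral_p_mul, rtr_mul_comm (C * B) C, ← Matrix.mul_assoc]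


/-- `∫ (|Ψ'|² - tr(W R)) = - tr(C² E)`. -/
lemma integral_kin {C : Matrix ι ι ℂ} (hC : C.IsHermitian) :
    ∫ x, (rtr ((S.DΨ C x)ᴴ * S.DΨ C x) - rtr (W x * S.R C x)) = -rtr (C * C * S.E) := by
  have h : ∀ x, rtr ((S.DΨ C x)ᴴ * S.DΨ C x) - rtr (W x * S.R C x) =
      rtr (((S.DΦ x)ᴴ * S.DΦ x - (S.Φ x)ᴴ * W x * S.Φ x) * (C * C)) := by
    intro x
    have h1 : rtr (W x * S.R C x) = rtr ((S.Φ x)ᴴ * W x * S.Φ x * (C * C)) := by
      rw [R, Ψ, Matrix.conjTranspose_mul, hC.eq]
      rw [show W x * (S.Φ x * C * (C * (S.Φ x)ᴴ)) = (W x * S.Φ x * (C * C)) * (S.Φ x)ᴴ by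
        simp only [Matrix.mul_assoc], rtr_mul_comm]
      simp only [Matrix.mul_assoc]
    have h2 : rtr ((S.DΨ C x)ᴴ * S.DΨ C x) = rtr ((S.DΦ x)ᴴ * S.DΦ x * (C * C)) := by
      rw [DΨ, Matrix.conjTranspose_mul, hC.eq]
      rw [show C * (S.DΦ x)ᴴ * (S.DΦ x * C) = C * ((S.DΦ x)ᴴ * S.DΦ x * C) by
        simp only [Matrix.mul_assoc], rtr_mul_comm]
      simp only [Matrix.mul_assoc]
    rw [h1, h2, Matrix.sub_mul, rtr_sub]
  simp only [h]
  rw [integral_q_mul, rtr_mul_comm]

lemma integrable_kin {C : Matrix ι ι ℂ} (hC : C.IsHermitian) :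
    Integrable fun x => rtr (W x * S.R C x) := by
  have h1 : ∀ x, rtr (W x * S.R C x) = rtr ((S.Φ x)ᴴ * W x * S.Φ x * (C * C)) := by
    intro x
    rw [R, Ψ, Matrix.conjTranspose_mul, hC.eq]
    rw [show W x * (S.Φ x * C * (C * (S.Φ x)ᴴ)) = (W x * S.Φ x * (C * C)) * (S.Φ x)ᴴ by
      simp only [Matrix.mul_assoc], rtr_mul_comm]
    simp only [Matrix.mul_assoc]
  simp only [h1]
  exact integrable_rtr (integrable_mul_right _ S.integ)

lemma integrable_real_of_cont_supp {g : ℝ → ℝ} (hg : Continuous g) {L : ℝ}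
    (hgL : ∀ x, L ≤ |x| → g x = 0) : Integrable g := by
  refine hg.integrable_of_hasCompactSupport ?_
  refine HasCompactSupport.intro (isCompact_Icc (a := -L) (b := L)) fun x hx => hgL x ?_
  rw [Set.mem_Icc, not_and_or, not_le, not_le] at hx
  rcases hx with h | h
  · exact (by linarith [neg_le_abs x] : L ≤ |x|)
  · exact h.le.trans (le_abs_self x)

lemma integral_eq_interval {g : ℝ → ℝ} {L : ℝ} (hL : 0 < L)
    (hgL : ∀ x, L ≤ |x| → g x = 0) : ∫ x, g x = ∫ x in (-L)..L, g x := by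
  rw [intervalIntegral.integral_of_le (by linarith)]
  refine (setIntegral_eq_integral_of_forall_compl_eq_zero fun x hx => hgL x ?_).symm
  rw [Set.mem_Ioc, not_and_or, not_lt, not_le] at hx
  rcases hx with h | h
  · exact (by linarith [neg_le_abs x] : L ≤ |x|)
  · exact h.le.trans (le_abs_self x)

lemma trp_supp {a : Type*} [Fintype a] [DecidableEq a] {q : ℝ} (hq : 0 < q) :
    trp (0 : Matrix a a ℂ) q = 0 := by
  rw [trp, mpow, cfc_apply_zero, Real.zero_rpow hq.ne', map_zero, rtr_zero]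

lemma R_supp (C : Matrix ι ι ℂ) {x : ℝ} (hx : S.L ≤ |x|) : S.R C x = 0 := by
  rw [R, S.Ψ_supp C hx, Matrix.zero_mul]

lemma P_supp (C : Matrix ι ι ℂ) {x : ℝ} (hx : S.L ≤ |x|) : S.P C x = 0 := by
  rw [P, S.Ψ_supp C hx, Matrix.mul_zero]

lemma integrable_kin2 (C : Matrix ι ι ℂ) :
    Integrable fun x => rtr ((S.DΨ C x)ᴴ * S.DΨ C x) := by
  refine integrable_real_of_cont_supp (L := S.L) ?_ ?_
  · exact continuous_rtr ((S.DΨ_cont C).matrix_conjTranspose.matrix_mul (S.DΨ_cont C))
  · intro x hx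
    rw [S.DΨ_supp C hx, Matrix.mul_zero, rtr_zero]

lemma integrable_trp_R (C : Matrix ι ι ℂ) {q : ℝ} (hq : 0 < q) :
    Integrable fun x => trp (S.R C x) q := by
  refine integrable_real_of_cont_supp (L := S.L) ?_ ?_
  · exact continuous_trp (S.R_cont C) (fun x => (S.R_pos C x).1) hq.le
  · intro x hx
    rw [S.R_supp C hx, trp_supp hq]

lemma trp_R_eq (C : Matrix ι ι ℂ) {q : ℝ} (hq : 0 < q) (x : ℝ) :
    trp (S.R C x) q = trp (S.P C x) q := trp_rect (S.Ψ C x) hq

end Red

end Crest.Agent.R332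
end

-- ▼ part R332/FamId

/-! # Row 332: the basic identity -/

set_option autoImplicit false
set_option linter.unusedSectionVars false

namespace Crest.Agent.R332

open Matrix Unitary MeasureTheory Set
open scoped ComplexOrder Topology ContDiff
open Crest.MathPhysics.LiebThirring

variable {m : ℕ} {W : ℝ → Matrix (Fin m) (Fin m) ℂ} {ι : Type} [Fintype ι] [DecidableEq ι]

lemma continuousOn_matmul {T : Type*} [TopologicalSpace T] {a b c : Type*} [Fintype b]
    {A : T → Matrix a b ℂ} {B : T → Matrix b c ℂ} {s : Set T} (hA : ContinuousOn A s)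
    (hB : ContinuousOn B s) : ContinuousOn (fun x => A x * B x) s := by
  have h : Continuous (fun p : Matrix a b ℂ × Matrix b c ℂ => p.1 * p.2) :=
    continuous_fst.matrix_mul continuous_snd
  exact h.comp_continuousOn (hA.prodMk hB)

namespace Red

variable (S : Red m W ι)

/-- derivative of `P = ΨᴴΨ` -/
noncomputable def DP (C : Matrix ι ι ℂ) (x : ℝ) : Matrix ι ι ℂ :=
  (S.DΨ C x)ᴴ * S.Ψ C x + (S.Ψ C x)ᴴ * S.DΨ C x

lemma P_hasDeriv (C : Matrix ι ι ℂ) (x : ℝ) (s : Set ℝ) (i j : ι) :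
    HasDerivWithinAt (fun y => S.P C y i j) (S.DP C x i j) s x :=
  hasDerivWithinAt_mul_entry
    (hasDerivWithinAt_conj_entry fun i j => (S.Ψ_hasDeriv C x i j).hasDerivWithinAt)
    (fun i j => (S.Ψ_hasDeriv C x i j).hasDerivWithinAt) i j

lemma DP_cont (C : Matrix ι ι ℂ) : Continuous (S.DP C) :=
  ((S.DΨ_cont C).matrix_conjTranspose.matrix_mul (S.Ψ_cont C)).add
    ((S.Ψ_cont C).matrix_conjTranspose.matrix_mul (S.DΨ_cont C))

/-- pointwise algebra for the kinetic defect -/
lemma kd_eq (C : Matrix ι ι ℂ) (F : ℝ → Matrix ι ι ℂ) (x : ℝ) (hF : (F x).IsHermitian) :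
    S.kd C F x = rtr ((S.DΨ C x)ᴴ * S.DΨ C x) - rtr (S.DP C x * F x) +
      rtr (S.P C x * (F x * F x)) := by
  set A := S.DΨ C x
  set B := S.Ψ C x
  set G := F x
  have hG : Gᴴ = G := hF.eq
  have e1 : (A - B * G)ᴴ * (A - B * G) = Aᴴ * A - Aᴴ * B * G - G * (Bᴴ * A) +
      G * (Bᴴ * B * G) := by
    rw [Matrix.conjTranspose_sub, Matrix.conjTranspose_mul, hG]
    simp only [Matrix.mul_sub, Matrix.sub_mul, Matrix.mul_assoc]
    abel
  have e2 : S.DP C x * G = Aᴴ * B * G + Bᴴ * A * G := by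
    rw [DP, Matrix.add_mul]
  show rtr ((A - B * G)ᴴ * (A - B * G)) = rtr (Aᴴ * A) - rtr (S.DP C x * G) +
      rtr (Bᴴ * B * (G * G))
  rw [e1, e2, rtr_add, rtr_sub, rtr_sub, rtr_add, rtr_mul_comm G, rtr_mul_comm G]
  simp only [Matrix.mul_assoc]
  ring

/-- The path hypotheses. -/
structure IsPath (α : ℝ) (C K : Matrix ι ι ℂ) (F : ℝ → Matrix ι ι ℂ) : Prop where
  herm : ∀ x ∈ Icc (-S.L) S.L, (F x).IsHermitian
  deriv : ∀ x ∈ Icc (-S.L) S.L, ∀ i j, HasDerivWithinAt (fun y => F y i j)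
    ((K * K - F x * F x - (1 + 1 / α) • mpow (S.P C x) (1 / α)) i j) (Icc (-S.L) S.L) x

variable {S}

lemma IsPath.continuousOn {α : ℝ} {C K : Matrix ι ι ℂ} {F : ℝ → Matrix ι ι ℂ}
    (h : S.IsPath α C K F) : ContinuousOn F (Icc (-S.L) S.L) := by
  refine continuousOn_pi.2 fun i => continuousOn_pi.2 fun j => ?_
  exact fun x hx => (h.deriv x hx i j).continuousWithinAt

variable (S)

theorem step_identity {α : ℝ} (hα : 0 < α) {C K : Matrix ι ι ℂ} (hC : C.IsHermitian)
    {F : ℝ → Matrix ι ι ℂ} (hF : S.IsPath α C K F)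
    (hWi : Integrable fun x => trp (W x) (1 + α)) :
    (α / (1 + α)) ^ α / (1 + α) * ∫ x, trp (W x) (1 + α) =
      (∫ x, S.yd α C x) + (∫ x in (-S.L)..S.L, S.kd C F x) + rtr (C * C * (S.E - K * K)) +
        (1 / α) * ∫ x in (-S.L)..S.L, trp (S.P C x) (1 + 1 / α) := by
  have hr : 0 < 1 + 1 / α := by positivity
  have hr0 : 0 ≤ 1 / α := by positivity
  have hL := S.L_pos
  have hLL : -S.L ≤ S.L := by linarith
  -- the boundary term vanishes
  set D : ℝ → Matrix ι ι ℂ := fun x => K * K - F x * F x -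
    (1 + 1 / α) • mpow (S.P C x) (1 / α) with hD
  have hFc := hF.continuousOn
  have hmc : Continuous fun x => mpow (S.P C x) (1 / α) :=
    continuous_mpow (S.P_cont C) (fun x => (S.P_pos C x).1) hr0
  have hmc2 : Continuous fun x => (1 + 1 / α) • mpow (S.P C x) (1 / α) := by
    exact hmc.const_smul (1 + 1 / α)
  have hDc : ContinuousOn D (Icc (-S.L) S.L) :=
    (continuousOn_const.sub (continuousOn_matmul hFc hFc)).sub hmc2.continuousOn
  have hg : ∀ x ∈ Icc (-S.L) S.L, HasDerivWithinAt (fun y => rtr (S.P C y * F y))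
      (rtr (S.DP C x * F x) + rtr (S.P C x * D x)) (Icc (-S.L) S.L) x := fun x hx =>
    hasDerivWithinAt_rtr_mul (fun i j => S.P_hasDeriv C x _ i j) (hF.deriv x hx)
  have hcg1 : ContinuousOn (fun x => rtr (S.DP C x * F x)) (Icc (-S.L) S.L) :=
    continuousOn_rtr (continuousOn_matmul (S.DP_cont C).continuousOn hFc)
  have hcg2 : ContinuousOn (fun x => rtr (S.P C x * D x)) (Icc (-S.L) S.L) :=
    continuousOn_rtr (continuousOn_matmul (S.P_cont C).continuousOn hDc)
  have hI : ∀ g : ℝ → ℝ, ContinuousOn g (Icc (-S.L) S.L) →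
      IntervalIntegrable g volume (-S.L) S.L := fun g hg => by
    apply ContinuousOn.intervalIntegrable
    rwa [uIcc_of_le hLL]
  have hzero : ∫ x in (-S.L)..S.L, (rtr (S.DP C x * F x) + rtr (S.P C x * D x)) = 0 := by
    rw [intervalIntegral.integral_eq_sub_of_hasDerivAt_of_le hLL
      (f := fun y => rtr (S.P C y * F y))
      (fun x hx => (hg x hx).continuousWithinAt)
      (fun x hx => (hg x (Ioo_subset_Icc_self hx)).hasDerivAt (Icc_mem_nhds hx.1 hx.2))
      (hI _ (hcg1.add hcg2))]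
    have h1 : S.P C S.L = 0 := S.P_supp C (by rw [abs_of_pos hL])
    have h2 : S.P C (-S.L) = 0 := S.P_supp C (by rw [abs_neg, abs_of_pos hL])
    simp only [h1, h2, Matrix.zero_mul, rtr_zero, sub_zero]
  -- pointwise identity on the interval
  have hpt : ∀ x ∈ Icc (-S.L) S.L, S.kd C F x = rtr ((S.DΨ C x)ᴴ * S.DΨ C x) -
      (rtr (S.DP C x * F x) + rtr (S.P C x * D x)) + rtr (S.P C x * (K * K)) -
      (1 + 1 / α) * trp (S.P C x) (1 + 1 / α) := by
    intro x hx
    rw [S.kd_eq C F x (hF.herm x hx)]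
    have h1 : S.P C x * D x = S.P C x * (K * K) - S.P C x * (F x * F x) -
        (1 + 1 / α) • mpow (S.P C x) (1 + 1 / α) := by
      rw [hD, mpow_add_one (S.P_pos C x) hr0]
      simp only [Matrix.mul_sub, Matrix.mul_smul]
    rw [h1, rtr_sub, rtr_sub, rtr_smul]
    simp only [trp]
    ring
  have hk : ∫ x in (-S.L)..S.L, S.kd C F x = (∫ x in (-S.L)..S.L, rtr ((S.DΨ C x)ᴴ * S.DΨ C x))
      + (∫ x in (-S.L)..S.L, rtr (S.P C x * (K * K))) -
      (1 + 1 / α) * ∫ x in (-S.L)..S.L, trp (S.P C x) (1 + 1 / α) := by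
    have hc1 : ContinuousOn (fun x => rtr ((S.DΨ C x)ᴴ * S.DΨ C x)) (Icc (-S.L) S.L) :=
      (continuous_rtr ((S.DΨ_cont C).matrix_conjTranspose.matrix_mul (S.DΨ_cont C))).continuousOn
    have hc2 : ContinuousOn (fun x => rtr (S.P C x * (K * K))) (Icc (-S.L) S.L) :=
      (continuous_rtr ((S.P_cont C).matrix_mul continuous_const)).continuousOn
    have hc3 : ContinuousOn (fun x => trp (S.P C x) (1 + 1 / α)) (Icc (-S.L) S.L) :=
      (continuous_trp (S.P_cont C) (fun x => (S.P_pos C x).1) hr.le).continuousOn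
    rw [intervalIntegral.integral_congr (g := fun x => rtr ((S.DΨ C x)ᴴ * S.DΨ C x) -
      (rtr (S.DP C x * F x) + rtr (S.P C x * D x)) + rtr (S.P C x * (K * K)) -
      (1 + 1 / α) * trp (S.P C x) (1 + 1 / α)) (by
        rw [uIcc_of_le hLL]; exact hpt)]
    have i12 : IntervalIntegrable (fun x => rtr (S.DP C x * F x) + rtr (S.P C x * D x))
        volume (-S.L) S.L := hI _ (hcg1.add hcg2)
    have i1 := hI _ hc1
    have i2 := hI _ hc2
    have i3 : IntervalIntegrable (fun x => (1 + 1 / α) * trp (S.P C x) (1 + 1 / α))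
        volume (-S.L) S.L := (hI _ hc3).const_mul _
    have i4 : IntervalIntegrable (fun x => rtr ((S.DΨ C x)ᴴ * S.DΨ C x) -
      (rtr (S.DP C x * F x) + rtr (S.P C x * D x))) volume (-S.L) S.L := i1.sub i12
    have i5 : IntervalIntegrable (fun x => rtr ((S.DΨ C x)ᴴ * S.DΨ C x) -
      (rtr (S.DP C x * F x) + rtr (S.P C x * D x)) + rtr (S.P C x * (K * K)))
      volume (-S.L) S.L := i4.add i2
    rw [intervalIntegral.integral_sub i5 i3, intervalIntegral.integral_add i4 i2,
      intervalIntegral.integral_sub i1 i12, hzero, intervalIntegral.integral_const_mul]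
    ring
  -- whole line integrals
  have hw1 : ∫ x in (-S.L)..S.L, rtr ((S.DΨ C x)ᴴ * S.DΨ C x) =
      ∫ x, rtr ((S.DΨ C x)ᴴ * S.DΨ C x) :=
    (integral_eq_interval hL fun x hx => by
      rw [S.DΨ_supp C hx, Matrix.mul_zero, rtr_zero]).symm
  have hw2 : ∫ x in (-S.L)..S.L, rtr (S.P C x * (K * K)) = rtr (C * C * (K * K)) := by
    rw [← S.integral_P_mul hC]
    exact (integral_eq_interval hL fun x hx => by
      rw [S.P_supp C hx, Matrix.zero_mul, rtr_zero]).symm
  have hw3 : ∫ x in (-S.L)..S.L, trp (S.P C x) (1 + 1 / α) =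
      ∫ x, trp (S.R C x) (1 + 1 / α) := by
    simp only [S.trp_R_eq C hr]
    exact (integral_eq_interval hL fun x hx => by
      rw [S.P_supp C hx, trp_supp hr]).symm
  have hkin := S.integral_kin hC
  rw [integral_sub (S.integrable_kin2 C) (S.integrable_kin hC)] at hkin
  have hyd : ∫ x, S.yd α C x = (α / (1 + α)) ^ α / (1 + α) * (∫ x, trp (W x) (1 + α)) -
      (∫ x, rtr (W x * S.R C x)) + ∫ x, trp (S.R C x) (1 + 1 / α) := by
    simp only [yd]
    have i1 : Integrable (fun x => (α / (1 + α)) ^ α / (1 + α) * trp (W x) (1 + α)) :=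
      hWi.const_mul _
    have i2 : Integrable (fun x => (α / (1 + α)) ^ α / (1 + α) * trp (W x) (1 + α) -
        rtr (W x * S.R C x)) := i1.sub (S.integrable_kin hC)
    rw [integral_add i2 (S.integrable_trp_R C hr), integral_sub i1 (S.integrable_kin hC),
      integral_const_mul]
  rw [Matrix.mul_sub, rtr_sub, hyd, hk, hw1, hw2, hw3]
  linarith

end Red

end Crest.Agent.R332
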