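import Crest.Agent.R332.FullKlein
import Crest.Agent.R332.FullTop
import Crest.Agent.R332.TrBasic
import Crest.Agent.R332.AsmCore

-- ▼ part R332/FullPos
section

/-! # Frobenius norm, Lipschitz functional calculus, positive part (row 332) -/

set_option autoImplicit false

open scoped ComplexOrder Matrix
open scoped Matrix.Norms.Frobenius
open Matrix

namespace Crest.Agent.R332.Full

variable {ι : Type*} [Fintype ι]

/-- Squared Frobenius norm. -/
lemma frob_sq' (A : Matrix ι ι ℂ) : ‖A‖ ^ 2 = ∑ i, ∑ j, ‖A i j‖ ^ 2 := by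
  rw [frobenius_norm_def, ← Real.rpow_natCast, ← Real.rpow_mul (by positivity)]
  norm_num

lemma frob_sq {A : Matrix ι ι ℂ} (hA : A.IsHermitian) : ‖A‖ ^ 2 = tp A A := by
  rw [frob_sq', tp_self_eq hA]

lemma abs_tp_le (A B : Matrix ι ι ℂ) : |tp A B| ≤ ‖A‖ * ‖B‖ := by
  have h1 : |tp A B| ≤ ∑ i, ∑ j, ‖A i j‖ * ‖B j i‖ := by
    rw [tp_eq_sum]
    refine (Finset.abs_sum_le_sum_abs _ _).trans (Finset.sum_le_sum fun i _ => ?_)
    refine (Finset.abs_sum_le_sum_abs _ _).trans (Finset.sum_le_sum fun j _ => ?_)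
    rw [← norm_mul]
    exact Complex.abs_re_le_norm _
  have h2 : (∑ i, ∑ j, ‖A i j‖ * ‖B j i‖) =
      ∑ q : ι × ι, ‖A q.1 q.2‖ * ‖B q.2 q.1‖ := by
    rw [← Finset.univ_product_univ, Finset.sum_product]
  have h3 := Finset.sum_mul_sq_le_sq_mul_sq (Finset.univ : Finset (ι × ι))
    (fun q => ‖A q.1 q.2‖) (fun q => ‖B q.2 q.1‖)
  have h4 : (∑ q : ι × ι, ‖A q.1 q.2‖ ^ 2) = ‖A‖ ^ 2 := by
    rw [frob_sq', ← Finset.univ_product_univ, Finset.sum_product]
  have h5 : (∑ q : ι × ι, ‖B q.2 q.1‖ ^ 2) = ‖B‖ ^ 2 := by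
    rw [frob_sq', ← Finset.univ_product_univ, Finset.sum_product, Finset.sum_comm]
  rw [h4, h5, ← mul_pow] at h3
  rw [h2] at h1
  refine h1.trans ?_
  exact (abs_le_of_sq_le_sq' h3 (by positivity)).2

variable [DecidableEq ι]

/-- Lipschitz functions are operator Lipschitz for the Frobenius norm. -/
theorem norm_cf_sub_cf_le {f : ℝ → ℝ} {c : ℝ} (hc : 0 ≤ c)
    (hf : ∀ x y, |f x - f y| ≤ c * |x - y|)
    {A B : Matrix ι ι ℂ} (hA : A.IsHermitian) (hB : B.IsHermitian) :
    ‖cf f A - cf f B‖ ≤ c * ‖A - B‖ := by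
  have h := tp_cf_sub_cf_le hA hB (fun x _ y _ => hf x y)
  rw [← frob_sq ((isHermitian_cf f A).sub (isHermitian_cf f B)), ← frob_sq (hA.sub hB),
    ← mul_pow] at h
  exact (abs_le_of_sq_le_sq' h (by positivity)).2

/-- Bound for `cf` of a bounded function. -/
theorem norm_cf_le {f : ℝ → ℝ} {c : ℝ} (hc : 0 ≤ c) {A : Matrix ι ι ℂ} (hA : A.IsHermitian)
    (hf : ∀ x ∈ spectrum ℝ A, |f x| ≤ c) :
    ‖cf f A‖ ^ 2 ≤ c ^ 2 * Fintype.card ι := by
  rw [frob_sq (isHermitian_cf f A)]
  have h : 0 ≤ tp (cf (fun x => c ^ 2 - f x * f x) A) 1 := by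
    refine tp_nonneg (posSemidef_cf fun x hx => ?_) PosSemidef.one
    have h1 := hf x hx
    have h2 : f x * f x ≤ c * c := by
      rw [← abs_mul_abs_self (f x)]
      exact mul_le_mul h1 h1 (abs_nonneg _) hc
    nlinarith
  have e : cf (fun x => c ^ 2 - f x * f x) A = (c ^ 2) • (1 : Matrix ι ι ℂ) - cf f A * cf f A := by
    rw [cf_mul, ← cf_const hA, cf_sub]
  rw [e, tp_sub_left, tp_smul_left] at h
  have e1 : tp (1 : Matrix ι ι ℂ) 1 = Fintype.card ι := by
    simp [tp]
  have e2 : tp (cf f A * cf f A) 1 = tp (cf f A) (cf f A) := by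
    simp [tp]
  rw [e1, e2] at h
  linarith

/-! ### positive and negative parts -/

/-- positive part -/
noncomputable def pp (A : Matrix ι ι ℂ) : Matrix ι ι ℂ := cf (fun t => max t 0) A

/-- negative part -/
noncomputable def np (A : Matrix ι ι ℂ) : Matrix ι ι ℂ := cf (fun t => max (-t) 0) A

lemma posSemidef_pp (A : Matrix ι ι ℂ) : (pp A).PosSemidef :=
  posSemidef_cf fun _ _ => le_max_right _ _

lemma posSemidef_np (A : Matrix ι ι ℂ) : (np A).PosSemidef :=
  posSemidef_cf fun _ _ => le_max_right _ _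

lemma pp_sub_np {A : Matrix ι ι ℂ} (hA : A.IsHermitian) : pp A - np A = A := by
  rw [pp, np, cf_sub]
  conv_rhs => rw [← cf_id hA]
  refine cf_congr fun x _ => ?_
  rcases le_total x 0 with h | h
  · rw [max_eq_right h, max_eq_left (by linarith)]; ring
  · rw [max_eq_left h, max_eq_right (by linarith)]; ring

lemma cf_mul_np_eq_zero {f : ℝ → ℝ} (hf : ∀ t, t < 0 → f t = 0) (A : Matrix ι ι ℂ) :
    cf f A * np A = 0 := by
  rw [np, cf_mul]
  have : cf (fun x => f x * max (-x) 0) A = cf (fun _ => (0:ℝ)) A := by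
    refine cf_congr fun x _ => ?_
    rcases lt_or_ge x 0 with h | h
    · rw [hf x h]; ring
    · rw [max_eq_right (by linarith)]; ring
  rw [this]
  exact cfc_const_zero ℝ A

lemma np_mul_cf_eq_zero {f : ℝ → ℝ} (hf : ∀ t, t < 0 → f t = 0) (A : Matrix ι ι ℂ) :
    np A * cf f A = 0 := by
  rw [np, cf_comm]; exact cf_mul_np_eq_zero hf A

lemma pp_mul_np (A : Matrix ι ι ℂ) : pp A * np A = 0 :=
  cf_mul_np_eq_zero (fun _ ht => max_eq_right ht.le) A

lemma np_mul_pp (A : Matrix ι ι ℂ) : np A * pp A = 0 :=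
  np_mul_cf_eq_zero (fun _ ht => max_eq_right ht.le) A

lemma posSemidef_of_np_eq_zero {A : Matrix ι ι ℂ} (hA : A.IsHermitian) (h : np A = 0) :
    A.PosSemidef := by
  rw [← pp_sub_np hA, h, sub_zero]
  exact posSemidef_pp A

lemma norm_np_sub_np_le {A B : Matrix ι ι ℂ} (hA : A.IsHermitian) (hB : B.IsHermitian) :
    ‖np A - np B‖ ≤ ‖A - B‖ := by
  have := norm_cf_sub_cf_le (f := fun t => max (-t) 0) (c := 1) zero_le_one (fun x y => by
    rw [one_mul]
    have := abs_max_sub_max_le_abs (-x) (-y) 0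
    rwa [neg_sub_neg, abs_sub_comm y x] at this) hA hB
  rwa [one_mul] at this

/-- the squared distance to the positive cone -/
noncomputable def nsq (A : Matrix ι ι ℂ) : ℝ := tp (np A) (np A)

lemma nsq_nonneg (A : Matrix ι ι ℂ) : 0 ≤ nsq A := tp_nonneg (posSemidef_np A) (posSemidef_np A)

/-- Convexity bound. -/
lemma nsq_ge {A B : Matrix ι ι ℂ} (hA : A.IsHermitian) (hB : B.IsHermitian) :
    nsq A - 2 * tp (np A) (B - A) ≤ nsq B := by
  have h1 : 0 ≤ tp (np B - np A) (np B - np A) := by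
    rw [← frob_sq ((posSemidef_np B).1.sub (posSemidef_np A).1)]
    positivity
  have h2 : 0 ≤ tp (np A) (pp B) := tp_nonneg (posSemidef_np A) (posSemidef_pp B)
  have h3 : tp (np A) (pp A) = 0 := by rw [tp, np_mul_pp]; simp
  have h4 : tp (np A) (B - A) = tp (np A) (pp B) - tp (np A) (np B) - tp (np A) (pp A)
      + tp (np A) (np A) := by
    have e : B - A = (pp B - np B) - (pp A - np A) := by rw [pp_sub_np hA, pp_sub_np hB]
    rw [e, tp_sub_right, tp_sub_right, tp_sub_right]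
    ring
  rw [tp_sub_left, tp_sub_right, tp_sub_right, tp_comm (np B) (np A)] at h1
  rw [nsq, nsq, h4, h3]
  linarith

lemma nsq_sub_le {A B : Matrix ι ι ℂ} (hA : A.IsHermitian) (hB : B.IsHermitian) :
    |nsq B - nsq A - (-2 * tp (np A) (B - A))| ≤ 2 * ‖B - A‖ ^ 2 := by
  have h1 := nsq_ge hA hB
  have h2 := nsq_ge hB hA
  have h3 : |tp (np B - np A) (B - A)| ≤ ‖B - A‖ ^ 2 := by
    refine (abs_tp_le _ _).trans ?_
    rw [pow_two]
    exact mul_le_mul_of_nonneg_right (norm_np_sub_np_le hB hA) (norm_nonneg _)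
  rw [abs_le] at h3 ⊢
  have h4 : tp (np B) (A - B) = - tp (np B - np A) (B - A) - tp (np A) (B - A) := by
    rw [tp_sub_left, ← neg_sub B A, tp_neg_right]; ring
  rw [h4] at h2
  constructor <;> nlinarith [h3.1, h3.2, sq_nonneg ‖B - A‖]

end Crest.Agent.R332.Full
end

-- ▼ part R332/FullODE
section

/-! # The truncated Riccati equation (row 332) -/

set_option autoImplicit false

open scoped ComplexOrder Matrix
open scoped Matrix.Norms.Frobenius
open Matrix Set

namespace Crest.Agent.R332.Full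

variable {ι : Type*} [Fintype ι] [DecidableEq ι]

open scoped MatrixOrder in
lemma spectrum_le_of_posSemidef {A : Matrix ι ι ℂ} {c : ℝ}
    (h : (c • (1 : Matrix ι ι ℂ) - A).PosSemidef) : ∀ t ∈ spectrum ℝ A, t ≤ c := by
  intro t ht
  have h1 : c - t ∈ spectrum ℝ (algebraMap ℝ (Matrix ι ι ℂ) c - A) := by
    rw [← spectrum.singleton_sub_eq]
    exact ⟨c, rfl, t, ht, rfl⟩
  have h2 : (0 : Matrix ι ι ℂ) ≤ algebraMap ℝ (Matrix ι ι ℂ) c - A := by
    rw [Algebra.algebraMap_eq_smul_one]; exact h.nonneg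
  have := spectrum_nonneg_of_nonneg h2 h1
  linarith

open scoped MatrixOrder in
lemma le_spectrum_of_posSemidef {A : Matrix ι ι ℂ} {c : ℝ}
    (h : (A - c • (1 : Matrix ι ι ℂ)).PosSemidef) : ∀ t ∈ spectrum ℝ A, c ≤ t := by
  intro t ht
  have h1 : t - c ∈ spectrum ℝ (A - algebraMap ℝ (Matrix ι ι ℂ) c) := by
    rw [← spectrum.sub_singleton_eq]
    exact ⟨t, ht, c, rfl, rfl⟩
  have h2 : (0 : Matrix ι ι ℂ) ≤ A - algebraMap ℝ (Matrix ι ι ℂ) c := by
    rw [Algebra.algebraMap_eq_smul_one]; exact h.nonneg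
  have := spectrum_nonneg_of_nonneg h2 h1
  linarith

open scoped MatrixOrder in
lemma nonneg_spectrum_of_posSemidef {A : Matrix ι ι ℂ}
    (h : A.PosSemidef) : ∀ t ∈ spectrum ℝ A, 0 ≤ t := by
  intro t ht
  exact spectrum_nonneg_of_nonneg h.nonneg ht

/-! ### Hermitian part -/

/-- Hermitian part. -/
noncomputable def hp (A : Matrix ι ι ℂ) : Matrix ι ι ℂ := (1 / 2 : ℝ) • (A + Aᴴ)

omit [Fintype ι] [DecidableEq ι] in
lemma isHermitian_hp (A : Matrix ι ι ℂ) : (hp A).IsHermitian := by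
  unfold hp Matrix.IsHermitian
  rw [conjTranspose_smul, conjTranspose_add, conjTranspose_conjTranspose, add_comm]
  simp

omit [Fintype ι] [DecidableEq ι] in
lemma hp_eq {A : Matrix ι ι ℂ} (hA : A.IsHermitian) : hp A = A := by
  unfold hp
  rw [hA.eq, ← two_smul ℝ A, smul_smul]
  norm_num

lemma norm_hp_sub_le (A B : Matrix ι ι ℂ) : ‖hp A - hp B‖ ≤ ‖A - B‖ := by
  have : hp A - hp B = (1 / 2 : ℝ) • ((A - B) + (A - B)ᴴ) := by
    unfold hp
    rw [← smul_sub, conjTranspose_sub]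
    congr 1
    abel
  rw [this, norm_smul]
  have h2 := norm_add_le (A - B) (A - B)ᴴ
  rw [frobenius_norm_conjTranspose] at h2
  have : ‖(1 / 2 : ℝ)‖ = 1 / 2 := by norm_num
  rw [this]
  linarith

/-! ### the tent function -/

/-- `tent B t = max 0 (min t (2B - t))` -/
noncomputable def tent (B t : ℝ) : ℝ := max 0 (min t (2 * B - t))

lemma tent_nonneg (B t : ℝ) : 0 ≤ tent B t := le_max_left _ _

lemma tent_le {B : ℝ} (hB : 0 ≤ B) (t : ℝ) : tent B t ≤ B := by
  unfold tent
  refine max_le hB ?_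
  rcases le_total t B with h | h
  · exact (min_le_left _ _).trans h
  · exact (min_le_right _ _).trans (by linarith)

lemma tent_of_nonpos {B t : ℝ} (ht : t ≤ 0) : tent B t = 0 := by
  unfold tent
  exact max_eq_left ((min_le_left _ _).trans ht)

lemma tent_of_mem {B t : ℝ} (h0 : 0 ≤ t) (h1 : t ≤ B) : tent B t = t := by
  unfold tent
  rw [min_eq_left (by linarith), max_eq_right h0]

lemma tent_of_ge {B t : ℝ} (h1 : 2 * B ≤ t) : tent B t = 0 := by
  unfold tent
  exact max_eq_left ((min_le_right _ _).trans (by linarith))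

lemma abs_tent_sub_le (B x y : ℝ) : |tent B x - tent B y| ≤ |x - y| := by
  unfold tent
  have h1 : |max 0 (min x (2 * B - x)) - max 0 (min y (2 * B - y))| ≤
      |min x (2 * B - x) - min y (2 * B - y)| := by
    rw [max_comm 0, max_comm 0]; exact abs_max_sub_max_le_abs _ _ _
  refine h1.trans ((abs_min_sub_min_le_max _ _ _ _).trans (max_le le_rfl ?_))
  rw [show 2 * B - x - (2 * B - y) = -(x - y) by ring, abs_neg]

/-- `gt B t = t * tent B t` -/
noncomputable def gt (B t : ℝ) : ℝ := t * tent B t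

lemma abs_gt_le {B : ℝ} (hB : 0 ≤ B) (t : ℝ) : |gt B t| ≤ 2 * B * B := by
  unfold gt
  rcases le_total t 0 with h | h
  · rw [tent_of_nonpos h]; simp; positivity
  · rcases le_total (2 * B) t with h2 | h2
    · rw [tent_of_ge h2]; simp; positivity
    · rw [abs_mul, abs_of_nonneg h, abs_of_nonneg (tent_nonneg B t)]
      exact mul_le_mul h2 (tent_le hB t) (tent_nonneg B t) (by positivity)

lemma abs_gt_sub_le {B : ℝ} (hB : 0 ≤ B) (x y : ℝ) : |gt B x - gt B y| ≤ 3 * B * |x - y| := by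
  -- reduce to `x ≤ 2B` and `0 ≤ x`
  have key : ∀ x y : ℝ, x ≤ 2 * B → 0 ≤ x → |gt B x - gt B y| ≤ 3 * B * |x - y| := by
    intro x y h2 h0
    have e : gt B x - gt B y = x * (tent B x - tent B y) + (x - y) * tent B y := by
      unfold gt; ring
    rw [e]
    refine (abs_add_le _ _).trans ?_
    rw [abs_mul, abs_mul, abs_of_nonneg h0, abs_of_nonneg (tent_nonneg B y)]
    have h3 := abs_tent_sub_le B x y
    have h4 := tent_le hB y
    have h5 : x * |tent B x - tent B y| ≤ 2 * B * |x - y| :=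
      mul_le_mul h2 h3 (abs_nonneg _) (by positivity)
    have h6 : |x - y| * tent B y ≤ |x - y| * B := mul_le_mul_of_nonneg_left h4 (abs_nonneg _)
    nlinarith
  by_cases hx : x ≤ 2 * B ∧ 0 ≤ x
  · exact key x y hx.1 hx.2
  · by_cases hy : y ≤ 2 * B ∧ 0 ≤ y
    · have := key y x hy.1 hy.2
      rwa [abs_sub_comm, abs_sub_comm y x] at this
    · have hz : ∀ z : ℝ, ¬ (z ≤ 2 * B ∧ 0 ≤ z) → gt B z = 0 := by
        intro z hz
        unfold gt
        rcases le_total z 0 with h | h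
        · rw [tent_of_nonpos h, mul_zero]
        · rw [tent_of_ge, mul_zero]
          by_contra hc
          exact hz ⟨(not_le.mp hc).le, h⟩
      rw [hz x hx, hz y hy]
      simp
      positivity

/-- matrix versions -/
noncomputable def cc (B : ℝ) (A : Matrix ι ι ℂ) : Matrix ι ι ℂ := cf (tent B) (hp A)

/-- matrix versions -/
noncomputable def gg (B : ℝ) (A : Matrix ι ι ℂ) : Matrix ι ι ℂ := cf (gt B) (hp A)

lemma isHermitian_cc (B : ℝ) (A : Matrix ι ι ℂ) : (cc B A).IsHermitian := isHermitian_cf _ _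

lemma isHermitian_gg (B : ℝ) (A : Matrix ι ι ℂ) : (gg B A).IsHermitian := isHermitian_cf _ _

lemma posSemidef_cc (B : ℝ) (A : Matrix ι ι ℂ) : (cc B A).PosSemidef :=
  posSemidef_cf fun _ _ => tent_nonneg _ _

lemma norm_cc_sub_le (B : ℝ) (A A' : Matrix ι ι ℂ) : ‖cc B A - cc B A'‖ ≤ ‖A - A'‖ := by
  have h := norm_cf_sub_cf_le (f := tent B) (c := 1) zero_le_one
    (fun x y => by rw [one_mul]; exact abs_tent_sub_le B x y)
    (isHermitian_hp A) (isHermitian_hp A')
  rw [one_mul] at h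
  exact h.trans (norm_hp_sub_le A A')

lemma norm_gg_sub_le {B : ℝ} (hB : 0 ≤ B) (A A' : Matrix ι ι ℂ) :
    ‖gg B A - gg B A'‖ ≤ 3 * B * ‖A - A'‖ := by
  have h := norm_cf_sub_cf_le (f := gt B) (c := 3 * B) (by positivity)
    (fun x y => abs_gt_sub_le hB x y)
    (isHermitian_hp A) (isHermitian_hp A')
  exact h.trans (mul_le_mul_of_nonneg_left (norm_hp_sub_le A A') (by positivity))

lemma norm_cc_le {B : ℝ} (hB : 0 ≤ B) (A : Matrix ι ι ℂ) :
    ‖cc B A‖ ≤ B * Real.sqrt (Fintype.card ι) := by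
  have h := norm_cf_le hB (isHermitian_hp A) (f := tent B) (fun x _ => by
    rw [abs_of_nonneg (tent_nonneg B x)]; exact tent_le hB x)
  refine (abs_le_of_sq_le_sq' (b := B * Real.sqrt (Fintype.card ι)) ?_ (by positivity)).2
  rw [mul_pow, Real.sq_sqrt (by positivity)]
  exact h

lemma norm_gg_le {B : ℝ} (hB : 0 ≤ B) (A : Matrix ι ι ℂ) :
    ‖gg B A‖ ≤ 2 * B * B * Real.sqrt (Fintype.card ι) := by
  have h := norm_cf_le (by positivity) (isHermitian_hp A) (f := gt B)
    (fun x _ => abs_gt_le hB x)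
  refine (abs_le_of_sq_le_sq' (b := 2 * B * B * Real.sqrt (Fintype.card ι)) ?_ (by positivity)).2
  rw [mul_pow, Real.sq_sqrt (by positivity)]
  exact h

/-- the truncated Riccati vector field -/
noncomputable def vf (B : ℝ) (K Y e : Matrix ι ι ℂ) : Matrix ι ι ℂ :=
  K * cc B e + cc B e * K - gg B e - Y

lemma isHermitian_vf {B : ℝ} {K Y : Matrix ι ι ℂ} (hK : K.IsHermitian) (hY : Y.IsHermitian)
    (e : Matrix ι ι ℂ) : (vf B K Y e).IsHermitian := by
  unfold vf
  refine (IsHermitian.sub (IsHermitian.sub ?_ (isHermitian_gg B e)) hY)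
  unfold Matrix.IsHermitian
  rw [conjTranspose_add, conjTranspose_mul, conjTranspose_mul, hK.eq, (isHermitian_cc B e).eq,
    add_comm]

lemma norm_vf_sub_le {B : ℝ} (hB : 0 ≤ B) (K Y e e' : Matrix ι ι ℂ) :
    ‖vf B K Y e - vf B K Y e'‖ ≤ (2 * ‖K‖ + 3 * B) * ‖e - e'‖ := by
  have e1 : vf B K Y e - vf B K Y e' = K * (cc B e - cc B e') + (cc B e - cc B e') * K -
      (gg B e - gg B e') := by
    unfold vf; rw [mul_sub, sub_mul]; abel
  rw [e1]
  have h1 := norm_cc_sub_le B e e'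
  have h2 := norm_gg_sub_le hB e e'
  have h3 : ‖K * (cc B e - cc B e')‖ ≤ ‖K‖ * ‖e - e'‖ :=
    (frobenius_norm_mul _ _).trans (mul_le_mul_of_nonneg_left h1 (norm_nonneg _))
  have h4 : ‖(cc B e - cc B e') * K‖ ≤ ‖e - e'‖ * ‖K‖ :=
    (frobenius_norm_mul _ _).trans (mul_le_mul_of_nonneg_right h1 (norm_nonneg _))
  have h5 := norm_sub_le (K * (cc B e - cc B e') + (cc B e - cc B e') * K) (gg B e - gg B e')
  have h6 := norm_add_le (K * (cc B e - cc B e')) ((cc B e - cc B e') * K)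
  nlinarith

lemma norm_vf_le {B : ℝ} (hB : 0 ≤ B) (K Y e : Matrix ι ι ℂ) :
    ‖vf B K Y e‖ ≤ (2 * ‖K‖ * B + 2 * B * B) * Real.sqrt (Fintype.card ι) + ‖Y‖ := by
  have h1 := norm_cc_le hB e
  have h2 := norm_gg_le hB e
  have h3 : ‖K * cc B e‖ ≤ ‖K‖ * (B * Real.sqrt (Fintype.card ι)) :=
    (frobenius_norm_mul _ _).trans (mul_le_mul_of_nonneg_left h1 (norm_nonneg _))
  have h4 : ‖cc B e * K‖ ≤ (B * Real.sqrt (Fintype.card ι)) * ‖K‖ :=
    (frobenius_norm_mul _ _).trans (mul_le_mul_of_nonneg_right h1 (norm_nonneg _))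
  have h5 := norm_sub_le (K * cc B e + cc B e * K - gg B e) Y
  have h6 := norm_sub_le (K * cc B e + cc B e * K) (gg B e)
  have h7 := norm_add_le (K * cc B e) (cc B e * K)
  unfold vf
  nlinarith

lemma norm_vf_sub_vf_le {B : ℝ} (hB : 0 ≤ B) (K K' Y Y' e : Matrix ι ι ℂ) :
    ‖vf B K Y e - vf B K' Y' e‖ ≤ 2 * ‖K - K'‖ * (B * Real.sqrt (Fintype.card ι)) + ‖Y - Y'‖ := by
  have e1 : vf B K Y e - vf B K' Y' e = (K - K') * cc B e + cc B e * (K - K') - (Y - Y') := by
    unfold vf; rw [mul_sub, sub_mul]; abel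
  rw [e1]
  have h1 := norm_cc_le hB e
  have h3 : ‖(K - K') * cc B e‖ ≤ ‖K - K'‖ * (B * Real.sqrt (Fintype.card ι)) :=
    (frobenius_norm_mul _ _).trans (mul_le_mul_of_nonneg_left h1 (norm_nonneg _))
  have h4 : ‖cc B e * (K - K')‖ ≤ (B * Real.sqrt (Fintype.card ι)) * ‖K - K'‖ :=
    (frobenius_norm_mul _ _).trans (mul_le_mul_of_nonneg_right h1 (norm_nonneg _))
  have h5 := norm_sub_le ((K - K') * cc B e + cc B e * (K - K')) (Y - Y')
  have h6 := norm_add_le ((K - K') * cc B e) (cc B e * (K - K'))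
  nlinarith

end Crest.Agent.R332.Full
end

-- ▼ part R332/FullSol
section

/-! # Solutions of the truncated Riccati equation (row 332) -/

set_option autoImplicit false

open scoped ComplexOrder Matrix
open scoped Matrix.Norms.Frobenius
open Matrix Set

namespace Crest.Agent.R332.Full

variable {ι : Type*} [Fintype ι] [DecidableEq ι]

/-- `e` solves the truncated Riccati equation on `[-L, L]`. -/
structure IsSol (B L : ℝ) (K : Matrix ι ι ℂ) (Y : ℝ → Matrix ι ι ℂ) (e : ℝ → Matrix ι ι ℂ) :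
    Prop where
  init : e (-L) = (2 : ℝ) • K
  deriv : ∀ x ∈ Icc (-L) L, HasDerivWithinAt e (vf B K (Y x) (e x)) (Icc (-L) L) x

theorem exists_isSol {B L : ℝ} (hB : 0 ≤ B) (hL : 0 < L) (K : Matrix ι ι ℂ)
    (Y : ℝ → Matrix ι ι ℂ) (hY : ContinuousOn Y (Icc (-L) L)) :
    ∃ e : ℝ → Matrix ι ι ℂ, IsSol B L K Y e := by
  obtain ⟨CY, hCY⟩ : ∃ C, ∀ x ∈ Icc (-L) L, ‖Y x‖ ≤ C :=
    isCompact_Icc.exists_bound_of_continuousOn hY
  have hCY0 : 0 ≤ CY := (norm_nonneg _).trans (hCY (-L) ⟨le_rfl, by linarith⟩)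
  set C : ℝ := (2 * ‖K‖ * B + 2 * B * B) * Real.sqrt (Fintype.card ι) + CY with hC
  have hC0 : 0 ≤ C := by positivity
  let t0 : Icc (-L) L := ⟨-L, ⟨le_rfl, by linarith⟩⟩
  have hPL : IsPicardLindelof (fun x e => vf B K (Y x) e) t0 ((2 : ℝ) • K)
      (Real.toNNReal (C * (2 * L))) 0 (Real.toNNReal C) (Real.toNNReal (2 * ‖K‖ + 3 * B)) := by
    refine ⟨fun t _ => ?_, fun x _ => ?_, fun t ht x _ => ?_, ?_⟩
    · refine LipschitzOnWith.of_dist_le_mul fun x _ y _ => ?_
      rw [dist_eq_norm, dist_eq_norm, Real.coe_toNNReal _ (by positivity)]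
      exact norm_vf_sub_le hB K (Y t) x y
    · exact (continuousOn_const).sub hY
    · rw [Real.coe_toNNReal _ hC0]
      exact (norm_vf_le hB K (Y t) x).trans (by rw [hC]; linarith [hCY t ht])
    · rw [Real.coe_toNNReal _ hC0, Real.coe_toNNReal _ (by positivity)]
      have : max (L - (t0 : ℝ)) ((t0 : ℝ) - (-L)) = 2 * L := by
        change max (L - -L) (-L - -L) = 2 * L
        rw [max_eq_left (by linarith)]
        ring
      rw [this]
      simp
  obtain ⟨e, he0, he⟩ := hPL.exists_eq_forall_mem_Icc_hasDerivWithinAt₀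
  exact ⟨e, he0, he⟩

namespace IsSol

variable {B L : ℝ} {K : Matrix ι ι ℂ} {Y : ℝ → Matrix ι ι ℂ} {e : ℝ → Matrix ι ι ℂ}

theorem continuousOn (h : IsSol B L K Y e) : ContinuousOn e (Icc (-L) L) :=
  fun x hx => (h.deriv x hx).continuousWithinAt

theorem deriv_Ici (h : IsSol B L K Y e) {x : ℝ} (hx : x ∈ Ico (-L) L) :
    HasDerivWithinAt e (vf B K (Y x) (e x)) (Ici x) x := by
  refine (h.deriv x ⟨hx.1, hx.2.le⟩).mono_of_mem_nhdsWithin ?_
  exact Icc_mem_nhdsGE_of_mem hx

/-- The solution is Hermitian. -/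
theorem isHermitian (h : IsSol B L K Y e) (hK : K.IsHermitian)
    (hY : ∀ x ∈ Icc (-L) L, (Y x).IsHermitian) : ∀ x ∈ Icc (-L) L, (e x).IsHermitian := by
  have key := constant_of_has_deriv_right_zero (f := fun x => e x - star (e x))
    (a := -L) (b := L) (h.continuousOn.sub (continuous_star.comp_continuousOn h.continuousOn))
    (fun x hx => by
      have h1 := h.deriv_Ici hx
      have h2 := h1.sub h1.star
      have h3 : star (vf B K (Y x) (e x)) = vf B K (Y x) (e x) :=
        (isHermitian_vf hK (hY x ⟨hx.1, hx.2.le⟩) (e x))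
      rw [h3, sub_self] at h2
      exact h2)
  intro x hx
  have h1 := key x hx
  simp only [h.init] at h1
  have h2 : star ((2 : ℝ) • K) = (2 : ℝ) • K := by
    rw [star_smul, star_trivial]
    congr 1
  rw [h2, sub_self, sub_eq_zero] at h1
  exact h1.symm

end IsSol

/-! ### derivative of `nsq` along a path -/

lemma nsq_zero : nsq (0 : Matrix ι ι ℂ) = 0 := by
  have h1 : np (0 : Matrix ι ι ℂ) = 0 := by
    have h2 : (0 : Matrix ι ι ℂ).IsHermitian := isHermitian_zero
    have h3 := norm_np_sub_np_le h2 h2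
    have h4 := pp_sub_np h2
    have h5 : np (0 : Matrix ι ι ℂ) * np 0 = 0 := by
      have h6 : np (0 : Matrix ι ι ℂ) = pp 0 := (sub_eq_zero.mp h4).symm
      conv_lhs => rw [h6]
      rw [← h6]
      conv_lhs => rw [h6]
      rw [← h6, h6]
      have := pp_mul_np (0 : Matrix ι ι ℂ)
      rwa [h6] at this
    have h7 : nsq (0 : Matrix ι ι ℂ) = 0 := by rw [nsq, tp, h5]; simp
    have h8 : ‖np (0 : Matrix ι ι ℂ)‖ ^ 2 = 0 := by
      rw [frob_sq (posSemidef_np 0).1]; exact h7
    exact norm_eq_zero.mp (pow_eq_zero_iff two_ne_zero |>.mp h8)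
  rw [nsq, h1, tp_zero_left]

lemma np_eq_zero_of_nsq {A : Matrix ι ι ℂ} (h : nsq A = 0) : np A = 0 := by
  have h8 : ‖np A‖ ^ 2 = 0 := by
    rw [frob_sq (posSemidef_np A).1]; exact h
  exact norm_eq_zero.mp (pow_eq_zero_iff two_ne_zero |>.mp h8)

/-- Derivative of the squared distance to the positive cone along a path. -/
theorem hasDerivWithinAt_nsq {A : ℝ → Matrix ι ι ℂ} {A' : Matrix ι ι ℂ} {s : Set ℝ} {x : ℝ}
    (hx : x ∈ s) (hA : ∀ y ∈ s, (A y).IsHermitian) (h : HasDerivWithinAt A A' s x) :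
    HasDerivWithinAt (fun y => nsq (A y)) (-2 * tp (np (A x)) A') s x := by
  have h := hasDerivWithinAt_iff_isLittleO.mp h
  refine hasDerivWithinAt_iff_isLittleO.mpr ?_
  have h1 : (fun y => A y - A x) =O[nhdsWithin x s] (fun y => y - x) := by
    have h2 : (fun y => (y - x) • A') =O[nhdsWithin x s] (fun y => y - x) := by
      refine Asymptotics.IsBigO.of_bound ‖A'‖ (Filter.Eventually.of_forall fun y => ?_)
      rw [norm_smul, mul_comm]
    have := h.isBigO.add h2
    refine this.congr_left fun y => ?_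
    abel
  have h3 : (fun y => nsq (A y) - nsq (A x) - (-2 * tp (np (A x)) (A y - A x)))
      =o[nhdsWithin x s] (fun y => y - x) := by
    have h4 : (fun y => nsq (A y) - nsq (A x) - (-2 * tp (np (A x)) (A y - A x)))
        =O[nhdsWithin x s] (fun y => ‖A y - A x‖ ^ 2) := by
      refine Asymptotics.IsBigO.of_bound 2 ?_
      filter_upwards [self_mem_nhdsWithin] with y hy
      rw [Real.norm_eq_abs, norm_pow, norm_norm]
      exact nsq_sub_le (hA x hx) (hA y hy)
    have h5 : (fun y => ‖A y - A x‖ ^ 2) =O[nhdsWithin x s] (fun y => (y - x) ^ 2) :=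
      h1.norm_left.pow 2
    have h6 : (fun y => (y - x) ^ 2) =o[nhdsWithin x s] (fun y => y - x) := by
      have h7 : (fun y : ℝ => y - x) =o[nhdsWithin x s] (fun _ => (1 : ℝ)) := by
        rw [Asymptotics.isLittleO_one_iff]
        have : Filter.Tendsto (fun y : ℝ => y - x) (nhds x) (nhds (x - x)) :=
          (continuous_id.sub continuous_const).tendsto x
        rw [sub_self] at this
        exact this.mono_left nhdsWithin_le_nhds
      have := h7.mul_isBigO (Asymptotics.isBigO_refl (fun y : ℝ => y - x) (nhdsWithin x s))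
      refine (this.congr_left fun y => ?_).congr_right fun y => ?_
      · ring
      · ring
    exact (h4.trans h5).trans_isLittleO h6
  have h7 : (fun y => -2 * tp (np (A x)) (A y - A x - (y - x) • A'))
      =o[nhdsWithin x s] (fun y => y - x) := by
    have h8 : (fun y => -2 * tp (np (A x)) (A y - A x - (y - x) • A'))
        =O[nhdsWithin x s] (fun y => A y - A x - (y - x) • A') := by
      refine Asymptotics.IsBigO.of_bound (2 * ‖np (A x)‖) (Filter.Eventually.of_forall fun y => ?_)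
      rw [norm_mul, Real.norm_eq_abs, Real.norm_eq_abs, mul_assoc]
      have := abs_tp_le (np (A x)) (A y - A x - (y - x) • A')
      have h9 : |(-2 : ℝ)| = 2 := by norm_num
      rw [h9]
      linarith
    exact h8.trans_isLittleO h
  refine (h3.add h7).congr_left fun y => ?_
  rw [tp_sub_right (np (A x)) (A y - A x), tp_smul_right, smul_eq_mul]
  ring

namespace IsSol

variable {B L : ℝ} {K : Matrix ι ι ℂ} {Y : ℝ → Matrix ι ι ℂ} {e : ℝ → Matrix ι ι ℂ}

lemma gg_eq {A : Matrix ι ι ℂ} (hA : A.IsHermitian) (B : ℝ) : gg B A = A * cc B A := by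
  unfold gg cc
  rw [hp_eq hA]
  conv_rhs => rw [← cf_id hA]
  rw [cf_id hA]
  have : A * cf (tent B) A = cf (fun x => x) A * cf (tent B) A := by rw [cf_id hA]
  rw [this, cf_mul]
  rfl

lemma gg_eq' {A : Matrix ι ι ℂ} (hA : A.IsHermitian) (B : ℝ) : gg B A = cc B A * A := by
  unfold gg cc
  rw [hp_eq hA]
  have : cf (tent B) A * A = cf (tent B) A * cf (fun x => x) A := by rw [cf_id hA]
  rw [this, cf_mul]
  congr 1
  ext x
  unfold gt
  ring

/-- `e ≤ 2K` along the solution. -/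
theorem le_two_smul (h : IsSol B L K Y e) (hL : 0 < L) (hK : K.IsHermitian)
    (hY : ∀ x ∈ Icc (-L) L, (Y x).PosSemidef) :
    ∀ x ∈ Icc (-L) L, ((2 : ℝ) • K - e x).PosSemidef := by
  have hH := h.isHermitian hK (fun x hx => (hY x hx).1)
  have h2K : ((2 : ℝ) • K).IsHermitian := by
    unfold Matrix.IsHermitian
    rw [conjTranspose_smul, hK.eq]; simp
  have hDH : ∀ y ∈ Icc (-L) L, ((2 : ℝ) • K - e y).IsHermitian := fun y hy => h2K.sub (hH y hy)
  have hd : ∀ x ∈ Icc (-L) L, HasDerivWithinAt (fun y => nsq ((2 : ℝ) • K - e y))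
      (-2 * tp (np ((2 : ℝ) • K - e x)) (-(vf B K (Y x) (e x)))) (Icc (-L) L) x := by
    intro x hx
    refine hasDerivWithinAt_nsq hx hDH ?_
    have := (h.deriv x hx).const_sub ((2 : ℝ) • K)
    exact this
  have hsign : ∀ x ∈ Icc (-L) L,
      -2 * tp (np ((2 : ℝ) • K - e x)) (-(vf B K (Y x) (e x))) ≤ 0 := by
    intro x hx
    set D := (2 : ℝ) • K - e x with hD
    set c := cc B (e x) with hc
    have hvf : -(vf B K (Y x) (e x)) = -((1 / 2 : ℝ) • (c * D + D * c)) + Y x := by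
      unfold vf
      have e1 : gg B (e x) = (1 / 2 : ℝ) • (c * e x + e x * c) := by
        rw [hc, ← gg_eq (hH x hx), ← gg_eq' (hH x hx), ← two_smul ℝ, smul_smul]
        norm_num
      rw [e1, hD, mul_sub, sub_mul, mul_smul_comm, smul_mul_assoc]
      have e2 : (1 / 2 : ℝ) • ((2 : ℝ) • (c * K) - c * e x + ((2 : ℝ) • (K * c) - e x * c)) =
          c * K + K * c - (1 / 2 : ℝ) • (c * e x + e x * c) := by
        rw [smul_add, smul_sub, smul_sub, smul_smul, smul_smul, smul_add]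
        norm_num
        abel
      rw [e2]
      abel
    have hDx : D.IsHermitian := hDH x hx
    have hDn : D * np D = -(np D * np D) := by
      have : D * np D = (pp D - np D) * np D := by rw [pp_sub_np hDx]
      rw [this, sub_mul, pp_mul_np, zero_sub]
    have hnD : np D * D = -(np D * np D) := by
      have : np D * D = np D * (pp D - np D) := by rw [pp_sub_np hDx]
      rw [this, mul_sub, np_mul_pp, zero_sub]
    have hn2 : (np D * np D).PosSemidef := by
      have := posSemidef_conjTranspose_mul_self (np D)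
      rwa [(posSemidef_np D).1.eq] at this
    have t1 : tp (np D) (c * D) = - tp (np D * np D) c := by
      rw [← tp_neg_left, ← hDn]
      unfold tp
      rw [mul_assoc, Matrix.trace_mul_comm D (np D * c), ← mul_assoc]
    have t2 : tp (np D) (D * c) = - tp (np D * np D) c := by
      rw [← tp_neg_left, ← hnD]
      unfold tp
      rw [mul_assoc]
    have t3 : 0 ≤ tp (np D * np D) c := tp_nonneg hn2 (posSemidef_cc B (e x))
    have t4 : 0 ≤ tp (np D) (Y x) := tp_nonneg (posSemidef_np D) (hY x hx)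
    rw [hvf, tp_add_right, tp_neg_right, tp_smul_right, tp_add_right, t1, t2]
    linarith
  have hanti : AntitoneOn (fun y => nsq ((2 : ℝ) • K - e y)) (Icc (-L) L) := by
    refine antitoneOn_of_hasDerivWithinAt_nonpos (convex_Icc _ _)
      (fun x hx => (hd x hx).continuousWithinAt)
      (fun x hx => (hd x (interior_subset hx)).mono interior_subset)
      (fun x hx => hsign x (interior_subset hx))
  intro x hx
  refine posSemidef_of_np_eq_zero (hDH x hx) (np_eq_zero_of_nsq ?_)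
  refine le_antisymm ?_ (nsq_nonneg _)
  have h0 : (-L) ∈ Icc (-L) L := ⟨le_rfl, by linarith⟩
  refine (hanti h0 hx hx.1).trans ?_
  simp only [h.init, sub_self]
  exact nsq_zero.le

/-- If the solution vanishes at the end, it is nonnegative. -/
theorem nonneg (h : IsSol B L K Y e) (hL : 0 < L) (hK : K.IsHermitian)
    (hY : ∀ x ∈ Icc (-L) L, (Y x).PosSemidef) (hend : e L = 0) :
    ∀ x ∈ Icc (-L) L, (e x).PosSemidef := by
  have hH := h.isHermitian hK (fun x hx => (hY x hx).1)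
  have hd : ∀ x ∈ Icc (-L) L, HasDerivWithinAt (fun y => nsq (e y))
      (-2 * tp (np (e x)) (vf B K (Y x) (e x))) (Icc (-L) L) x :=
    fun x hx => hasDerivWithinAt_nsq hx hH (h.deriv x hx)
  have hsign : ∀ x ∈ Icc (-L) L, 0 ≤ -2 * tp (np (e x)) (vf B K (Y x) (e x)) := by
    intro x hx
    have hc1 : cc B (e x) * np (e x) = 0 := by
      unfold cc
      rw [hp_eq (hH x hx)]
      exact cf_mul_np_eq_zero (fun t ht => tent_of_nonpos ht.le) _
    have hc2 : np (e x) * cc B (e x) = 0 := by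
      unfold cc
      rw [hp_eq (hH x hx)]
      exact np_mul_cf_eq_zero (fun t ht => tent_of_nonpos ht.le) _
    have hg2 : np (e x) * gg B (e x) = 0 := by
      unfold gg
      rw [hp_eq (hH x hx)]
      exact np_mul_cf_eq_zero (fun t ht => by unfold gt; rw [tent_of_nonpos ht.le, mul_zero]) _
    have t1 : tp (np (e x)) (K * cc B (e x)) = 0 := by
      unfold tp
      rw [← mul_assoc, Matrix.trace_mul_comm, ← mul_assoc, hc1, zero_mul]
      simp
    have t2 : tp (np (e x)) (cc B (e x) * K) = 0 := by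
      unfold tp
      rw [← mul_assoc, hc2, zero_mul]
      simp
    have t3 : tp (np (e x)) (gg B (e x)) = 0 := by
      unfold tp
      rw [hg2]
      simp
    have t4 : 0 ≤ tp (np (e x)) (Y x) := tp_nonneg (posSemidef_np _) (hY x hx)
    unfold vf
    rw [tp_sub_right, tp_sub_right, tp_add_right, t1, t2, t3]
    linarith
  have hmono : MonotoneOn (fun y => nsq (e y)) (Icc (-L) L) := by
    refine monotoneOn_of_hasDerivWithinAt_nonneg (convex_Icc _ _)
      (fun x hx => (hd x hx).continuousWithinAt)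
      (fun x hx => (hd x (interior_subset hx)).mono interior_subset)
      (fun x hx => hsign x (interior_subset hx))
  intro x hx
  refine posSemidef_of_np_eq_zero (hH x hx) (np_eq_zero_of_nsq ?_)
  refine le_antisymm ?_ (nsq_nonneg _)
  have h0 : L ∈ Icc (-L) L := ⟨by linarith, le_rfl⟩
  refine (hmono hx h0 hx.2).trans ?_
  simp only [hend]
  exact nsq_zero.le

end IsSol

end Crest.Agent.R332.Full
end

-- ▼ part R332/FullMain
section

/-! # Existence of an `N`-full `K` with its Riccati path (row 332) -/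

set_option autoImplicit false

open scoped ComplexOrder Matrix
open scoped Matrix.Norms.Frobenius
open Matrix Set

namespace Crest.Agent.R332.Full

variable {ι : Type*} [Fintype ι] [DecidableEq ι]

/-- the quadratic form as a linear map of the matrix -/
noncomputable def qf (v : ι → ℂ) : Matrix ι ι ℂ →ₗ[ℝ] ℝ where
  toFun A := (star v ⬝ᵥ (A *ᵥ v)).re
  map_add' A B := by rw [add_mulVec, dotProduct_add, Complex.add_re]
  map_smul' c A := by
    rw [smul_mulVec, dotProduct_smul]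
    simp

omit [DecidableEq ι] in
lemma qf_apply (v : ι → ℂ) (A : Matrix ι ι ℂ) : qf v A = (star v ⬝ᵥ (A *ᵥ v)).re := rfl

omit [DecidableEq ι] in
lemma qf_nonneg (v : ι → ℂ) {A : Matrix ι ι ℂ} (hA : A.PosSemidef) : 0 ≤ qf v A :=
  hA.re_dotProduct_nonneg v

lemma qf_one (v : ι → ℂ) : qf v 1 = (star v ⬝ᵥ v).re := by
  rw [qf_apply, one_mulVec]

omit [DecidableEq ι] in
lemma qf_mul_left {v : ι → ℂ} {K : Matrix ι ι ℂ} (hK : K.IsHermitian) {μ : ℝ}
    (h : K *ᵥ v = (μ : ℂ) • v) (A : Matrix ι ι ℂ) : qf v (K * A) = μ * qf v A := by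
  have h1 : star v ᵥ* K = (μ : ℂ) • star v := by
    have := congrArg star h
    rw [star_mulVec, hK.eq] at this
    rw [this]
    ext i
    simp
  rw [qf_apply, qf_apply, ← mulVec_mulVec, dotProduct_mulVec, h1, smul_dotProduct]
  simp

omit [DecidableEq ι] in
lemma qf_mul_right {v : ι → ℂ} {K : Matrix ι ι ℂ} {μ : ℝ}
    (h : K *ᵥ v = (μ : ℂ) • v) (A : Matrix ι ι ℂ) : qf v (A * K) = μ * qf v A := by
  rw [qf_apply, qf_apply, ← mulVec_mulVec, h, mulVec_smul, dotProduct_smul]
  simp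

lemma qf_vf {v : ι → ℂ} {K : Matrix ι ι ℂ} (hK : K.IsHermitian) {μ : ℝ}
    (h : K *ᵥ v = (μ : ℂ) • v) (B : ℝ) (Y e : Matrix ι ι ℂ) :
    qf v (vf B K Y e) = 2 * μ * qf v (cc B e) - qf v (gg B e) - qf v Y := by
  unfold vf
  rw [map_sub, map_sub, map_add, qf_mul_left hK h, qf_mul_right h]
  ring

namespace IsSol

variable {B L : ℝ} {K : Matrix ι ι ℂ} {Y : ℝ → Matrix ι ι ℂ} {e : ℝ → Matrix ι ι ℂ}

lemma continuousOn_vf (h : IsSol B L K Y e) (hB : 0 ≤ B) (hYc : ContinuousOn Y (Icc (-L) L)) :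
    ContinuousOn (fun x => vf B K (Y x) (e x)) (Icc (-L) L) := by
  have hc : Continuous (cc B : Matrix ι ι ℂ → Matrix ι ι ℂ) := by
    refine (LipschitzWith.of_dist_le_mul (K := 1) fun x y => ?_).continuous
    rw [dist_eq_norm, dist_eq_norm, NNReal.coe_one, one_mul]
    exact norm_cc_sub_le B x y
  have hg : Continuous (gg B : Matrix ι ι ℂ → Matrix ι ι ℂ) := by
    refine (LipschitzWith.of_dist_le_mul (K := Real.toNNReal (3 * B)) fun x y => ?_).continuous
    rw [dist_eq_norm, dist_eq_norm, Real.coe_toNNReal _ (by positivity)]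
    exact norm_gg_sub_le hB x y
  have he := h.continuousOn
  have h1 : ContinuousOn (fun x => cc B (e x)) (Icc (-L) L) := hc.comp_continuousOn he
  have h2 : ContinuousOn (fun x => gg B (e x)) (Icc (-L) L) := hg.comp_continuousOn he
  unfold vf
  exact (((continuousOn_const.mul h1).add (h1.mul continuousOn_const)).sub h2).sub hYc

lemma integral_qf (h : IsSol B L K Y e) (hB : 0 ≤ B) (hL : 0 < L)
    (hYc : ContinuousOn Y (Icc (-L) L)) (v : ι → ℂ) :
    ∫ x in (-L)..L, qf v (vf B K (Y x) (e x)) = qf v (e L) - qf v (e (-L)) := by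
  have hcq : Continuous (qf v) := (qf v).continuous_of_finiteDimensional
  have hle : -L ≤ L := by linarith
  refine intervalIntegral.integral_eq_sub_of_hasDeriv_right_of_le hle
    (hcq.comp_continuousOn h.continuousOn) (fun x hx => ?_) ?_
  · have h1 := h.deriv_Ici (Ioo_subset_Ico_self hx)
    have h2 := (LinearMap.toContinuousLinearMap (qf v)).hasFDerivAt.comp_hasDerivWithinAt x h1
    exact h2.mono Ioi_subset_Ici_self
  · refine ContinuousOn.intervalIntegrable ?_
    rw [uIcc_of_le hle]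
    exact hcq.comp_continuousOn (h.continuousOn_vf hB hYc)

/-- the spectrum of the solution is bounded by `2R` -/
lemma spectrum_le (h : IsSol B L K Y e) (hL : 0 < L) (hK : K.IsHermitian) {R : ℝ}
    (hKR : (R • (1 : Matrix ι ι ℂ) - K).PosSemidef)
    (hY : ∀ x ∈ Icc (-L) L, (Y x).PosSemidef) :
    ∀ x ∈ Icc (-L) L, ∀ t ∈ spectrum ℝ (hp (e x)), t ≤ 2 * R := by
  intro x hx
  have hH := h.isHermitian hK (fun x hx => (hY x hx).1) x hx
  rw [hp_eq hH]
  refine spectrum_le_of_posSemidef ?_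
  have h1 := h.le_two_smul hL hK hY x hx
  have h2 : ((2 : ℝ) • (R • (1 : Matrix ι ι ℂ) - K)).PosSemidef := by
    rw [two_smul]
    exact hKR.add hKR
  have := h2.add h1
  convert this using 1
  rw [smul_sub, smul_smul]
  abel

theorem top (h : IsSol B L K Y e) (hL : 0 < L) (hK : K.IsHermitian) {R : ℝ} (hR : 0 ≤ R)
    (hRB : 2 * R ≤ B) (hKR : (R • (1 : Matrix ι ι ℂ) - K).PosSemidef)
    (hYc : ContinuousOn Y (Icc (-L) L))
    (hY : ∀ x ∈ Icc (-L) L, (Y x).PosSemidef) {v : ι → ℂ} (hv : K *ᵥ v = (R : ℂ) • v) :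
    2 * R * (star v ⬝ᵥ v).re - ∫ x in (-L)..L, qf v (Y x) ≤ qf v (e L) := by
  have hB : 0 ≤ B := by linarith
  have hle : -L ≤ L := by linarith
  have hcq : Continuous (qf v) := (qf v).continuous_of_finiteDimensional
  have h1 := h.integral_qf hB hL hYc v
  have h2 : qf v (e (-L)) = 2 * R * (star v ⬝ᵥ v).re := by
    rw [h.init, map_smul, smul_eq_mul]
    have := qf_mul_right hv (1 : Matrix ι ι ℂ)
    rw [one_mul, qf_one] at this
    rw [this]
    ring
  have h3 : ∫ x in (-L)..L, - qf v (Y x) ≤ ∫ x in (-L)..L, qf v (vf B K (Y x) (e x)) := by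
    refine intervalIntegral.integral_mono_on hle ?_ ?_ fun x hx => ?_
    · refine ContinuousOn.intervalIntegrable ?_
      rw [uIcc_of_le hle]
      exact (hcq.comp_continuousOn hYc).neg
    · refine ContinuousOn.intervalIntegrable ?_
      rw [uIcc_of_le hle]
      exact hcq.comp_continuousOn (h.continuousOn_vf hB hYc)
    · rw [qf_vf hK hv]
      have hs := h.spectrum_le hL hK hKR hY x hx
      have h4 : (cf (fun t => 2 * R * tent B t - gt B t) (hp (e x))).PosSemidef := by
        refine posSemidef_cf fun t ht => ?_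
        have := hs t ht
        unfold gt
        nlinarith [tent_nonneg B t]
      rw [← cf_sub, ← cf_smul] at h4
      have h5 := qf_nonneg v h4
      rw [map_sub, map_smul, smul_eq_mul] at h5
      unfold cc gg
      linarith
  rw [intervalIntegral.integral_neg, h1, h2] at h3
  linarith

theorem bot (h : IsSol B L K Y e) (hL : 0 < L) (hK : K.IsHermitian) {R d : ℝ} (hR : 0 ≤ R)
    (hRB : 2 * R ≤ B) (hKR : (R • (1 : Matrix ι ι ℂ) - K).PosSemidef)
    (hYc : ContinuousOn Y (Icc (-L) L))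
    (hY : ∀ x ∈ Icc (-L) L, (Y x).PosSemidef) {v : ι → ℂ} (hv : K *ᵥ v = (d : ℂ) • v) :
    qf v (e L) ≤ (2 * d + 2 * L * d ^ 2) * (star v ⬝ᵥ v).re - ∫ x in (-L)..L, qf v (Y x) := by
  have hB : 0 ≤ B := by linarith
  have hle : -L ≤ L := by linarith
  have hcq : Continuous (qf v) := (qf v).continuous_of_finiteDimensional
  have h1 := h.integral_qf hB hL hYc v
  have h2 : qf v (e (-L)) = 2 * d * (star v ⬝ᵥ v).re := by
    rw [h.init, map_smul, smul_eq_mul]
    have := qf_mul_right hv (1 : Matrix ι ι ℂ)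
    rw [one_mul, qf_one] at this
    rw [this]
    ring
  have h3 : ∫ x in (-L)..L, qf v (vf B K (Y x) (e x)) ≤
      ∫ x in (-L)..L, (d ^ 2 * (star v ⬝ᵥ v).re - qf v (Y x)) := by
    refine intervalIntegral.integral_mono_on hle ?_ ?_ fun x hx => ?_
    · refine ContinuousOn.intervalIntegrable ?_
      rw [uIcc_of_le hle]
      exact hcq.comp_continuousOn (h.continuousOn_vf hB hYc)
    · refine ContinuousOn.intervalIntegrable ?_
      rw [uIcc_of_le hle]
      exact continuousOn_const.sub (hcq.comp_continuousOn hYc)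
    · rw [qf_vf hK hv]
      have hs := h.spectrum_le hL hK hKR hY x hx
      have h4 : (cf (fun t => d ^ 2 - (2 * d * tent B t - gt B t)) (hp (e x))).PosSemidef := by
        refine posSemidef_cf fun t ht => ?_
        have := hs t ht
        unfold gt
        rcases le_total t 0 with h0 | h0
        · rw [tent_of_nonpos h0]
          nlinarith [sq_nonneg d]
        · rw [tent_of_mem h0 (by linarith)]
          nlinarith [sq_nonneg (t - d)]
      rw [← cf_sub, ← cf_sub, ← cf_smul, cf_const (isHermitian_hp _)] at h4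
      have h5 := qf_nonneg v h4
      rw [map_sub, map_sub, map_smul, map_smul, smul_eq_mul, smul_eq_mul, qf_one] at h5
      unfold cc gg
      linarith
  have h6 : ∫ x in (-L)..L, (d ^ 2 * (star v ⬝ᵥ v).re - qf v (Y x)) =
      2 * L * (d ^ 2 * (star v ⬝ᵥ v).re) - ∫ x in (-L)..L, qf v (Y x) := by
    rw [intervalIntegral.integral_sub, intervalIntegral.integral_const]
    · rw [smul_eq_mul]; ring
    · exact intervalIntegrable_const
    · refine ContinuousOn.intervalIntegrable ?_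
      rw [uIcc_of_le hle]
      exact hcq.comp_continuousOn hYc
  rw [h6, h1, h2] at h3
  linarith

end IsSol

/-- Continuous dependence of the solution on `K`. -/
theorem isSol_dist_le {B L : ℝ} (hB : 0 < B) (hL : 0 < L) {K K' : Matrix ι ι ℂ}
    {Y Y' : ℝ → Matrix ι ι ℂ} {e e' : ℝ → Matrix ι ι ℂ} (h : IsSol B L K Y e)
    (h' : IsSol B L K' Y' e') {η : ℝ} (hη : ∀ x ∈ Icc (-L) L, ‖Y' x - Y x‖ ≤ η) :
    ‖e' L - e L‖ ≤ gronwallBound (2 * ‖K' - K‖) (2 * ‖K‖ + 3 * B)
      (2 * ‖K' - K‖ * (B * Real.sqrt (Fintype.card ι)) + η) (2 * L) := by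
  have hle : -L ≤ L := by linarith
  have key := dist_le_of_approx_trajectories_ODE (E := Matrix ι ι ℂ)
    (v := fun t z => vf B K (Y t) z) (K := Real.toNNReal (2 * ‖K‖ + 3 * B))
    (f := e') (f' := fun t => vf B K' (Y' t) (e' t)) (g := e) (g' := fun t => vf B K (Y t) (e t))
    (a := -L) (b := L) (εf := 2 * ‖K' - K‖ * (B * Real.sqrt (Fintype.card ι)) + η) (εg := 0)
    (δ := 2 * ‖K' - K‖)
    (fun t => LipschitzWith.of_dist_le_mul fun x y => by
      rw [dist_eq_norm, dist_eq_norm, Real.coe_toNNReal _ (by positivity)]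
      exact norm_vf_sub_le hB.le K (Y t) x y)
    h'.continuousOn (fun t ht => h'.deriv_Ici ht)
    (fun t ht => by
      rw [dist_eq_norm]
      refine (norm_vf_sub_vf_le hB.le K' K (Y' t) (Y t) (e' t)).trans ?_
      have := hη t ⟨ht.1, ht.2.le⟩
      linarith)
    h.continuousOn (fun t ht => h.deriv_Ici ht)
    (fun t ht => by rw [dist_self])
    (by
      rw [dist_eq_norm, h.init, h'.init, ← smul_sub, norm_smul]
      simp)
    L ⟨hle, le_rfl⟩
  rw [dist_eq_norm, Real.coe_toNNReal _ (by positivity), add_zero] at key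
  have e1 : L - -L = 2 * L := by ring
  rwa [e1] at key

lemma mem_boxSet_iff {d R : ℝ} {K : Matrix ι ι ℂ} : K ∈ boxSet ι d R ↔
    K.IsHermitian ∧ (K - d • (1 : Matrix ι ι ℂ)).PosSemidef ∧
      (R • (1 : Matrix ι ι ℂ) - K).PosSemidef := by
  have h : ∀ c : ℝ, ((c : ℂ) • (1 : Matrix ι ι ℂ)) = c • (1 : Matrix ι ι ℂ) := by
    intro c; ext i j; simp
  unfold boxSet
  rw [Set.mem_ofPred_eq, h, h]

/-- **Existence of an `N`-full `K`** together with its Riccati path. -/
theorem exists_full (d R L : ℝ) (hd : 0 ≤ d) (hdR : d < R) (hL : 0 < L)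
    (Y : Matrix ι ι ℂ → ℝ → Matrix ι ι ℂ)
    (hYc : ContinuousOn (fun p : Matrix ι ι ℂ × ℝ => Y p.1 p.2) (boxSet ι d R ×ˢ Icc (-L) L))
    (hY : ∀ K ∈ boxSet ι d R, ∀ x ∈ Icc (-L) L, (Y K x).PosSemidef)
    (htop : ∀ K ∈ boxSet ι d R, ∀ v : ι → ℂ, (star v ⬝ᵥ v).re = 1 → K *ᵥ v = (R : ℂ) • v →
      ∫ x in (-L)..L, (star v ⬝ᵥ (Y K x *ᵥ v)).re < 2 * R)
    (hbot : ∀ K ∈ boxSet ι d R, ∀ v : ι → ℂ, (star v ⬝ᵥ v).re = 1 → K *ᵥ v = (d : ℂ) • v →
      2 * d + 2 * L * d ^ 2 ≤ ∫ x in (-L)..L, (star v ⬝ᵥ (Y K x *ᵥ v)).re) :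
    ∃ K ∈ boxSet ι d R, ∃ F : ℝ → Matrix ι ι ℂ, F (-L) = K ∧ F L = -K ∧
      (∀ x ∈ Icc (-L) L, HasDerivWithinAt F (K * K - F x * F x - Y K x) (Icc (-L) L) x) ∧
      ∀ x ∈ Icc (-L) L, (F x).IsHermitian ∧ (K - F x).PosSemidef ∧ (K + F x).PosSemidef := by
  classical
  have hle : -L ≤ L := by linarith
  have hR : 0 < R := by linarith
  set B : ℝ := 2 * R with hBdef
  have hB : 0 < B := by positivity
  set S := boxSet ι d R with hS
  have hYcK : ∀ K ∈ S, ContinuousOn (Y K) (Icc (-L) L) := by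
    intro K hK
    have : ContinuousOn (fun x : ℝ => ((K, x) : Matrix ι ι ℂ × ℝ)) (Icc (-L) L) :=
      (continuous_const.prodMk continuous_id).continuousOn
    exact hYc.comp this fun x hx => ⟨hK, hx⟩
  have hex : ∀ K : Matrix ι ι ℂ, ∃ e : ℝ → Matrix ι ι ℂ, K ∈ S → IsSol B L K (Y K) e := by
    intro K
    by_cases hK : K ∈ S
    · obtain ⟨e, he⟩ := exists_isSol hB.le hL K (Y K) (hYcK K hK)
      exact ⟨e, fun _ => he⟩
    · exact ⟨fun _ => 0, fun h => absurd h hK⟩
  choose sol hsol using hex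
  have hKh : ∀ K ∈ S, K.IsHermitian := fun K hK => (mem_boxSet_iff.mp hK).1
  have hKR : ∀ K ∈ S, (R • (1 : Matrix ι ι ℂ) - K).PosSemidef :=
    fun K hK => (mem_boxSet_iff.mp hK).2.2
  -- continuity of the end value
  have hcont : ContinuousOn (fun K => sol K L) S := by
    have hcpt : IsCompact (S ×ˢ Icc (-L) L) := (isCompact_boxSet d R).prod isCompact_Icc
    have huc := Metric.uniformContinuousOn_iff.mp (hcpt.uniformContinuousOn_of_continuous hYc)
    refine Metric.continuousOn_iff.mpr ?_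
    intro K hK ε hε
    set C : ℝ := 2 * ‖K‖ + 3 * B with hC
    have hC0 : 0 < C := by positivity
    set E : ℝ := Real.exp (C * (2 * L)) with hE
    have hE0 : 0 < E := Real.exp_pos _
    set b : ℝ := B * Real.sqrt (Fintype.card ι) with hb
    have hb0 : 0 ≤ b := by positivity
    set η : ℝ := ε * C / (4 * E) with hη
    have hη0 : 0 < η := by positivity
    obtain ⟨δ1, hδ1, huc1⟩ := huc η hη0
    set m : ℝ := 2 * E + 2 * b * E / C with hm
    have hm0 : 0 < m := by positivity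
    refine ⟨min δ1 (ε / (4 * m)), lt_min hδ1 (by positivity), fun K' hK' hdist => ?_⟩
    have hd1 : dist K' K < δ1 := lt_of_lt_of_le hdist (min_le_left _ _)
    have hd2 : dist K' K < ε / (4 * m) := lt_of_lt_of_le hdist (min_le_right _ _)
    have hYY : ∀ x ∈ Icc (-L) L, ‖Y K' x - Y K x‖ ≤ η := by
      intro x hx
      have := huc1 (K', x) ⟨hK', hx⟩ (K, x) ⟨hK, hx⟩ (by
        rw [Prod.dist_eq]
        simpa using hd1)
      rw [dist_eq_norm] at this
      exact this.le
    have key := isSol_dist_le hB hL (hsol K hK) (hsol K' hK') hYY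
    rw [gronwallBound_of_K_ne_0 hC0.ne'] at key
    rw [dist_eq_norm]
    rw [dist_eq_norm] at hd2
    set δ := ‖K' - K‖ with hδ
    have hδ0 : 0 ≤ δ := norm_nonneg _
    refine lt_of_le_of_lt key ?_
    have h1 : (2 * δ * b + η) / C * (E - 1) ≤ (2 * δ * b + η) / C * E :=
      mul_le_mul_of_nonneg_left (by linarith) (by positivity)
    have h2 : 2 * δ * E + (2 * δ * b + η) / C * E = δ * m + η * E / C := by
      rw [hm]; field_simp; ring
    have h3 : δ * m < ε / 4 := by
      have := mul_lt_mul_of_pos_right hd2 hm0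
      have e : ε / (4 * m) * m = ε / 4 := by field_simp
      linarith
    have h4 : η * E / C = ε / 4 := by
      rw [hη]; field_simp
    change 2 * δ * E + (2 * δ * b + η) / C * (E - 1) < ε
    linarith
  -- scaling
  have hscale : ∀ v : ι → ℂ, v ≠ 0 → ∃ (c : ℝ) (w : ι → ℂ), 0 < c ∧ v = (c : ℂ) • w ∧
      (star w ⬝ᵥ w).re = 1 := by
    intro v hv
    have hpos : 0 < (star v ⬝ᵥ v).re := by
      have := dotProduct_star_self_pos_iff.mpr hv
      exact (Complex.pos_iff.mp this).1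
    set c := Real.sqrt (star v ⬝ᵥ v).re with hc
    have hc0 : 0 < c := Real.sqrt_pos.mpr hpos
    refine ⟨c, ((c⁻¹ : ℝ) : ℂ) • v, hc0, ?_, ?_⟩
    · rw [smul_smul, ← Complex.ofReal_mul, mul_inv_cancel₀ hc0.ne']; simp
    · rw [star_smul, smul_dotProduct, dotProduct_smul, smul_smul]
      have e1 : (star ((c⁻¹ : ℝ) : ℂ) * ((c⁻¹ : ℝ) : ℂ)) = ((c⁻¹ * c⁻¹ : ℝ) : ℂ) := by
        simp
      rw [e1, smul_eq_mul, Complex.re_ofReal_mul]
      have e2 : c * c = (star v ⬝ᵥ v).re := Real.mul_self_sqrt hpos.le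
      rw [← e2]
      field_simp
  have hqscale : ∀ (c : ℝ) (w : ι → ℂ) (A : Matrix ι ι ℂ),
      (star ((c : ℂ) • w) ⬝ᵥ (A *ᵥ ((c : ℂ) • w))).re = c ^ 2 * qf w A := by
    intro c w A
    rw [star_smul, smul_dotProduct, mulVec_smul, dotProduct_smul, smul_smul]
    have e1 : (star (c : ℂ) * (c : ℂ)) = ((c ^ 2 : ℝ) : ℂ) := by
      simp [pow_two]
    rw [e1, smul_eq_mul, Complex.re_ofReal_mul, qf_apply]
  obtain ⟨K, hK, hT⟩ := exists_zero_of_boundary d R hdR (fun K => sol K L) hcont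
    (fun K hK => (hsol K hK).isHermitian (hKh K hK) (fun x hx => (hY K hK x hx).1) L
      ⟨hle, le_rfl⟩)
    (fun K hK v hv hKv => by
      obtain ⟨c, w, hc, hvw, hw⟩ := hscale v hv
      have hKw : K *ᵥ w = (R : ℂ) • w := by
        rw [hvw, mulVec_smul, smul_comm] at hKv
        exact smul_right_injective _ (by exact_mod_cast hc.ne' : (c : ℂ) ≠ 0) hKv
      rw [hvw, hqscale]
      have h1 := (hsol K hK).top hL (hKh K hK) hR.le le_rfl (hKR K hK) (hYcK K hK)
        (hY K hK) hKw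
      have h2 := htop K hK w hw hKw
      rw [hw] at h1
      have h3 : 0 < qf w (sol K L) := by
        have : ∫ x in (-L)..L, qf w (Y K x) < 2 * R := h2
        linarith
      positivity)
    (fun K hK v hv hKv => by
      obtain ⟨c, w, hc, hvw, hw⟩ := hscale v hv
      have hKw : K *ᵥ w = (d : ℂ) • w := by
        rw [hvw, mulVec_smul, smul_comm] at hKv
        exact smul_right_injective _ (by exact_mod_cast hc.ne' : (c : ℂ) ≠ 0) hKv
      rw [hvw, hqscale]
      have h1 := (hsol K hK).bot hL (hKh K hK) hR.le le_rfl (hKR K hK) (hYcK K hK)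
        (hY K hK) hKw
      have h2 := hbot K hK w hw hKw
      rw [hw] at h1
      have h3 : qf w (sol K L) ≤ 0 := by
        have : 2 * d + 2 * L * d ^ 2 ≤ ∫ x in (-L)..L, qf w (Y K x) := h2
        linarith
      nlinarith [sq_nonneg c])
  have hs := hsol K hK
  have hT' : sol K L = 0 := hT
  have hpos := hs.nonneg hL (hKh K hK) (hY K hK) hT'
  have hle2 := hs.le_two_smul hL (hKh K hK) (hY K hK)
  have hspec := hs.spectrum_le hL (hKh K hK) (hKR K hK) (hY K hK)
  refine ⟨K, hK, fun x => sol K x - K, ?_, ?_, fun x hx => ?_, fun x hx => ⟨?_, ?_, ?_⟩⟩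
  · simp only [hs.init]
    rw [two_smul, add_sub_cancel_right]
  · simp only [hT']
    rw [zero_sub]
  · have h1 := (hs.deriv x hx).sub_const K
    have hH : (sol K x).IsHermitian := (hpos x hx).1
    have hcc : cc B (sol K x) = sol K x := by
      unfold cc
      rw [hp_eq hH]
      conv_rhs => rw [← cf_id hH]
      refine cf_congr fun t ht => ?_
      refine tent_of_mem (nonneg_spectrum_of_posSemidef (hpos x hx) t ht) ?_
      have := hspec x hx t (by rwa [hp_eq hH])
      exact this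
    have hgg : gg B (sol K x) = sol K x * sol K x := by
      rw [IsSol.gg_eq hH, hcc]
    have e : vf B K (Y K x) (sol K x) =
        K * K - (sol K x - K) * (sol K x - K) - Y K x := by
      unfold vf
      rw [hcc, hgg]
      noncomm_ring
    rw [e] at h1
    exact h1
  · exact (hpos x hx).1.sub (hKh K hK)
  · have e : K - (sol K x - K) = (2 : ℝ) • K - sol K x := by rw [two_smul]; abel
    change (K - (sol K x - K)).PosSemidef
    rw [e]
    exact hle2 x hx
  · have e : K + (sol K x - K) = sol K x := by abel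
    change (K + (sol K x - K)).PosSemidef
    rw [e]
    exact hpos x hx

end Crest.Agent.R332.Full
end

-- ▼ part R332/FullInst
section

/-! # Instances of `exists_full` for `Y = (1+r) (C_K p C_K)^r` (row 332) -/

set_option autoImplicit false

open scoped ComplexOrder Matrix
open scoped Matrix.Norms.Frobenius
open Matrix Set

namespace Crest.Agent.R332.Full

variable {ι : Type*} [Fintype ι] [DecidableEq ι]

lemma mpow_eq_cf (A : Matrix ι ι ℂ) (q : ℝ) : mpow A q = cf (fun t => t ^ q) A := rfl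

/-- tangent line inequality for `t ↦ t^r`, `r ≥ 1`. -/
lemma rpow_tangent {r : ℝ} (hr : 1 ≤ r) {a t : ℝ} (ha : 0 < a) (ht : 0 ≤ t) :
    r * a ^ (r - 1) * t - (r - 1) * a ^ r ≤ t ^ r := by
  have h1 : 1 + r * (t / a - 1) ≤ (1 + (t / a - 1)) ^ r :=
    one_add_mul_self_le_rpow_one_add (by
      have : 0 ≤ t / a := by positivity
      linarith) hr
  have h2 : (1 + (t / a - 1)) ^ r = t ^ r / a ^ r := by
    rw [show 1 + (t / a - 1) = t / a by ring, Real.div_rpow ht ha.le]
  rw [h2] at h1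
  have h3 : 0 < a ^ r := Real.rpow_pos_of_pos ha r
  have h4 : a ^ (r - 1) * a = a ^ r := by
    rw [← Real.rpow_add_one ha.ne']; ring_nf
  have h5 : (1 + r * (t / a - 1)) * a ^ r ≤ t ^ r := by
    rwa [le_div_iff₀ h3] at h1
  have h6 : (1 + r * (t / a - 1)) * a ^ r = r * a ^ (r - 1) * t - (r - 1) * a ^ r := by
    rw [← h4]; field_simp; ring
  linarith

/-- Lower bound for the mean of the quadratic form of a power. -/
lemma integral_qf_mpow_ge {r L : ℝ} (hr : 1 ≤ r) (hL : 0 < L) {X : ℝ → Matrix ι ι ℂ}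
    (hX : ∀ x ∈ Icc (-L) L, (X x).PosSemidef) (hXc : ContinuousOn X (Icc (-L) L))
    (hXr : ContinuousOn (fun x => mpow (X x) r) (Icc (-L) L)) {v : ι → ℂ}
    (hv : (star v ⬝ᵥ v).re = 1) {w : ℝ} (hw : 0 < w)
    (hwX : w ≤ ∫ x in (-L)..L, qf v (X x)) :
    2 * L * (w / (2 * L)) ^ r ≤ ∫ x in (-L)..L, qf v (mpow (X x) r) := by
  have hle : -L ≤ L := by linarith
  have hcq : Continuous (qf v) := (qf v).continuous_of_finiteDimensional
  set a : ℝ := w / (2 * L) with ha
  have ha0 : 0 < a := by positivity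
  have h1 : ∫ x in (-L)..L, (r * a ^ (r - 1) * qf v (X x) - (r - 1) * a ^ r) ≤
      ∫ x in (-L)..L, qf v (mpow (X x) r) := by
    refine intervalIntegral.integral_mono_on hle ?_ ?_ fun x hx => ?_
    · refine ContinuousOn.intervalIntegrable ?_
      rw [uIcc_of_le hle]
      exact (continuousOn_const.mul (hcq.comp_continuousOn hXc)).sub continuousOn_const
    · refine ContinuousOn.intervalIntegrable ?_
      rw [uIcc_of_le hle]
      exact hcq.comp_continuousOn hXr
    · have h4 : (cf (fun t => t ^ r - (r * a ^ (r - 1) * t - (r - 1) * a ^ r)) (X x)).PosSemidef := by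
        refine posSemidef_cf fun t ht => ?_
        have := rpow_tangent hr ha0 (nonneg_spectrum_of_posSemidef (hX x hx) t ht)
        linarith
      rw [← cf_sub, ← cf_sub, ← cf_smul, cf_const (hX x hx).1, cf_id (hX x hx).1] at h4
      have h5 := qf_nonneg v h4
      rw [map_sub, map_sub, map_smul, map_smul, smul_eq_mul, smul_eq_mul, qf_one, hv] at h5
      rw [mpow_eq_cf]
      linarith
  have h2 : ∫ x in (-L)..L, (r * a ^ (r - 1) * qf v (X x) - (r - 1) * a ^ r) =
      r * a ^ (r - 1) * (∫ x in (-L)..L, qf v (X x)) - 2 * L * ((r - 1) * a ^ r) := by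
    rw [intervalIntegral.integral_sub, intervalIntegral.integral_const,
      intervalIntegral.integral_const_mul]
    · rw [smul_eq_mul]; ring
    · refine ContinuousOn.intervalIntegrable ?_
      rw [uIcc_of_le hle]
      exact (continuousOn_const.mul (hcq.comp_continuousOn hXc))
    · exact intervalIntegrable_const
  have h3 : r * a ^ (r - 1) * w ≤ r * a ^ (r - 1) * (∫ x in (-L)..L, qf v (X x)) :=
    mul_le_mul_of_nonneg_left hwX (by positivity)
  have h4 : a ^ (r - 1) * a = a ^ r := by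
    rw [← Real.rpow_add_one ha0.ne']; ring_nf
  have h5 : w = a * (2 * L) := by rw [ha]; field_simp
  have h6 : r * a ^ (r - 1) * w = 2 * L * (r * a ^ r) := by
    rw [← h4]
    conv_lhs => rw [h5]
    ring
  linarith

/-- Lipschitz bound for powers `r ≥ 1` on bounded sets. -/
lemma abs_rpow_sub_le {r β : ℝ} (hr : 1 ≤ r) {x y : ℝ} (hx : x ∈ Icc 0 β) (hy : y ∈ Icc 0 β) :
    |x ^ r - y ^ r| ≤ r * β ^ (r - 1) * |x - y| := by
  have h := (convex_Icc (0:ℝ) β).norm_image_sub_le_of_norm_hasDerivWithin_le (𝕜 := ℝ)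
    (f := fun t : ℝ => t ^ r) (f' := fun t => r * t ^ (r - 1)) (C := r * β ^ (r - 1))
    (fun t _ => (Real.hasDerivAt_rpow_const (Or.inr hr)).hasDerivWithinAt)
    (fun t ht => by
      rw [Real.norm_eq_abs, abs_mul, abs_of_nonneg (by linarith : (0:ℝ) ≤ r),
        abs_of_nonneg (Real.rpow_nonneg ht.1 _)]
      exact mul_le_mul_of_nonneg_left (Real.rpow_le_rpow ht.1 ht.2 (by linarith)) (by linarith))
    hy hx
  simpa using h

/-- Lipschitz bound for powers `q ≤ 0` away from zero. -/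
lemma abs_rpow_sub_le_of_nonpos {q d : ℝ} (hq : q ≤ 0) (hd : 0 < d) {x y : ℝ} (hx : d ≤ x)
    (hy : d ≤ y) : |x ^ q - y ^ q| ≤ -q * d ^ (q - 1) * |x - y| := by
  have h := (convex_Ici d).norm_image_sub_le_of_norm_hasDerivWithin_le (𝕜 := ℝ)
    (f := fun t : ℝ => t ^ q) (f' := fun t => q * t ^ (q - 1)) (C := -q * d ^ (q - 1))
    (fun t ht => (Real.hasDerivAt_rpow_const (Or.inl (ne_of_gt
      (lt_of_lt_of_le hd ht)))).hasDerivWithinAt)
    (fun t ht => by
      have ht0 : 0 < t := lt_of_lt_of_le hd ht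
      rw [Real.norm_eq_abs, abs_mul, abs_of_nonpos hq, abs_of_nonneg (Real.rpow_nonneg ht0.le _)]
      exact mul_le_mul_of_nonneg_left
        (Real.rpow_le_rpow_of_nonpos hd ht (by linarith)) (by linarith))
    hy hx
  simpa using h

/-- Continuity of `X ↦ X^r` along continuous maps into bounded positive matrices. -/
lemma continuousOn_mpow_of_le {α : Type*} [TopologicalSpace α] {r β : ℝ} (hr : 1 ≤ r)
    {S : Set α} {X : α → Matrix ι ι ℂ} (hXc : ContinuousOn X S)
    (hX : ∀ a ∈ S, (X a).PosSemidef) (hXβ : ∀ a ∈ S, (β • (1 : Matrix ι ι ℂ) - X a).PosSemidef) :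
    ContinuousOn (fun a => mpow (X a) r) S := by
  have hsp : ∀ a ∈ S, ∀ t ∈ spectrum ℝ (X a), t ∈ Icc 0 β := fun a ha t ht =>
    ⟨nonneg_spectrum_of_posSemidef (hX a ha) t ht, spectrum_le_of_posSemidef (hXβ a ha) t ht⟩
  have hlip : ∀ a ∈ S, ∀ b ∈ S, ‖mpow (X a) r - mpow (X b) r‖ ≤
      |r * β ^ (r - 1)| * ‖X a - X b‖ := by
    intro a ha b hb
    have h := tp_cf_sub_cf_le (f := fun t => t ^ r) (c := |r * β ^ (r - 1)|) (hX a ha).1
      (hX b hb).1 (fun x hx y hy => (abs_rpow_sub_le hr (hsp a ha x hx) (hsp b hb y hy)).trans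
        (mul_le_mul_of_nonneg_right (le_abs_self _) (abs_nonneg _)))
    rw [← frob_sq ((isHermitian_cf _ _).sub (isHermitian_cf _ _)),
      ← frob_sq ((hX a ha).1.sub (hX b hb).1), ← mul_pow] at h
    exact (abs_le_of_sq_le_sq' h (by positivity)).2
  intro a ha
  have h1 : Filter.Tendsto (fun b => ‖mpow (X b) r - mpow (X a) r‖) (nhdsWithin a S) (nhds 0) := by
    have h2 : Filter.Tendsto (fun b => |r * β ^ (r - 1)| * ‖X b - X a‖) (nhdsWithin a S)
        (nhds (|r * β ^ (r - 1)| * 0)) := by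
      refine Filter.Tendsto.const_mul _ ?_
      have h3 : Filter.Tendsto X (nhdsWithin a S) (nhds (X a)) := hXc a ha
      exact tendsto_iff_norm_sub_tendsto_zero.mp h3
    rw [mul_zero] at h2
    refine squeeze_zero' (Filter.Eventually.of_forall fun _ => norm_nonneg _) ?_ h2
    filter_upwards [self_mem_nhdsWithin] with b hb
    exact hlip b hb a ha
  exact tendsto_iff_norm_sub_tendsto_zero.mpr h1

/-- Continuity of `K ↦ K^q`, `q ≤ 0`, on `{K ≥ d}`. -/
lemma continuousOn_mpow_of_nonpos {q d : ℝ} (hq : q ≤ 0) (hd : 0 < d) :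
    ContinuousOn (fun K : Matrix ι ι ℂ => mpow K q)
      {K | K.IsHermitian ∧ (K - d • (1 : Matrix ι ι ℂ)).PosSemidef} := by
  set S : Set (Matrix ι ι ℂ) := {K | K.IsHermitian ∧ (K - d • (1 : Matrix ι ι ℂ)).PosSemidef}
  have hlip : ∀ a ∈ S, ∀ b ∈ S, ‖mpow a q - mpow b q‖ ≤ (-q * d ^ (q - 1)) * ‖a - b‖ := by
    intro a ha b hb
    have hc : 0 ≤ -q * d ^ (q - 1) := by
      have := Real.rpow_nonneg hd.le (q - 1)
      nlinarith
    have h := tp_cf_sub_cf_le (f := fun t => t ^ q) (c := -q * d ^ (q - 1)) ha.1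
      hb.1 (fun x hx y hy => abs_rpow_sub_le_of_nonpos hq hd
        (le_spectrum_of_posSemidef ha.2 x hx) (le_spectrum_of_posSemidef hb.2 y hy))
    rw [← frob_sq ((isHermitian_cf _ _).sub (isHermitian_cf _ _)),
      ← frob_sq (ha.1.sub hb.1), ← mul_pow] at h
    exact (abs_le_of_sq_le_sq' h (by positivity)).2
  intro a ha
  have h1 : Filter.Tendsto (fun b : Matrix ι ι ℂ => ‖mpow b q - mpow a q‖) (nhdsWithin a S)
      (nhds 0) := by
    have h2 : Filter.Tendsto (fun b : Matrix ι ι ℂ => (-q * d ^ (q - 1)) * ‖b - a‖)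
        (nhdsWithin a S) (nhds ((-q * d ^ (q - 1)) * 0)) := by
      refine Filter.Tendsto.const_mul _ ?_
      have h3 : Filter.Tendsto (fun b : Matrix ι ι ℂ => b) (nhdsWithin a S) (nhds a) :=
        Filter.tendsto_id.mono_left nhdsWithin_le_nhds
      exact tendsto_iff_norm_sub_tendsto_zero.mp h3
    rw [mul_zero] at h2
    refine squeeze_zero' (Filter.Eventually.of_forall fun _ => norm_nonneg _) ?_ h2
    filter_upwards [self_mem_nhdsWithin] with b hb
    exact hlip b hb a ha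
  exact tendsto_iff_norm_sub_tendsto_zero.mpr h1

end Crest.Agent.R332.Full
end

-- ▼ part R332/FullWeight
section

/-! # `N`-full `K` for the weighted densities (row 332) -/

set_option autoImplicit false

open scoped ComplexOrder Matrix
open scoped Matrix.Norms.Frobenius
open Matrix Set

namespace Crest.Agent.R332.Full

variable {ι : Type*} [Fintype ι] [DecidableEq ι]

lemma posSemidef_sub_of_spectrum_le {A : Matrix ι ι ℂ} (hA : A.IsHermitian) {c : ℝ}
    (h : ∀ t ∈ spectrum ℝ A, t ≤ c) : (c • (1 : Matrix ι ι ℂ) - A).PosSemidef := by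
  have h4 : (cf (fun t => c - t) A).PosSemidef :=
    posSemidef_cf fun t ht => by have := h t ht; linarith
  rwa [← cf_sub, cf_const hA, cf_id hA] at h4

lemma posSemidef_trace_sub {P : Matrix ι ι ℂ} (hP : P.PosSemidef) :
    (P.trace.re • (1 : Matrix ι ι ℂ) - P).PosSemidef := by
  refine posSemidef_sub_of_spectrum_le hP.1 fun t ht => ?_
  rw [hP.1.spectrum_real_eq_range_eigenvalues] at ht
  obtain ⟨i, rfl⟩ := ht
  have h1 : P.trace.re = ∑ j, hP.1.eigenvalues j := by
    rw [hP.1.trace_eq_sum_eigenvalues]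
    simp
  rw [h1]
  exact Finset.single_le_sum (f := hP.1.eigenvalues) (fun j _ => hP.eigenvalues_nonneg j)
    (Finset.mem_univ i)

lemma qf_conj (v : ι → ℂ) {C : Matrix ι ι ℂ} (hC : C.IsHermitian) (P : Matrix ι ι ℂ) :
    qf v (C * P * C) = qf (C *ᵥ v) P := by
  rw [qf_apply, qf_apply, star_mulVec, hC.eq, ← mulVec_mulVec, ← mulVec_mulVec,
    dotProduct_mulVec, dotProduct_mulVec]

lemma posDef_of_sub {K : Matrix ι ι ℂ} {d : ℝ} (hd : 0 < d)
    (h : (K - d • (1 : Matrix ι ι ℂ)).PosSemidef) : K.PosDef := by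
  have h1 : (d • (1 : Matrix ι ι ℂ)).PosDef := PosDef.one.smul hd
  have := PosDef.posSemidef_add h h1
  rwa [sub_add_cancel] at this

/-- The set `{K ≥ d}`. -/
def geSet (ι : Type*) [Fintype ι] [DecidableEq ι] (d : ℝ) : Set (Matrix ι ι ℂ) :=
  {K | K.IsHermitian ∧ (K - d • (1 : Matrix ι ι ℂ)).PosSemidef}

set_option maxHeartbeats 1000000 in
theorem exists_full_weight {r L d β0 w0 : ℝ} (hr : 1 ≤ r) (hL : 0 < L) (hd : 0 < d)
    (p : ℝ → Matrix ι ι ℂ) (hpc : ContinuousOn p (Icc (-L) L))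
    (hp : ∀ x ∈ Icc (-L) L, (p x).PosSemidef)
    (hp1 : ∀ v : ι → ℂ, ∫ x in (-L)..L, qf v (p x) = (star v ⬝ᵥ v).re)
    (C : Matrix ι ι ℂ → Matrix ι ι ℂ) (hCc : ContinuousOn C (geSet ι d))
    (hCh : ∀ K, (C K).IsHermitian)
    (hβ0 : 0 ≤ β0)
    (hCβ : ∀ K ∈ geSet ι d, (β0 • (1 : Matrix ι ι ℂ) - C K * C K).PosSemidef)
    (hw0 : 0 < w0)
    (hCw : ∀ K ∈ geSet ι d, ∀ v : ι → ℂ, (star v ⬝ᵥ v).re = 1 → K *ᵥ v = (d : ℂ) • v →
      w0 ≤ (star (C K *ᵥ v) ⬝ᵥ (C K *ᵥ v)).re)
    (hdw : 2 * d + 2 * L * d ^ 2 ≤ (1 + r) * (2 * L * (w0 / (2 * L)) ^ r)) :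
    ∃ K : Matrix ι ι ℂ, K.PosDef ∧ ∃ F : ℝ → Matrix ι ι ℂ, F (-L) = K ∧ F L = -K ∧
      (∀ x ∈ Icc (-L) L, HasDerivWithinAt F
        (K * K - F x * F x - (1 + r) • mpow (C K * p x * C K) r) (Icc (-L) L) x) ∧
      ∀ x ∈ Icc (-L) L, (F x).IsHermitian ∧ (K - F x).PosSemidef ∧ (K + F x).PosSemidef := by
  have hle : -L ≤ L := by linarith
  -- bound for `p`
  obtain ⟨b, hb⟩ : ∃ b : ℝ, ∀ x ∈ Icc (-L) L, (p x).trace.re ≤ b := by
    have hc : ContinuousOn (fun x => (p x).trace.re) (Icc (-L) L) :=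
      Complex.continuous_re.comp_continuousOn (continuous_id.matrix_trace.comp_continuousOn hpc)
    obtain ⟨b, hb⟩ := isCompact_Icc.exists_bound_of_continuousOn hc
    exact ⟨b, fun x hx => (le_abs_self _).trans (hb x hx)⟩
  have hb0 : 0 ≤ b := by
    have h0 : (-L) ∈ Icc (-L) L := ⟨le_rfl, hle⟩
    exact ((RCLike.nonneg_iff.mp (hp _ h0).trace_nonneg).1).trans (hb _ h0)
  have hpb : ∀ x ∈ Icc (-L) L, (b • (1 : Matrix ι ι ℂ) - p x).PosSemidef := by
    intro x hx
    have h1 := posSemidef_trace_sub (hp x hx)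
    have h2 : ((b - (p x).trace.re) • (1 : Matrix ι ι ℂ)).PosSemidef :=
      PosSemidef.one.smul (by linarith [hb x hx])
    have := h2.add h1
    convert this using 1
    rw [sub_smul]
    abel
  set β : ℝ := b * β0 with hβ
  have hβnn : 0 ≤ β := by positivity
  set R : ℝ := max (d + 1) (L * ((1 + r) * β ^ r) + 1) with hR
  have hdR : d < R := lt_of_lt_of_le (by linarith) (le_max_left _ _)
  have hRtop : L * ((1 + r) * β ^ r) < R := lt_of_lt_of_le (by linarith) (le_max_right _ _)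
  have hsub : boxSet ι d R ⊆ geSet ι d := fun K hK => by
    have := mem_boxSet_iff.mp hK
    exact ⟨this.1, this.2.1⟩
  have hXpos : ∀ K, ∀ x ∈ Icc (-L) L, (C K * p x * C K).PosSemidef := by
    intro K x hx
    have := (hp x hx).mul_mul_conjTranspose_same (C K)
    rwa [(hCh K).eq] at this
  have hXβ : ∀ K ∈ geSet ι d, ∀ x ∈ Icc (-L) L,
      (β • (1 : Matrix ι ι ℂ) - C K * p x * C K).PosSemidef := by
    intro K hK x hx
    have h1 := (hpb x hx).mul_mul_conjTranspose_same (C K)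
    rw [(hCh K).eq] at h1
    have h2 : (b • (β0 • (1 : Matrix ι ι ℂ) - C K * C K)).PosSemidef := (hCβ K hK).smul hb0
    have := h2.add h1
    convert this using 1
    rw [mul_sub, sub_mul, mul_smul_comm, mul_one, smul_mul_assoc, smul_sub, smul_smul, ← hβ]
    abel
  have hXc : ContinuousOn (fun q : Matrix ι ι ℂ × ℝ => C q.1 * p q.2 * C q.1)
      (boxSet ι d R ×ˢ Icc (-L) L) := by
    have h1 : ContinuousOn (fun q : Matrix ι ι ℂ × ℝ => C q.1) (boxSet ι d R ×ˢ Icc (-L) L) :=
      (hCc.mono hsub).comp continuous_fst.continuousOn fun q hq => hq.1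
    have h2 : ContinuousOn (fun q : Matrix ι ι ℂ × ℝ => p q.2) (boxSet ι d R ×ˢ Icc (-L) L) :=
      hpc.comp continuous_snd.continuousOn fun q hq => hq.2
    exact (h1.mul h2).mul h1
  have hmc : ContinuousOn (fun q : Matrix ι ι ℂ × ℝ => mpow (C q.1 * p q.2 * C q.1) r)
      (boxSet ι d R ×ˢ Icc (-L) L) :=
    continuousOn_mpow_of_le hr hXc (fun q hq => hXpos q.1 q.2 hq.2)
      (fun q hq => hXβ q.1 (hsub hq.1) q.2 hq.2)
  have hmpos : ∀ K, ∀ x ∈ Icc (-L) L, (mpow (C K * p x * C K) r).PosSemidef :=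
    fun K x hx => mpow_posSemidef (hXpos K x hx) r
  have hcK : ∀ K ∈ boxSet ι d R, ContinuousOn (fun x => mpow (C K * p x * C K) r)
      (Icc (-L) L) := by
    intro K hK
    have : ContinuousOn (fun x : ℝ => ((K, x) : Matrix ι ι ℂ × ℝ)) (Icc (-L) L) :=
      (continuous_const.prodMk continuous_id).continuousOn
    have h2 := hmc.comp this (fun x hx => mk_mem_prod hK hx)
    exact h2
  have hcX : ∀ K ∈ boxSet ι d R, ContinuousOn (fun x => C K * p x * C K)
      (Icc (-L) L) := by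
    intro K hK
    exact (continuousOn_const.mul hpc).mul continuousOn_const
  have hr0 : 0 ≤ 1 + r := by linarith
  have htop : ∀ K ∈ boxSet ι d R, ∀ v : ι → ℂ, (star v ⬝ᵥ v).re = 1 → K *ᵥ v = (R : ℂ) • v →
      ∫ x in (-L)..L, (star v ⬝ᵥ (((1 + r) • mpow (C K * p x * C K) r) *ᵥ v)).re < 2 * R := by
    intro K hK v hv hKv
    have h1 : ∀ x ∈ Icc (-L) L,
        (star v ⬝ᵥ (((1 + r) • mpow (C K * p x * C K) r) *ᵥ v)).re ≤ (1 + r) * β ^ r := by
      intro x hx
      have h2 : (β ^ r • (1 : Matrix ι ι ℂ) - mpow (C K * p x * C K) r).PosSemidef := by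
        have h4 : (cf (fun t => β ^ r - t ^ r) (C K * p x * C K)).PosSemidef := by
          refine posSemidef_cf fun t ht => ?_
          have h5 := nonneg_spectrum_of_posSemidef (hXpos K x hx) t ht
          have h6 := spectrum_le_of_posSemidef (hXβ K (hsub hK) x hx) t ht
          have := Real.rpow_le_rpow h5 h6 (by linarith : 0 ≤ r)
          linarith
        rwa [← cf_sub, cf_const (hXpos K x hx).1] at h4
      have h3 := qf_nonneg v h2
      rw [map_sub, map_smul, smul_eq_mul, qf_one, hv, mul_one] at h3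
      have h4 : (star v ⬝ᵥ (((1 + r) • mpow (C K * p x * C K) r) *ᵥ v)).re =
          (1 + r) * qf v (mpow (C K * p x * C K) r) := by
        rw [← qf_apply, map_smul, smul_eq_mul]
      rw [h4]
      exact mul_le_mul_of_nonneg_left (by linarith) hr0
    have h2 : ∫ x in (-L)..L, (star v ⬝ᵥ (((1 + r) • mpow (C K * p x * C K) r) *ᵥ v)).re ≤
        ∫ _x in (-L)..L, (1 + r) * β ^ r := by
      refine intervalIntegral.integral_mono_on hle ?_ intervalIntegrable_const h1
      refine ContinuousOn.intervalIntegrable ?_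
      rw [uIcc_of_le hle]
      have hcq : Continuous (qf v) := (qf v).continuous_of_finiteDimensional
      exact hcq.comp_continuousOn ((hcK K hK).const_smul (1 + r))
    rw [intervalIntegral.integral_const, smul_eq_mul] at h2
    have h3 : (L - -L) * ((1 + r) * β ^ r) = 2 * (L * ((1 + r) * β ^ r)) := by ring
    rw [h3] at h2
    linarith
  have hbot : ∀ K ∈ boxSet ι d R, ∀ v : ι → ℂ, (star v ⬝ᵥ v).re = 1 → K *ᵥ v = (d : ℂ) • v →
      2 * d + 2 * L * d ^ 2 ≤
        ∫ x in (-L)..L, (star v ⬝ᵥ (((1 + r) • mpow (C K * p x * C K) r) *ᵥ v)).re := by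
    intro K hK v hv hKv
    have h1 : ∫ x in (-L)..L, qf v (C K * p x * C K) =
        (star (C K *ᵥ v) ⬝ᵥ (C K *ᵥ v)).re := by
      rw [← hp1 (C K *ᵥ v)]
      refine intervalIntegral.integral_congr fun x _ => ?_
      exact qf_conj v (hCh K) (p x)
    have h2 := integral_qf_mpow_ge hr hL (X := fun x => C K * p x * C K)
      (fun x hx => hXpos K x hx) (hcX K hK) (hcK K hK) hv hw0 (by
        rw [h1]; exact hCw K (hsub hK) v hv hKv)
    have h3 : ∫ x in (-L)..L, (star v ⬝ᵥ (((1 + r) • mpow (C K * p x * C K) r) *ᵥ v)).re =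
        (1 + r) * ∫ x in (-L)..L, qf v (mpow (C K * p x * C K) r) := by
      rw [← intervalIntegral.integral_const_mul]
      refine intervalIntegral.integral_congr fun x _ => ?_
      change qf v ((1 + r) • mpow (C K * p x * C K) r) = _
      rw [map_smul, smul_eq_mul]
    rw [h3]
    exact hdw.trans (mul_le_mul_of_nonneg_left h2 hr0)
  have hYc : ContinuousOn (fun q : Matrix ι ι ℂ × ℝ =>
      (1 + r) • mpow (C q.1 * p q.2 * C q.1) r) (boxSet ι d R ×ˢ Icc (-L) L) :=
    hmc.const_smul (1 + r)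
  have hYp : ∀ K ∈ boxSet ι d R, ∀ x ∈ Icc (-L) L,
      ((1 + r) • mpow (C K * p x * C K) r).PosSemidef :=
    fun K _ x hx => (hmpos K x hx).smul hr0
  obtain ⟨K, hK, F, hF1, hF2, hF3, hF4⟩ := exists_full (ι := ι) d R L hd.le hdR hL
    (fun K x => (1 + r) • mpow (C K * p x * C K) r) hYc hYp htop hbot
  exact ⟨K, posDef_of_sub hd (mem_boxSet_iff.mp hK).2.1, F, hF1, hF2, hF3, hF4⟩

/-- **Constant weight** (`γ ≥ 1`). -/
theorem exists_full_const {r L : ℝ} (hr : 1 ≤ r) (hL : 0 < L)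
    (p : ℝ → Matrix ι ι ℂ) (hpc : ContinuousOn p (Icc (-L) L))
    (hp : ∀ x ∈ Icc (-L) L, (p x).PosSemidef)
    (hp1 : ∀ v : ι → ℂ, ∫ x in (-L)..L, (star v ⬝ᵥ (p x *ᵥ v)).re = (star v ⬝ᵥ v).re)
    (C : Matrix ι ι ℂ) (hC : C.PosDef) :
    ∃ K : Matrix ι ι ℂ, K.PosDef ∧ ∃ F : ℝ → Matrix ι ι ℂ, F (-L) = K ∧ F L = -K ∧
      (∀ x ∈ Icc (-L) L, HasDerivWithinAt F
        (K * K - F x * F x - (1 + r) • mpow (C * p x * C) r) (Icc (-L) L) x) ∧
      ∀ x ∈ Icc (-L) L, (F x).IsHermitian ∧ (K - F x).PosSemidef ∧ (K + F x).PosSemidef := by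
  have hCC : (C * C).PosSemidef := by
    have := posSemidef_conjTranspose_mul_self C
    rwa [hC.1.eq] at this
  -- lower bound of the spectrum of `C`
  obtain ⟨σ, hσ, hσC⟩ : ∃ σ : ℝ, 0 < σ ∧ (C - σ • (1 : Matrix ι ι ℂ)).PosSemidef := by
    rcases isEmpty_or_nonempty ι with hι | hι
    · refine ⟨1, one_pos, ?_⟩
      have : C - (1 : ℝ) • (1 : Matrix ι ι ℂ) = 0 := Subsingleton.elim _ _
      rw [this]
      exact PosSemidef.zero
    · obtain ⟨i, -, hi⟩ := Finset.exists_min_image Finset.univ hC.1.eigenvalues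
        Finset.univ_nonempty
      refine ⟨hC.1.eigenvalues i, hC.eigenvalues_pos i, ?_⟩
      have h4 : (cf (fun t => t - hC.1.eigenvalues i) C).PosSemidef := by
        refine posSemidef_cf fun t ht => ?_
        rw [hC.1.spectrum_real_eq_range_eigenvalues] at ht
        obtain ⟨j, rfl⟩ := ht
        linarith [hi j (Finset.mem_univ j)]
      rwa [← cf_sub, cf_const hC.1, cf_id hC.1] at h4
  set A : ℝ := (1 + r) * (2 * L * (σ ^ 2 / (2 * L)) ^ r) with hA
  have hA0 : 0 < A := by positivity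
  set d : ℝ := min 1 (A / (2 + 2 * L)) with hdd
  have hd : 0 < d := lt_min one_pos (by positivity)
  refine exists_full_weight (d := d) (β0 := (C * C).trace.re) (w0 := σ ^ 2) hr hL hd p hpc hp hp1
    (fun _ => C) continuousOn_const (fun _ => hC.1) ?_ (fun _ _ => posSemidef_trace_sub hCC)
    (by positivity) (fun K _ v hv _ => ?_) ?_
  · exact (RCLike.nonneg_iff.mp hCC.trace_nonneg).1
  · -- `|Cv|² ≥ σ²`
    have h1 : (cf (fun t => t * t - σ ^ 2) C).PosSemidef := by
      refine posSemidef_cf fun t ht => ?_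
      have := le_spectrum_of_posSemidef hσC t ht
      nlinarith
    rw [← cf_sub, ← cf_mul, cf_const hC.1, cf_id hC.1] at h1
    have h2 := qf_nonneg v h1
    rw [map_sub, map_smul, smul_eq_mul, qf_one, hv, mul_one] at h2
    have h3 : (star (C *ᵥ v) ⬝ᵥ (C *ᵥ v)).re = qf v (C * C) := by
      rw [qf_apply, star_mulVec, hC.1.eq, ← mulVec_mulVec, dotProduct_mulVec (star v)]
    rw [h3]
    linarith
  · have h1 : d ≤ 1 := min_le_left _ _
    have h2 : d ≤ A / (2 + 2 * L) := min_le_right _ _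
    have h3 : d ^ 2 ≤ d := by nlinarith
    have h4 : (2 + 2 * L) * d ≤ A := by
      rw [le_div_iff₀ (by positivity)] at h2
      linarith
    nlinarith

/-- **Weight depending on `K`** (`γ < 1`): `C_K = c K^q` with `2 q r = 2 - r`, `q ≤ 0`. -/
theorem exists_full_pow {r L c q : ℝ} (hr : 1 < r) (hL : 0 < L) (hc : 0 < c) (hq : q ≤ 0)
    (hqr : 2 * q * r = 2 - r)
    (p : ℝ → Matrix ι ι ℂ) (hpc : ContinuousOn p (Icc (-L) L))
    (hp : ∀ x ∈ Icc (-L) L, (p x).PosSemidef)
    (hp1 : ∀ v : ι → ℂ, ∫ x in (-L)..L, (star v ⬝ᵥ (p x *ᵥ v)).re = (star v ⬝ᵥ v).re) :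
    ∃ K : Matrix ι ι ℂ, K.PosDef ∧ ∃ F : ℝ → Matrix ι ι ℂ, F (-L) = K ∧ F L = -K ∧
      (∀ x ∈ Icc (-L) L, HasDerivWithinAt F
        (K * K - F x * F x - (1 + r) • mpow ((c • mpow K q) * p x * (c • mpow K q)) r)
          (Icc (-L) L) x) ∧
      ∀ x ∈ Icc (-L) L, (F x).IsHermitian ∧ (K - F x).PosSemidef ∧ (K + F x).PosSemidef := by
  set A : ℝ := (1 + r) * (2 * L * (c ^ 2 / (2 * L)) ^ r) with hA
  have hA0 : 0 < A := by positivity
  set d : ℝ := min 1 ((A / (2 + 2 * L)) ^ (r - 1)⁻¹) with hdd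
  have hd : 0 < d := lt_min one_pos (by positivity)
  have hr1 : 0 < r - 1 := by linarith
  refine exists_full_weight (d := d) (β0 := (c * d ^ q) ^ 2) (w0 := (c * d ^ q) ^ 2) hr.le hL hd
    p hpc hp hp1 (fun K => c • mpow K q)
    ((continuousOn_mpow_of_nonpos hq hd).const_smul c)
    (fun K => by
      have := mpow_isHermitian K q
      unfold Matrix.IsHermitian at this ⊢
      rw [conjTranspose_smul, this]
      simp) (by positivity) (fun K hK => ?_) (by positivity) (fun K hK v hv hKv => ?_) ?_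
  · have h4 : (cf (fun t => (c * d ^ q) ^ 2 - (c * t ^ q) * (c * t ^ q)) K).PosSemidef := by
      refine posSemidef_cf fun t ht => ?_
      have h5 := le_spectrum_of_posSemidef hK.2 t ht
      have h6 : t ^ q ≤ d ^ q := Real.rpow_le_rpow_of_nonpos hd h5 hq
      have h7 : 0 ≤ t ^ q := Real.rpow_nonneg (hd.le.trans h5) q
      have h8 : c * t ^ q ≤ c * d ^ q := mul_le_mul_of_nonneg_left h6 hc.le
      have h9 : 0 ≤ c * t ^ q := by positivity
      nlinarith
    rw [← cf_sub, ← cf_mul, cf_const hK.1, ← cf_smul, ← mpow_eq_cf] at h4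
    exact h4
  · -- eigenvector
    have h1 : mpow K q *ᵥ v = ((d ^ q : ℝ) : ℂ) • v := by
      -- `(K - d)² ` kills `v`; use that `K^q - d^q` is a multiple of `K - d` on the spectrum
      have h2 : cf (fun t => t ^ q - d ^ q) K =
          cf (fun t => if t = d then 0 else (t ^ q - d ^ q) / (t - d)) K * (K - d • 1) := by
        have h3 : K - d • (1 : Matrix ι ι ℂ) = cf (fun t => t - d) K := by
          rw [← cf_sub, cf_id hK.1, cf_const hK.1]
        rw [h3, cf_mul]
        refine cf_congr fun t _ => ?_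
        by_cases htd : t = d
        · simp [htd]
        · rw [if_neg htd]
          have : t - d ≠ 0 := sub_ne_zero.mpr htd
          field_simp
      have h3 : (K - d • (1 : Matrix ι ι ℂ)) *ᵥ v = 0 := by
        rw [sub_mulVec, hKv, smul_mulVec, one_mulVec]
        ext i
        simp
      have h4 : cf (fun t => t ^ q - d ^ q) K *ᵥ v = 0 := by
        rw [h2, ← mulVec_mulVec, h3, mulVec_zero]
      rw [← cf_sub, cf_const hK.1, sub_mulVec, smul_mulVec, one_mulVec, sub_eq_zero] at h4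
      rw [mpow_eq_cf, h4]
      ext i
      simp
    have h2 : (c • mpow K q) *ᵥ v = ((c * d ^ q : ℝ) : ℂ) • v := by
      rw [smul_mulVec, h1]
      ext i
      simp [mul_assoc]
    rw [h2, star_smul, smul_dotProduct, dotProduct_smul, smul_smul]
    have e1 : (star ((c * d ^ q : ℝ) : ℂ) * ((c * d ^ q : ℝ) : ℂ)) =
        (((c * d ^ q) ^ 2 : ℝ) : ℂ) := by
      rw [RCLike.star_def, Complex.conj_ofReal, ← Complex.ofReal_mul, pow_two]
    rw [e1, smul_eq_mul, Complex.re_ofReal_mul, hv, mul_one]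
  · have h1 : d ≤ 1 := min_le_left _ _
    have h2 : d ≤ (A / (2 + 2 * L)) ^ (r - 1)⁻¹ := min_le_right _ _
    have h3 : d ^ 2 ≤ d := by nlinarith
    have h4 : d ^ (r - 1) ≤ A / (2 + 2 * L) := by
      have := Real.rpow_le_rpow hd.le h2 hr1.le
      rwa [← Real.rpow_mul (by positivity), inv_mul_cancel₀ hr1.ne', Real.rpow_one] at this
    have h5 : (1 + r) * (2 * L * ((c * d ^ q) ^ 2 / (2 * L)) ^ r) = A * d ^ (2 - r) := by
      have e1 : (c * d ^ q) ^ 2 / (2 * L) = c ^ 2 / (2 * L) * d ^ (2 * q) := by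
        rw [mul_pow, ← Real.rpow_natCast (d ^ q) 2, ← Real.rpow_mul hd.le]
        push_cast
        rw [mul_comm q 2]
        ring
      rw [e1, Real.mul_rpow (by positivity) (by positivity), ← Real.rpow_mul hd.le, hqr, hA]
      ring
    rw [h5]
    have h6 : d ^ (r - 1) * d ^ (2 - r) = d := by
      rw [← Real.rpow_add hd]
      ring_nf
      exact Real.rpow_one d
    have h7 : 0 < d ^ (2 - r) := Real.rpow_pos_of_pos hd _
    have h8 : (2 + 2 * L) * d ≤ A * d ^ (2 - r) := by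
      calc (2 + 2 * L) * d = (2 + 2 * L) * d ^ (r - 1) * d ^ (2 - r) := by
            rw [mul_assoc, h6]
        _ ≤ A * d ^ (2 - r) := by
            refine mul_le_mul_of_nonneg_right ?_ h7.le
            rw [le_div_iff₀ (by positivity)] at h4
            linarith
    nlinarith

end Crest.Agent.R332.Full
end

-- ▼ part R332/AsmFull

/-! # Row 332: module (B) in the form needed by the assembly -/

set_option autoImplicit false
set_option linter.unusedSectionVars false

namespace Crest.Agent.R332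

open Matrix Unitary MeasureTheory Set
open scoped ComplexOrder Topology ContDiff

section entry

open scoped Matrix.Norms.Frobenius

lemma hasDerivWithinAt_entry {ι : Type*} [Fintype ι] [DecidableEq ι] {F : ℝ → Matrix ι ι ℂ}
    {F' : Matrix ι ι ℂ} {s : Set ℝ} {x : ℝ} (h : HasDerivWithinAt F F' s x) (i j : ι) :
    HasDerivWithinAt (fun y => F y i j) (F' i j) s x := by
  have hl := (LinearMap.toContinuousLinearMap
    ({ toFun := fun A : Matrix ι ι ℂ => A i j
       map_add' := fun _ _ => rfl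
       map_smul' := fun _ _ => rfl } : Matrix ι ι ℂ →ₗ[ℝ] ℂ)).hasFDerivAt (x := F x)
  exact hl.comp_hasDerivWithinAt x h

end entry

variable {m : ℕ} {W : ℝ → Matrix (Fin m) (Fin m) ℂ} {ι : Type} [Fintype ι] [DecidableEq ι]

lemma Red.p_integral (S : Red m W ι) (i j : ι) :
    ∫ x in (-S.L)..S.L, S.p x i j = (1 : Matrix ι ι ℂ) i j := by
  rw [← S.orth i j]
  refine intervalIntegral.integral_eq_integral_of_support_subset fun x hx => ?_
  by_contra hc
  apply hx
  have h1 : S.L ≤ |x| := by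
    rw [mem_Ioc, not_and_or, not_lt, not_le] at hc
    rcases hc with h | h
    · exact le_trans (by linarith) (neg_le_abs x)
    · exact h.le.trans (le_abs_self x)
  show S.p x i j = 0
  rw [Red.p, S.supp x h1]
  simp

lemma Red.p_full (S : Red m W ι) (v : ι → ℂ) :
    ∫ x in (-S.L)..S.L, (star v ⬝ᵥ (S.p x *ᵥ v)).re = (star v ⬝ᵥ v).re := by
  have hc : ∀ i j, Continuous fun x => S.p x i j := fun i j =>
    (continuous_apply j).comp ((continuous_apply i).comp S.p_cont)
  have hc2 : ∀ i j, Continuous fun x => star (v i) * (S.p x i j * v j) := fun i j =>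
    continuous_const.mul ((hc i j).mul continuous_const)
  have e : ∀ x, star v ⬝ᵥ (S.p x *ᵥ v) = ∑ i, ∑ j, star (v i) * (S.p x i j * v j) := by
    intro x
    simp only [dotProduct, mulVec, Finset.mul_sum, Pi.star_apply]
  have e1 : ∫ x in (-S.L)..S.L, (star v ⬝ᵥ (S.p x *ᵥ v)).re =
      (∫ x in (-S.L)..S.L, ∑ i, ∑ j, star (v i) * (S.p x i j * v j)).re := by
    have hi : IntervalIntegrable (fun x => ∑ i, ∑ j, star (v i) * (S.p x i j * v j)) volume
        (-S.L) S.L :=
      (continuous_finsetSum _ fun i _ => continuous_finsetSum _ fun j _ => hc2 i j).intervalIntegrable _ _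
    have := Complex.reCLM.intervalIntegral_comp_comm hi
    simp only [Complex.reCLM_apply] at this
    rw [← this]
    simp only [e]
  rw [e1, intervalIntegral.integral_finsetSum fun i _ =>
    (continuous_finsetSum _ fun j _ => hc2 i j).intervalIntegrable _ _]
  have e2 : ∀ i, ∫ x in (-S.L)..S.L, ∑ j, star (v i) * (S.p x i j * v j) =
      star (v i) * v i := by
    intro i
    rw [intervalIntegral.integral_finsetSum fun j _ => (hc2 i j).intervalIntegrable _ _]
    have e3 : ∀ j, ∫ x in (-S.L)..S.L, star (v i) * (S.p x i j * v j) =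
        star (v i) * ((1 : Matrix ι ι ℂ) i j * v j) := by
      intro j
      rw [intervalIntegral.integral_const_mul, intervalIntegral.integral_mul_const,
        S.p_integral i j]
    simp only [e3]
    rw [← Finset.mul_sum]
    congr 1
    simp [Matrix.one_apply]
  simp only [e2]
  rfl

/-- **Module (B)**: the full data exist. -/
theorem exists_fullData (S : Red m W ι) {α : ℝ} (hα : 0 < α) (hα1 : α < 1) :
    ∃ C K F, FullData S α C K F := by
  have hβ := betaC_pos hα
  have hb : 0 < betaC α * (α + 1 / 2) := by positivity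
  set c : ℝ := Real.sqrt (betaC α * (α + 1 / 2)) with hcdef
  have hc : 0 < c := Real.sqrt_pos.mpr hb
  have hcc : c * c = betaC α * (α + 1 / 2) := Real.mul_self_sqrt hb.le
  have hr : 1 < 1 / α := by rw [lt_div_iff₀ hα]; linarith
  rcases le_total 1 (α + 1 / 2) with h1 | h1
  · -- `γ ≥ 1`: constant weight
    have hE := FullData.E_posDef S
    have hEm : (mpow S.E ((α + 1 / 2 - 1) / 2)).PosDef := mpow_posDef hE _
    have hC : (c • mpow S.E ((α + 1 / 2 - 1) / 2)).PosDef := hEm.smul hc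
    obtain ⟨K, hK, F, h0, hL, hd, hF⟩ := Full.exists_full_const hr.le S.L_pos S.p
      S.p_cont.continuousOn (fun x _ => S.p_pos x) S.p_full _ hC
    refine ⟨_, K, F, hC.1, hK, ⟨fun x hx => (hF x hx).1, fun x hx i j => ?_⟩,
      fun x hx => (hF x hx).2.1, fun x hx => (hF x hx).2.2, h0, hL, Or.inl ⟨h1, ?_⟩⟩
    · have := hasDerivWithinAt_entry (hd x hx) i j
      rw [S.P_eq hC.1 x]
      exact this
    · rw [smul_mul_smul_comm, hcc, ← mpow_add hE]
      congr 2
      ring
  · -- `γ ≤ 1`: weight `c K^{γ-1}`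
    obtain ⟨K, hK, F, h0, hL, hd, hF⟩ := Full.exists_full_pow (q := α - 1 / 2) hr S.L_pos hc
      (by linarith) (by field_simp) S.p
      S.p_cont.continuousOn (fun x _ => S.p_pos x) S.p_full
    have hC : (c • mpow K (α - 1 / 2)).PosDef := (mpow_posDef hK _).smul hc
    refine ⟨_, K, F, hC.1, hK, ⟨fun x hx => (hF x hx).1, fun x hx i j => ?_⟩,
      fun x hx => (hF x hx).2.1, fun x hx => (hF x hx).2.2, h0, hL, Or.inr ⟨h1, ?_⟩⟩
    · have := hasDerivWithinAt_entry (hd x hx) i j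
      rw [S.P_eq hC.1 x]
      exact this
    · rw [smul_mul_smul_comm, hcc, ← mpow_add hK]
      congr 2
      ring

end Crest.Agent.R332
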