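import Mathlib

-- ▼ part R332/ChanFrame
section

/-!
Row 332, module A (N-channel theorem), file 1: real traces, simultaneous diagonalisation frame and
pointwise (in `l`) trace inequalities for the resolvents `(M - l F)⁻¹`.
-/

set_option autoImplicit false

namespace Crest.Agent.R332.Chan

open Matrix
open scoped ComplexOrder BigOperators

variable {n : Type*} [Fintype n] [DecidableEq n]

/-- real part of the trace -/
noncomputable def rtr (A : Matrix n n ℂ) : ℝ := (A.trace).re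

/-- log of the modulus of the determinant -/
noncomputable def ldet (A : Matrix n n ℂ) : ℝ := Real.log ‖A.det‖

omit [DecidableEq n] in
lemma rtr_add (A B : Matrix n n ℂ) : rtr (A + B) = rtr A + rtr B := by
  simp [rtr, Matrix.trace_add]

omit [DecidableEq n] in
lemma rtr_sub (A B : Matrix n n ℂ) : rtr (A - B) = rtr A - rtr B := by
  simp [rtr, Matrix.trace_sub]

omit [DecidableEq n] in
lemma rtr_neg (A : Matrix n n ℂ) : rtr (-A) = - rtr A := by
  simp [rtr, Matrix.trace_neg]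

omit [DecidableEq n] in
lemma rtr_smul (c : ℝ) (A : Matrix n n ℂ) : rtr ((c : ℂ) • A) = c * rtr A := by
  simp [rtr, Matrix.trace_smul]

omit [DecidableEq n] in
lemma rtr_mul_comm (A B : Matrix n n ℂ) : rtr (A * B) = rtr (B * A) := by
  simp [rtr, Matrix.trace_mul_comm A B]


lemma rtr_one : rtr (1 : Matrix n n ℂ) = Fintype.card n := by
  simp [rtr, Matrix.trace_one]

omit [DecidableEq n] in
/-- Hilbert-Schmidt square -/
lemma rtr_conjTranspose_mul_self (A : Matrix n n ℂ) :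
    rtr (Aᴴ * A) = ∑ i, ∑ j, ‖A i j‖ ^ 2 := by
  unfold rtr Matrix.trace
  simp only [Matrix.diag_apply, Matrix.mul_apply, Matrix.conjTranspose_apply, Complex.re_sum]
  rw [Finset.sum_comm]
  refine Finset.sum_congr rfl fun i _ => Finset.sum_congr rfl fun j _ => ?_
  rw [← Complex.normSq_eq_norm_sq, Complex.star_def, mul_comm, Complex.mul_conj]
  simp

omit [DecidableEq n] in
lemma rtr_conjTranspose_mul_self_nonneg (A : Matrix n n ℂ) : 0 ≤ rtr (Aᴴ * A) := by
  rw [rtr_conjTranspose_mul_self]; positivity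

omit [DecidableEq n] in
lemma rtr_comm_sq {R F : Matrix n n ℂ} (hR : R.IsHermitian) (hF : F.IsHermitian) :
    rtr ((R * F - F * R)ᴴ * (R * F - F * R))
      = 2 * rtr (R * R * (F * F)) - 2 * rtr (R * F * (R * F)) := by
  have e : (R * F - F * R)ᴴ * (R * F - F * R)
      = F * R * R * F - F * R * F * R - R * F * R * F + R * F * F * R := by
    rw [Matrix.conjTranspose_sub, Matrix.conjTranspose_mul, Matrix.conjTranspose_mul, hR.eq, hF.eq]
    noncomm_ring
  rw [e, rtr_add, rtr_sub, rtr_sub]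
  have h1 : rtr (F * R * R * F) = rtr (R * R * (F * F)) := by
    rw [rtr_mul_comm (F * R * R) F, rtr_mul_comm (R * R) (F * F)]
    congr 1; noncomm_ring
  have h2 : rtr (F * R * F * R) = rtr (R * F * (R * F)) := by
    rw [rtr_mul_comm (F * R * F) R]; congr 1; noncomm_ring
  have h3 : rtr (R * F * R * F) = rtr (R * F * (R * F)) := by
    congr 1; noncomm_ring
  have h4 : rtr (R * F * F * R) = rtr (R * R * (F * F)) := by
    rw [rtr_mul_comm (R * F * F) R]; congr 1; noncomm_ring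
  rw [h1, h2, h3, h4]; ring

/-- Pointwise form of fact (1). -/
lemma rtr_res_sq {M F R : Matrix n n ℂ} {l : ℝ} (hM : M.IsHermitian) (hF : F.IsHermitian)
    (hR : R.IsHermitian) (h1 : R * (M - (l : ℂ) • F) = 1) (h2 : (M - (l : ℂ) • F) * R = 1) :
    rtr (R * R * (M * M - F * F)) = rtr (R * (M - F) * (R * (M + F)))
      - (1 - l ^ 2) / 2 * rtr ((R * F - F * R)ᴴ * (R * F - F * R)) := by
  have hcomm : R * M - M * R = (l : ℂ) • (R * F - F * R) := by
    have := h1.trans h2.symm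
    rw [Matrix.mul_sub, Matrix.sub_mul, Matrix.mul_smul, Matrix.smul_mul] at this
    rw [smul_sub]
    have h3 : R * M - M * R = (R * M - (l : ℂ) • (R * F)) - (M * R - (l : ℂ) • (F * R))
        + ((l : ℂ) • (R * F) - (l : ℂ) • (F * R)) := by abel
    rw [h3, this]; simp
  have hMs : rtr ((R * M - M * R)ᴴ * (R * M - M * R))
      = l ^ 2 * rtr ((R * F - F * R)ᴴ * (R * F - F * R)) := by
    rw [hcomm, Matrix.conjTranspose_smul, Matrix.smul_mul, Matrix.mul_smul, smul_smul]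
    have : (star (l : ℂ) * (l : ℂ)) = ((l ^ 2 : ℝ) : ℂ) := by
      simp [Complex.conj_ofReal]; ring
    rw [this, rtr_smul]
  have e1 := rtr_comm_sq hR hM
  have e2 := rtr_comm_sq hR hF
  have e3 : rtr (R * (M - F) * (R * (M + F))) = rtr (R * M * (R * M)) - rtr (R * F * (R * F)) := by
    have : R * (M - F) * (R * (M + F)) = R * M * (R * M) + R * M * (R * F) - R * F * (R * M)
        - R * F * (R * F) := by noncomm_ring
    rw [this, rtr_sub, rtr_sub, rtr_add, rtr_mul_comm (R * M) (R * F)]; ring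
  have e4 : rtr (R * R * (M * M - F * F)) = rtr (R * R * (M * M)) - rtr (R * R * (F * F)) := by
    rw [Matrix.mul_sub, rtr_sub]
  rw [e4, e3]
  rw [hMs] at e1
  nlinarith [e1, e2]

/-- Simultaneous diagonalisation. -/
structure Frame (M F : Matrix n n ℂ) where
  T : Matrix n n ℂ
  v : n → ℝ
  hv : ∀ i, |v i| < 1
  hM : Tᴴ * M * T = 1
  hF : Tᴴ * F * T = diagonal fun i => ((v i : ℝ) : ℂ)

/-- spectral theorem in explicit form -/
theorem exists_spectral {A : Matrix n n ℂ} (hA : A.IsHermitian) :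
    ∃ (U : Matrix n n ℂ) (d : n → ℝ), Uᴴ * U = 1 ∧ U * Uᴴ = 1 ∧
      A = U * diagonal (fun i => ((d i : ℝ) : ℂ)) * Uᴴ := by
  refine ⟨(hA.eigenvectorUnitary : Matrix n n ℂ), hA.eigenvalues, ?_, ?_, ?_⟩
  · rw [← Matrix.star_eq_conjTranspose]; exact Unitary.coe_star_mul_self _
  · rw [← Matrix.star_eq_conjTranspose]; exact Unitary.coe_mul_star_self _
  · conv_lhs => rw [hA.spectral_theorem]
    rw [Unitary.conjStarAlgAut_apply, Matrix.star_eq_conjTranspose]
    rfl

theorem posDef_diag_of_conj {d : n → ℝ} {A T : Matrix n n ℂ} (hA : A.PosDef)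
    (hT : IsUnit T) (h : Tᴴ * A * T = diagonal (fun i => ((d i : ℝ) : ℂ))) (i : n) : 0 < d i := by
  have h1 : (Tᴴ * A * T).PosDef := by
    rw [← Matrix.star_eq_conjTranspose]
    exact (Matrix.IsUnit.posDef_star_left_conjugate_iff hT).2 hA
  rw [h, Matrix.posDef_diagonal_iff] at h1
  have := h1 i
  exact_mod_cast this

theorem isUnit_of_conj {A T : Matrix n n ℂ} (h : Tᴴ * A * T = 1) : IsUnit T := by
  rw [Matrix.isUnit_iff_isUnit_det]
  have : (Tᴴ * A).det * T.det = 1 := by rw [← Matrix.det_mul, h, Matrix.det_one]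
  exact IsUnit.of_mul_eq_one_right _ this

theorem exists_frame {M F : Matrix n n ℂ} (hM : M.PosDef) (hF : F.IsHermitian)
    (ha : (M - F).PosDef) (hb : (M + F).PosDef) : Nonempty (Frame M F) := by
  classical
  obtain ⟨U, d, hU1, hU2, hd⟩ := exists_spectral hM.isHermitian
  have hdp : ∀ i, 0 < d i := by
    refine posDef_diag_of_conj hM (T := U) ?_ ?_
    · exact ⟨⟨U, Uᴴ, hU2, hU1⟩, rfl⟩
    · rw [hd]
      calc Uᴴ * (U * diagonal (fun i => ((d i : ℝ) : ℂ)) * Uᴴ) * U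
          = (Uᴴ * U) * diagonal (fun i => ((d i : ℝ) : ℂ)) * (Uᴴ * U) := by noncomm_ring
        _ = _ := by rw [hU1]; simp
  set e : n → ℝ := fun i => (Real.sqrt (d i))⁻¹ with he
  set B : Matrix n n ℂ := U * diagonal (fun i => ((e i : ℝ) : ℂ)) with hBdef
  have hDs : (diagonal (fun i => ((e i : ℝ) : ℂ)))ᴴ = diagonal (fun i => ((e i : ℝ) : ℂ)) := by
    rw [Matrix.diagonal_conjTranspose]; congr 1; ext i; simp
  have hB : Bᴴ * M * B = 1 := by
    rw [hBdef, Matrix.conjTranspose_mul, hDs, hd]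
    calc diagonal (fun i => ((e i : ℝ) : ℂ)) * Uᴴ * (U * diagonal (fun i => ((d i : ℝ) : ℂ)) * Uᴴ)
          * (U * diagonal (fun i => ((e i : ℝ) : ℂ)))
        = diagonal (fun i => ((e i : ℝ) : ℂ)) * ((Uᴴ * U) * diagonal (fun i => ((d i : ℝ) : ℂ))
          * (Uᴴ * U)) * diagonal (fun i => ((e i : ℝ) : ℂ)) := by noncomm_ring
      _ = 1 := by
        rw [hU1, Matrix.one_mul, Matrix.mul_one, Matrix.diagonal_mul_diagonal,
          Matrix.diagonal_mul_diagonal, ← Matrix.diagonal_one]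
        congr 1; ext i
        have h1 : Real.sqrt (d i) ≠ 0 := (Real.sqrt_pos.2 (hdp i)).ne'
        have h2 : d i = Real.sqrt (d i) * Real.sqrt (d i) :=
          (Real.mul_self_sqrt (hdp i).le).symm
        have h3 : e i * d i * e i = 1 := by
          rw [he]; simp only; rw [h2]; field_simp
          simp
        exact_mod_cast h3
  have hV : (Bᴴ * F * B).IsHermitian := Matrix.isHermitian_conjTranspose_mul_mul B hF
  obtain ⟨Q, v, hQ1, hQ2, hQ⟩ := exists_spectral hV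
  have hTM : (B * Q)ᴴ * M * (B * Q) = 1 := by
    rw [Matrix.conjTranspose_mul]
    calc Qᴴ * Bᴴ * M * (B * Q) = Qᴴ * (Bᴴ * M * B) * Q := by noncomm_ring
      _ = 1 := by rw [hB, Matrix.mul_one, hQ1]
  have hTF : (B * Q)ᴴ * F * (B * Q) = diagonal fun i => ((v i : ℝ) : ℂ) := by
    rw [Matrix.conjTranspose_mul]
    calc Qᴴ * Bᴴ * F * (B * Q) = Qᴴ * (Bᴴ * F * B) * Q := by noncomm_ring
      _ = (Qᴴ * Q) * diagonal (fun i => ((v i : ℝ) : ℂ)) * (Qᴴ * Q) := by
          rw [hQ]; noncomm_ring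
      _ = _ := by rw [hQ1]; simp
  have hu : IsUnit (B * Q) := isUnit_of_conj hTM
  refine ⟨⟨B * Q, v, fun i => ?_, hTM, hTF⟩⟩
  have h1 : 0 < 1 - v i := by
    refine posDef_diag_of_conj (d := fun i => 1 - v i) ha hu ?_ i
    rw [Matrix.mul_sub, Matrix.sub_mul, hTM, hTF, ← Matrix.diagonal_one, Matrix.diagonal_sub]
    congr 1; ext j; simp
  have h2 : 0 < 1 + v i := by
    refine posDef_diag_of_conj (d := fun i => 1 + v i) hb hu ?_ i
    rw [Matrix.mul_add, Matrix.add_mul, hTM, hTF, ← Matrix.diagonal_one, Matrix.diagonal_add]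
    congr 1; ext j; simp
  rw [abs_lt]; constructor <;> linarith

/-- real diagonal matrix with complex entries -/
noncomputable abbrev dg (d : n → ℝ) : Matrix n n ℂ := diagonal fun i => ((d i : ℝ) : ℂ)

lemma dg_mul_dg (d e : n → ℝ) : dg d * dg e = dg fun i => d i * e i := by
  simp [dg, Matrix.diagonal_mul_diagonal]

lemma dg_conjTranspose (d : n → ℝ) : (dg d)ᴴ = dg d := by
  simp only [dg, Matrix.diagonal_conjTranspose]; congr 1; ext i; simp

lemma dg_one : dg (fun _ : n => (1 : ℝ)) = 1 := by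
  simp [dg]

namespace Frame

variable {M F : Matrix n n ℂ} (fr : Frame M F)

lemma isUnit_T : IsUnit fr.T := isUnit_of_conj fr.hM

lemma one_sub_pos {l : ℝ} (hl : |l| ≤ 1) (i : n) : 0 < 1 - l * fr.v i := by
  have h1 := fr.hv i
  have h2 : |l * fr.v i| < 1 := by
    rw [abs_mul]
    nlinarith [abs_nonneg l, abs_nonneg (fr.v i)]
  linarith [(abs_lt.1 h2).2]

lemma conj_pencil (l : ℝ) : fr.Tᴴ * (M - (l : ℂ) • F) * fr.T = dg fun i => 1 - l * fr.v i := by
  rw [Matrix.mul_sub, Matrix.sub_mul, Matrix.mul_smul, Matrix.smul_mul, fr.hM, fr.hF,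
    ← Matrix.diagonal_one, ← Matrix.diagonal_smul, Matrix.diagonal_sub]
  congr 1; ext i; simp

/-- from `Tᴴ A T = dg d` with `d ≠ 0` get the inverse of `A` -/
lemma inv_of_conj {A T : Matrix n n ℂ} {d : n → ℝ} (hT : IsUnit T) (hd : ∀ i, d i ≠ 0)
    (h : Tᴴ * A * T = dg d) :
    A * (T * dg (fun i => (d i)⁻¹) * Tᴴ) = 1 ∧ (T * dg (fun i => (d i)⁻¹) * Tᴴ) * A = 1 := by
  have hTd : IsUnit T.det := (Matrix.isUnit_iff_isUnit_det T).1 hT
  have hTd' : IsUnit (Tᴴ).det := by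
    rw [Matrix.det_conjTranspose]; exact hTd.star
  have e1 : dg d * dg (fun i => (d i)⁻¹) = 1 := by
    rw [dg_mul_dg, ← dg_one]; congr 1; ext i
    exact_mod_cast mul_inv_cancel₀ (hd i)
  have hA : A * (T * dg (fun i => (d i)⁻¹) * Tᴴ) = 1 := by
    have h1 : Tᴴ * (A * (T * dg (fun i => (d i)⁻¹) * Tᴴ)) = Tᴴ := by
      calc Tᴴ * (A * (T * dg (fun i => (d i)⁻¹) * Tᴴ))
          = (Tᴴ * A * T) * dg (fun i => (d i)⁻¹) * Tᴴ := by noncomm_ring
        _ = Tᴴ := by rw [h, e1, Matrix.one_mul]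
    have h2 : (Tᴴ)⁻¹ * (Tᴴ * (A * (T * dg (fun i => (d i)⁻¹) * Tᴴ))) = (Tᴴ)⁻¹ * Tᴴ := by rw [h1]
    rwa [← Matrix.mul_assoc (Tᴴ)⁻¹, Matrix.nonsing_inv_mul _ hTd', Matrix.one_mul] at h2
  exact ⟨hA, mul_eq_one_comm.1 hA⟩

lemma res_eq {l : ℝ} (hl : |l| ≤ 1) :
    (M - (l : ℂ) • F)⁻¹ = fr.T * dg (fun i => (1 - l * fr.v i)⁻¹) * fr.Tᴴ :=
  Matrix.inv_eq_right_inv
    (inv_of_conj fr.isUnit_T (fun i => (fr.one_sub_pos hl i).ne') (fr.conj_pencil l)).1

include fr in
lemma res_mul {l : ℝ} (hl : |l| ≤ 1) :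
    (M - (l : ℂ) • F) * (M - (l : ℂ) • F)⁻¹ = 1 ∧ (M - (l : ℂ) • F)⁻¹ * (M - (l : ℂ) • F) = 1 := by
  rw [fr.res_eq hl]
  exact inv_of_conj fr.isUnit_T (fun i => (fr.one_sub_pos hl i).ne') (fr.conj_pencil l)

lemma M_inv : M⁻¹ = fr.T * fr.Tᴴ := by
  have := fr.res_eq (l := 0) (by simp)
  simpa [dg_one] using this

lemma a_inv : (M - F)⁻¹ = fr.T * dg (fun i => (1 - fr.v i)⁻¹) * fr.Tᴴ := by
  simpa using fr.res_eq (l := 1) (by simp)

lemma b_inv : (M + F)⁻¹ = fr.T * dg (fun i => (1 + fr.v i)⁻¹) * fr.Tᴴ := by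
  simpa using fr.res_eq (l := -1) (by simp)

lemma det_norm {A : Matrix n n ℂ} {d : n → ℝ} (hd : ∀ i, 0 < d i)
    (h : fr.Tᴴ * A * fr.T = dg d) :
    ldet A = (∑ i, Real.log (d i)) - 2 * ldet fr.T := by
  have h1 : ‖(fr.Tᴴ * A * fr.T).det‖ = ‖(dg d).det‖ := by rw [h]
  rw [Matrix.det_mul, Matrix.det_mul, norm_mul, norm_mul, Matrix.det_conjTranspose, norm_star,
    Matrix.det_diagonal, norm_prod] at h1
  have hT : ‖fr.T.det‖ ≠ 0 := by
    have := (Matrix.isUnit_iff_isUnit_det fr.T).1 fr.isUnit_T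
    exact norm_ne_zero_iff.2 this.ne_zero
  have h2 : (∏ i, ‖((d i : ℝ) : ℂ)‖) = ∏ i, d i := by
    refine Finset.prod_congr rfl fun i _ => ?_
    rw [Complex.norm_real, Real.norm_of_nonneg (hd i).le]
  rw [h2] at h1
  have h3 : (∏ i, d i) ≠ 0 := Finset.prod_ne_zero_iff.2 fun i _ => (hd i).ne'
  have hA : ‖A.det‖ ≠ 0 := by
    intro h0; rw [h0] at h1; simp at h1; exact h3 h1.symm
  have h4 := congrArg Real.log h1
  rw [Real.log_mul (mul_ne_zero hT hA) hT, Real.log_mul hT hA, Real.log_prod (fun i _ => (hd i).ne')] at h4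
  unfold ldet; linarith

lemma ldet_a : ldet (M - F) = (∑ i, Real.log (1 - fr.v i)) - 2 * ldet fr.T :=
  fr.det_norm (fun i => by linarith [(abs_lt.1 (fr.hv i)).2]) (by simpa using fr.conj_pencil 1)

lemma ldet_b : ldet (M + F) = (∑ i, Real.log (1 + fr.v i)) - 2 * ldet fr.T :=
  fr.det_norm (fun i => by linarith [(abs_lt.1 (fr.hv i)).1]) (by simpa using fr.conj_pencil (-1))

end Frame

end Crest.Agent.R332.Chan
end

-- ▼ part R332/ChanLam
section

/-!
Row 332, module A (N-channel theorem), file 2: the averaged functional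
`lamTr M F X = (1/2) ∫_{-1}^1 Re tr ((M - l F)⁻² X) dl` and its three basic properties.
-/

set_option autoImplicit false

namespace Crest.Agent.R332.Chan

open Matrix MeasureTheory intervalIntegral
open scoped ComplexOrder BigOperators

variable {n : Type*} [Fintype n] [DecidableEq n]

/-- resolvent -/
noncomputable def Res (M F : Matrix n n ℂ) (l : ℝ) : Matrix n n ℂ := (M - (l : ℂ) • F)⁻¹

/-- averaged functional -/
noncomputable def lamTr (M F X : Matrix n n ℂ) : ℝ :=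
  (1 / 2) * ∫ l in (-1 : ℝ)..1, rtr (Res M F l * Res M F l * X)

/-! ### scalar integrals -/

lemma one_sub_mul_pos {l v : ℝ} (hl : l ∈ Set.Icc (-1 : ℝ) 1) (hv : |v| < 1) : 0 < 1 - l * v := by
  have h1 : |l| ≤ 1 := abs_le.2 hl
  have h2 : |l * v| < 1 := by
    rw [abs_mul]
    nlinarith [abs_nonneg l, abs_nonneg v]
  linarith [(abs_lt.1 h2).2]

lemma continuousOn_inv_one_sub {v : ℝ} (hv : |v| < 1) :
    ContinuousOn (fun l : ℝ => (1 - l * v)⁻¹) (Set.Icc (-1) 1) := by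
  refine ContinuousOn.inv₀ (by fun_prop) fun l hl => (one_sub_mul_pos hl hv).ne'

lemma integral_inv_sq {v : ℝ} (hv : |v| < 1) :
    ∫ l in (-1 : ℝ)..1, ((1 - l * v)⁻¹) ^ 2 = 2 / (1 - v ^ 2) := by
  have hv1 : 0 < 1 - v := by linarith [(abs_lt.1 hv).2]
  have hv2 : 0 < 1 + v := by linarith [(abs_lt.1 hv).1]
  have hv3 : 1 - v ^ 2 ≠ 0 := by
    have : 0 < (1 - v) * (1 + v) := mul_pos hv1 hv2
    nlinarith
  have key : ∫ l in (-1 : ℝ)..1, (1 - v ^ 2)⁻¹ * ((1 - v ^ 2) * ((1 - l * v)⁻¹) ^ 2)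
      = (1 - v ^ 2)⁻¹ * (1 / (1 - 1 * v) * (1 - v) - 1 / (1 - (-1) * v) * (-1 - v)) := by
    rw [intervalIntegral.integral_const_mul]
    congr 1
    have hder : ∀ l ∈ Set.uIcc (-1 : ℝ) 1,
        HasDerivAt (fun l : ℝ => 1 / (1 - l * v) * (l - v)) ((1 - v ^ 2) * ((1 - l * v)⁻¹) ^ 2) l := by
      intro l hl
      rw [Set.uIcc_of_le (by norm_num)] at hl
      have hp := one_sub_mul_pos hl hv
      have h1 : HasDerivAt (fun l : ℝ => 1 - l * v) (-v) l := by
        simpa using ((hasDerivAt_id l).mul_const v).const_sub 1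
      have h2 := (h1.inv hp.ne').mul ((hasDerivAt_id l).sub_const v)
      simp only [id] at h2
      have h3 : (fun l : ℝ => 1 / (1 - l * v) * (l - v)) = (fun l : ℝ => (1 - l * v)⁻¹) * fun l => l - v := by
        ext x; simp [one_div]
      rw [h3]
      refine h2.congr_deriv ?_
      simp only [Pi.inv_apply]
      field_simp
      ring
    have hint : IntervalIntegrable (fun l : ℝ => (1 - v ^ 2) * ((1 - l * v)⁻¹) ^ 2) volume (-1) 1 := by
      apply ContinuousOn.intervalIntegrable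
      rw [Set.uIcc_of_le (by norm_num)]
      exact continuousOn_const.mul ((continuousOn_inv_one_sub hv).pow 2)
    exact intervalIntegral.integral_eq_sub_of_hasDerivAt hder hint
  have h0 : ∀ l : ℝ, (1 - v ^ 2)⁻¹ * ((1 - v ^ 2) * ((1 - l * v)⁻¹) ^ 2) = ((1 - l * v)⁻¹) ^ 2 := by
    intro l; rw [← mul_assoc, inv_mul_cancel₀ hv3, one_mul]
  simp only [h0] at key
  rw [key]
  have : (1 : ℝ) / (1 - 1 * v) * (1 - v) = 1 := by rw [one_mul]; field_simp
  rw [this]
  have h4 : (1 : ℝ) / (1 - (-1) * v) * (-1 - v) = -1 := by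
    have : (1 : ℝ) - (-1) * v = 1 + v := by ring
    rw [this]; field_simp; ring
  rw [h4]; field_simp; norm_num

/-! ### formulas in a frame -/

namespace Frame

variable {M F : Matrix n n ℂ} (fr : Frame M F)

/-- the diagonal `(1 - l v)⁻¹` -/
noncomputable def D (l : ℝ) : Matrix n n ℂ := dg fun i => (1 - l * fr.v i)⁻¹

lemma Res_eq {l : ℝ} (hl : l ∈ Set.Icc (-1 : ℝ) 1) : Res M F l = fr.T * fr.D l * fr.Tᴴ :=
  fr.res_eq (abs_le.2 hl)

lemma D_isHermitian (l : ℝ) : (fr.D l).IsHermitian := dg_conjTranspose _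

/-- Gram matrix -/
noncomputable def g : Matrix n n ℂ := fr.Tᴴ * fr.T

omit [DecidableEq n] in
lemma g_isHermitian' (T : Matrix n n ℂ) : (Tᴴ * T).IsHermitian := by
  unfold Matrix.IsHermitian; rw [Matrix.conjTranspose_mul, Matrix.conjTranspose_conjTranspose]

lemma g_isHermitian : fr.g.IsHermitian := g_isHermitian' fr.T

lemma g_posDef : fr.g.PosDef := by
  unfold g
  have h := (Matrix.IsUnit.posDef_star_left_conjugate_iff fr.isUnit_T (x := (1 : Matrix n n ℂ))).2
    Matrix.PosDef.one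
  rwa [Matrix.mul_one, Matrix.star_eq_conjTranspose] at h

include fr in
lemma Res_isHermitian {l : ℝ} (hl : l ∈ Set.Icc (-1 : ℝ) 1) : (Res M F l).IsHermitian := by
  rw [fr.Res_eq hl]; unfold Matrix.IsHermitian
  rw [Matrix.conjTranspose_mul, Matrix.conjTranspose_mul, Matrix.conjTranspose_conjTranspose,
    (fr.D_isHermitian l).eq, Matrix.mul_assoc]

lemma rtr_res_sq_mul {l : ℝ} (hl : l ∈ Set.Icc (-1 : ℝ) 1) (X : Matrix n n ℂ) :
    rtr (Res M F l * Res M F l * X) = rtr (fr.g * fr.D l * (fr.Tᴴ * X * fr.T) * fr.D l) := by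
  rw [fr.Res_eq hl]
  have e : fr.T * fr.D l * fr.Tᴴ * (fr.T * fr.D l * fr.Tᴴ) * X
      = (fr.T * fr.D l) * (fr.g * fr.D l * (fr.Tᴴ * X)) := by
    unfold g; noncomm_ring
  rw [e, rtr_mul_comm]
  congr 1
  noncomm_ring

lemma continuousOn_D (i j : n) : ContinuousOn (fun l => fr.D l i j) (Set.Icc (-1) 1) := by
  unfold D dg
  by_cases h : i = j
  · subst h
    simp only [Matrix.diagonal_apply_eq]
    exact Complex.continuous_ofReal.comp_continuousOn (continuousOn_inv_one_sub (fr.hv i))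
  · simp only [Matrix.diagonal_apply_ne _ h]
    exact continuousOn_const

lemma continuousOn_D' : ContinuousOn (fun l => fr.D l) (Set.Icc (-1) 1) :=
  continuousOn_pi.2 fun i => continuousOn_pi.2 fun j => fr.continuousOn_D i j

include fr in
lemma continuousOn_Res : ContinuousOn (fun l => Res M F l) (Set.Icc (-1) 1) := by
  have h : ContinuousOn (fun l => fr.T * fr.D l * fr.Tᴴ) (Set.Icc (-1) 1) :=
    (continuousOn_const.mul fr.continuousOn_D').mul continuousOn_const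
  exact h.congr fun l hl => fr.Res_eq hl

end Frame

omit [DecidableEq n] in
lemma continuous_rtr : Continuous (fun A : Matrix n n ℂ => rtr A) := by
  unfold rtr
  exact Complex.continuous_re.comp (Continuous.matrix_trace continuous_id)

lemma Frame.continuousOn_integrand {M F : Matrix n n ℂ} (fr : Frame M F) (X : Matrix n n ℂ) :
    ContinuousOn (fun l => rtr (Res M F l * Res M F l * X)) (Set.Icc (-1) 1) :=
  continuous_rtr.comp_continuousOn
    ((fr.continuousOn_Res.mul fr.continuousOn_Res).mul continuousOn_const)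

lemma Frame.intervalIntegrable {M F : Matrix n n ℂ} (fr : Frame M F) (X : Matrix n n ℂ) :
    IntervalIntegrable (fun l => rtr (Res M F l * Res M F l * X)) volume (-1) 1 := by
  apply ContinuousOn.intervalIntegrable
  rw [Set.uIcc_of_le (by norm_num)]
  exact fr.continuousOn_integrand X

/-! ### linearity -/

lemma lamTr_add {M F : Matrix n n ℂ} (fr : Frame M F) (X Y : Matrix n n ℂ) :
    lamTr M F (X + Y) = lamTr M F X + lamTr M F Y := by
  unfold lamTr
  rw [← mul_add, ← intervalIntegral.integral_add (fr.intervalIntegrable X) (fr.intervalIntegrable Y)]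
  simp only [Matrix.mul_add, rtr_add]

lemma lamTr_smul (M F : Matrix n n ℂ) (c : ℝ) (X : Matrix n n ℂ) :
    lamTr M F ((c : ℂ) • X) = c * lamTr M F X := by
  unfold lamTr
  simp only [Matrix.mul_smul, rtr_smul, intervalIntegral.integral_const_mul]
  ring

lemma lamTr_sub {M F : Matrix n n ℂ} (fr : Frame M F) (X Y : Matrix n n ℂ) :
    lamTr M F (X - Y) = lamTr M F X - lamTr M F Y := by
  unfold lamTr
  rw [← mul_sub, ← intervalIntegral.integral_sub (fr.intervalIntegrable X) (fr.intervalIntegrable Y)]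
  simp only [Matrix.mul_sub, rtr_sub]

/-! ### Fact (1) -/

/-- deficit (1) -/
noncomputable def def1 (M F : Matrix n n ℂ) : ℝ :=
  (1 / 4) * ∫ l in (-1 : ℝ)..1, (1 - l ^ 2) *
    rtr ((Res M F l * F - F * Res M F l)ᴴ * (Res M F l * F - F * Res M F l))

lemma def1_nonneg (M F : Matrix n n ℂ) : 0 ≤ def1 M F := by
  unfold def1
  refine mul_nonneg (by norm_num) (intervalIntegral.integral_nonneg (by norm_num) fun l hl => ?_)
  refine mul_nonneg ?_ (rtr_conjTranspose_mul_self_nonneg _)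
  nlinarith [hl.1, hl.2]

lemma rtr_dg (d : n → ℝ) : rtr (dg d) = ∑ i, d i := by
  simp [rtr, dg, Matrix.trace_diagonal]

theorem fact1 {M F : Matrix n n ℂ} (hM : M.IsHermitian) (hF : F.IsHermitian) (fr : Frame M F) :
    lamTr M F (M * M - F * F) = Fintype.card n - def1 M F := by
  have hpt : ∀ l ∈ Set.Icc (-1 : ℝ) 1, rtr (Res M F l * Res M F l * (M * M - F * F))
      = (∑ i, (1 - fr.v i ^ 2) * ((1 - l * fr.v i)⁻¹) ^ 2)
        - (1 / 2) * ((1 - l ^ 2) *
          rtr ((Res M F l * F - F * Res M F l)ᴴ * (Res M F l * F - F * Res M F l))) := by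
    intro l hl
    have hm := fr.res_mul (abs_le.2 hl)
    rw [rtr_res_sq (l := l) hM hF (fr.Res_isHermitian hl) hm.2 hm.1]
    have e1 : rtr (Res M F l * (M - F) * (Res M F l * (M + F)))
        = ∑ i, (1 - fr.v i ^ 2) * ((1 - l * fr.v i)⁻¹) ^ 2 := by
      rw [fr.Res_eq hl]
      have e : fr.T * fr.D l * fr.Tᴴ * (M - F) * (fr.T * fr.D l * fr.Tᴴ * (M + F))
          = fr.T * (fr.D l * (fr.Tᴴ * (M - F) * fr.T) * fr.D l * (fr.Tᴴ * (M + F))) := by
        noncomm_ring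
      have ha : fr.Tᴴ * (M - F) * fr.T = dg fun i => 1 - fr.v i := by
        simpa using fr.conj_pencil 1
      have hb : fr.Tᴴ * (M + F) * fr.T = dg fun i => 1 + fr.v i := by
        simpa using fr.conj_pencil (-1)
      rw [e, rtr_mul_comm, Matrix.mul_assoc (fr.D l * _ * fr.D l), ha, hb, Frame.D, dg_mul_dg,
        dg_mul_dg, dg_mul_dg, rtr_dg]
      refine Finset.sum_congr rfl fun i _ => ?_
      ring
    rw [e1]; ring
  have hI : ContinuousOn (fun l => (1 - l ^ 2) *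
          rtr ((Res M F l * F - F * Res M F l)ᴴ * (Res M F l * F - F * Res M F l)))
          (Set.Icc (-1 : ℝ) 1) := by
    refine ContinuousOn.mul (by fun_prop) (continuous_rtr.comp_continuousOn ?_)
    have h1 : ContinuousOn (fun l => Res M F l * F - F * Res M F l) (Set.Icc (-1 : ℝ) 1) :=
      (fr.continuousOn_Res.mul continuousOn_const).sub (continuousOn_const.mul fr.continuousOn_Res)
    have h2 : ContinuousOn (fun l => (Res M F l * F - F * Res M F l)ᴴ) (Set.Icc (-1 : ℝ) 1) :=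
      (Continuous.matrix_conjTranspose continuous_id).comp_continuousOn h1
    exact h2.mul h1
  unfold lamTr
  rw [intervalIntegral.integral_congr (g := fun l =>
      (∑ i, (1 - fr.v i ^ 2) * ((1 - l * fr.v i)⁻¹) ^ 2)
        - (1 / 2) * ((1 - l ^ 2) *
          rtr ((Res M F l * F - F * Res M F l)ᴴ * (Res M F l * F - F * Res M F l))))
      (fun l hl => hpt l (by rwa [Set.uIcc_of_le (by norm_num)] at hl))]
  rw [intervalIntegral.integral_sub, intervalIntegral.integral_const_mul,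
    intervalIntegral.integral_finsetSum]
  · have : ∀ i, ∫ l in (-1 : ℝ)..1, (1 - fr.v i ^ 2) * ((1 - l * fr.v i)⁻¹) ^ 2 = 2 := by
      intro i
      rw [intervalIntegral.integral_const_mul, integral_inv_sq (fr.hv i)]
      have hv1 : 0 < 1 - fr.v i := by linarith [(abs_lt.1 (fr.hv i)).2]
      have hv2 : 0 < 1 + fr.v i := by linarith [(abs_lt.1 (fr.hv i)).1]
      have : 1 - fr.v i ^ 2 ≠ 0 := by
        have : 0 < (1 - fr.v i) * (1 + fr.v i) := mul_pos hv1 hv2
        nlinarith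
      field_simp
    simp only [this]
    unfold def1
    simp only [Finset.sum_const, Finset.card_univ, nsmul_eq_mul]
    ring
  · intro i _
    apply ContinuousOn.intervalIntegrable
    rw [Set.uIcc_of_le (by norm_num)]
    exact continuousOn_const.mul ((continuousOn_inv_one_sub (fr.hv i)).pow 2)
  · apply ContinuousOn.intervalIntegrable
    rw [Set.uIcc_of_le (by norm_num)]
    exact continuousOn_finsetSum _ fun i _ =>
      continuousOn_const.mul ((continuousOn_inv_one_sub (fr.hv i)).pow 2)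
  · apply ContinuousOn.intervalIntegrable
    rw [Set.uIcc_of_le (by norm_num)]
    exact continuousOn_const.mul hI

/-! ### Fact (2) -/

theorem fact2 {M F : Matrix n n ℂ} (fr : Frame M F) :
    lamTr M F 1 ≤ (1 / 2) * rtr (M⁻¹ * ((M - F)⁻¹ + (M + F)⁻¹)) := by
  have hpt : ∀ l ∈ Set.Icc (-1 : ℝ) 1, rtr (Res M F l * Res M F l * 1)
      ≤ ∑ i, ((fr.g * fr.g) i i).re * ((1 - l * fr.v i)⁻¹) ^ 2 := by
    intro l hl
    rw [fr.rtr_res_sq_mul hl, Matrix.mul_one]
    have h := rtr_comm_sq fr.g_isHermitian (fr.D_isHermitian l)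
    have h0 := rtr_conjTranspose_mul_self_nonneg (fr.g * fr.D l - fr.D l * fr.g)
    have e1 : rtr (fr.g * fr.D l * (fr.Tᴴ * fr.T) * fr.D l) = rtr (fr.g * fr.D l * (fr.g * fr.D l)) := by
      congr 1; unfold Frame.g; noncomm_ring
    have e2 : rtr (fr.g * fr.g * (fr.D l * fr.D l))
        = ∑ i, ((fr.g * fr.g) i i).re * ((1 - l * fr.v i)⁻¹) ^ 2 := by
      rw [Frame.D, dg_mul_dg]
      unfold rtr Matrix.trace
      rw [Complex.re_sum]
      refine Finset.sum_congr rfl fun i _ => ?_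
      rw [Matrix.diag_apply, dg, Matrix.mul_diagonal, Complex.re_mul_ofReal]
      ring
    rw [e1, ← e2]; linarith
  have hcont : ContinuousOn (fun l : ℝ => ∑ i, ((fr.g * fr.g) i i).re * ((1 - l * fr.v i)⁻¹) ^ 2)
      (Set.Icc (-1 : ℝ) 1) := continuousOn_finsetSum _ fun i _ =>
      continuousOn_const.mul ((continuousOn_inv_one_sub (fr.hv i)).pow 2)
  have h1 : ∫ l in (-1 : ℝ)..1, rtr (Res M F l * Res M F l * 1)
      ≤ ∫ l in (-1 : ℝ)..1, ∑ i, ((fr.g * fr.g) i i).re * ((1 - l * fr.v i)⁻¹) ^ 2 := by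
    refine intervalIntegral.integral_mono_on (by norm_num) (fr.intervalIntegrable 1) ?_ hpt
    apply ContinuousOn.intervalIntegrable
    rwa [Set.uIcc_of_le (by norm_num)]
  have h2 : ∫ l in (-1 : ℝ)..1, ∑ i, ((fr.g * fr.g) i i).re * ((1 - l * fr.v i)⁻¹) ^ 2
      = ∑ i, ((fr.g * fr.g) i i).re * (2 / (1 - fr.v i ^ 2)) := by
    rw [intervalIntegral.integral_finsetSum]
    · refine Finset.sum_congr rfl fun i _ => ?_
      rw [intervalIntegral.integral_const_mul, integral_inv_sq (fr.hv i)]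
    · intro i _
      apply ContinuousOn.intervalIntegrable
      rw [Set.uIcc_of_le (by norm_num)]
      exact continuousOn_const.mul ((continuousOn_inv_one_sub (fr.hv i)).pow 2)
  have h3 : rtr (M⁻¹ * ((M - F)⁻¹ + (M + F)⁻¹))
      = ∑ i, ((fr.g * fr.g) i i).re * (2 / (1 - fr.v i ^ 2)) := by
    rw [fr.M_inv, fr.a_inv, fr.b_inv]
    have e : fr.T * fr.Tᴴ * (fr.T * dg (fun i => (1 - fr.v i)⁻¹) * fr.Tᴴ
        + fr.T * dg (fun i => (1 + fr.v i)⁻¹) * fr.Tᴴ)
        = fr.T * (fr.g * (dg (fun i => (1 - fr.v i)⁻¹) + dg (fun i => (1 + fr.v i)⁻¹)) * fr.Tᴴ) := by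
      unfold Frame.g; noncomm_ring
    have e' : dg (fun i => (1 - fr.v i)⁻¹) + dg (fun i => (1 + fr.v i)⁻¹)
        = dg fun i => 2 / (1 - fr.v i ^ 2) := by
      unfold dg
      rw [Matrix.diagonal_add]
      congr 1; ext i
      have hv1 : 0 < 1 - fr.v i := by linarith [(abs_lt.1 (fr.hv i)).2]
      have hv2 : 0 < 1 + fr.v i := by linarith [(abs_lt.1 (fr.hv i)).1]
      have h12 : 1 - fr.v i ^ 2 = (1 - fr.v i) * (1 + fr.v i) := by ring
      have : (1 - fr.v i)⁻¹ + (1 + fr.v i)⁻¹ = 2 / (1 - fr.v i ^ 2) := by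
        rw [h12]; field_simp; ring
      show (((1 - fr.v i)⁻¹ : ℝ) : ℂ) + (((1 + fr.v i)⁻¹ : ℝ) : ℂ) = ((2 / (1 - fr.v i ^ 2) : ℝ) : ℂ)
      rw [← this]; push_cast; rfl
    rw [e, e', rtr_mul_comm]
    have e3 : fr.g * (dg fun i => 2 / (1 - fr.v i ^ 2)) * fr.Tᴴ * fr.T
        = fr.g * ((dg fun i => 2 / (1 - fr.v i ^ 2)) * fr.g) := by
      unfold Frame.g; noncomm_ring
    rw [e3, rtr_mul_comm, Matrix.mul_assoc, rtr_mul_comm]
    unfold rtr Matrix.trace
    rw [Complex.re_sum]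
    refine Finset.sum_congr rfl fun i _ => ?_
    rw [Matrix.diag_apply, dg, Matrix.mul_diagonal, Complex.re_mul_ofReal]
  unfold lamTr
  rw [h3, ← h2]
  nlinarith [h1]

/-! ### Fact (3) -/

omit [DecidableEq n] in
lemma sum_sq_row (C : Matrix n n ℂ) (k : n) : ∑ l, ‖C k l‖ ^ 2 = ((C * Cᴴ) k k).re := by
  rw [Matrix.mul_apply, Complex.re_sum]
  refine Finset.sum_congr rfl fun l _ => ?_
  rw [Matrix.conjTranspose_apply, Complex.star_def, Complex.mul_conj, Complex.normSq_eq_norm_sq,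
    Complex.ofReal_re]

omit [DecidableEq n] in
lemma sum_sq_col (C : Matrix n n ℂ) (l : n) : ∑ k, ‖C k l‖ ^ 2 = ((Cᴴ * C) l l).re := by
  rw [Matrix.mul_apply, Complex.re_sum]
  refine Finset.sum_congr rfl fun k _ => ?_
  rw [Matrix.conjTranspose_apply, Complex.star_def, mul_comm, Complex.mul_conj,
    Complex.normSq_eq_norm_sq, Complex.ofReal_re]

lemma rtr_dg_mul (d e : n → ℝ) (C : Matrix n n ℂ) :
    rtr (dg d * C * dg e * Cᴴ) = ∑ k, ∑ l, d k * e l * ‖C k l‖ ^ 2 := by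
  unfold rtr Matrix.trace
  rw [Complex.re_sum]
  refine Finset.sum_congr rfl fun k _ => ?_
  rw [Matrix.diag_apply, Matrix.mul_apply, Complex.re_sum]
  refine Finset.sum_congr rfl fun l _ => ?_
  rw [dg, dg, Matrix.mul_diagonal, Matrix.diagonal_mul, Matrix.conjTranspose_apply,
    Complex.star_def]
  have : ((d k : ℝ) : ℂ) * C k l * ((e l : ℝ) : ℂ) * (starRingEnd ℂ) (C k l)
      = ((d k * e l : ℝ) : ℂ) * (C k l * (starRingEnd ℂ) (C k l)) := by push_cast; ring
  rw [this, Complex.mul_conj, Complex.normSq_eq_norm_sq]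
  rw [← Complex.ofReal_mul, Complex.ofReal_re]

/-- Klein type inequality, pointwise: `n = U dg ν Uᴴ`, `x = V dg ξ Vᴴ`, `S` real diagonal. -/
lemma klein_pt {U V S : Matrix n n ℂ} {ν ξ : n → ℝ} (hU : U * Uᴴ = 1) (hV : V * Vᴴ = 1)
    (hν : ∀ i, 0 < ν i) (hξ : ∀ i, 0 < ξ i) (hS : S.IsHermitian) :
    (∑ k, (1 + Real.log (ν k)) * ((Uᴴ * (S * S) * U) k k).re)
      + (∑ l, Real.log (ξ l) * ((Vᴴ * (S * S) * V) l l).re)
      ≤ rtr ((U * dg ν * Uᴴ) * S * (V * dg ξ * Vᴴ) * S) := by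
  set C : Matrix n n ℂ := Uᴴ * S * V with hC
  have hCt : Cᴴ = Vᴴ * S * U := by
    rw [hC, Matrix.conjTranspose_mul, Matrix.conjTranspose_mul, hS.eq,
      Matrix.conjTranspose_conjTranspose, Matrix.mul_assoc]
  have e1 : rtr ((U * dg ν * Uᴴ) * S * (V * dg ξ * Vᴴ) * S) = rtr (dg ν * C * dg ξ * Cᴴ) := by
    have : (U * dg ν * Uᴴ) * S * (V * dg ξ * Vᴴ) * S
        = U * (dg ν * (Uᴴ * S * V) * dg ξ * (Vᴴ * S)) := by noncomm_ring
    rw [this, rtr_mul_comm, hCt]
    congr 1; rw [hC]; noncomm_ring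
  have e2 : ∀ k, ((Uᴴ * (S * S) * U) k k).re = ∑ l, ‖C k l‖ ^ 2 := by
    intro k; rw [sum_sq_row, hCt, hC]
    have : Uᴴ * S * V * (Vᴴ * S * U) = Uᴴ * S * (V * Vᴴ) * S * U := by noncomm_ring
    rw [this, hV]
    congr 3; noncomm_ring
  have e3 : ∀ l, ((Vᴴ * (S * S) * V) l l).re = ∑ k, ‖C k l‖ ^ 2 := by
    intro l; rw [sum_sq_col, hCt, hC]
    have : Vᴴ * S * U * (Uᴴ * S * V) = Vᴴ * S * (U * Uᴴ) * S * V := by noncomm_ring
    rw [this, hU]
    congr 3; noncomm_ring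
  rw [e1, rtr_dg_mul]
  simp only [e2, e3, Finset.mul_sum]
  rw [Finset.sum_comm (s := Finset.univ) (t := Finset.univ)
    (f := fun l k => Real.log (ξ l) * ‖C k l‖ ^ 2), ← Finset.sum_add_distrib]
  refine Finset.sum_le_sum fun k _ => ?_
  rw [← Finset.sum_add_distrib]
  refine Finset.sum_le_sum fun l _ => ?_
  have hk : Real.log (ν k * ξ l) ≤ ν k * ξ l - 1 := Real.log_le_sub_one_of_pos (mul_pos (hν k) (hξ l))
  rw [Real.log_mul (hν k).ne' (hξ l).ne'] at hk
  nlinarith [sq_nonneg ‖C k l‖, hk]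

lemma ldet_spec {U A : Matrix n n ℂ} {ν : n → ℝ} (hU : Uᴴ * U = 1) (hν : ∀ i, 0 < ν i)
    (hA : A = U * dg ν * Uᴴ) : ldet A = ∑ i, Real.log (ν i) := by
  unfold ldet
  rw [hA, Matrix.det_mul, Matrix.det_mul]
  have h1 : ‖Uᴴ.det‖ * ‖U.det‖ = 1 := by rw [← norm_mul, ← Matrix.det_mul, hU]; simp
  have h2 : ‖U.det * (dg ν).det * Uᴴ.det‖ = ‖(dg ν).det‖ := by
    rw [norm_mul, norm_mul]
    calc ‖U.det‖ * ‖(dg ν).det‖ * ‖Uᴴ.det‖ = (‖Uᴴ.det‖ * ‖U.det‖) * ‖(dg ν).det‖ := by ring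
      _ = _ := by rw [h1, one_mul]
  rw [h2, dg, Matrix.det_diagonal, norm_prod, Real.log_prod]
  · refine Finset.sum_congr rfl fun i _ => ?_
    rw [Complex.norm_real, Real.norm_of_nonneg (hν i).le]
  · intro i _
    rw [Complex.norm_real]; exact norm_ne_zero_iff.2 (hν i).ne'

lemma posDef_spectral {A : Matrix n n ℂ} (hA : A.PosDef) :
    ∃ (U : Matrix n n ℂ) (d : n → ℝ), Uᴴ * U = 1 ∧ U * Uᴴ = 1 ∧ (∀ i, 0 < d i) ∧
      A = U * dg d * Uᴴ := by
  obtain ⟨U, d, h1, h2, h3⟩ := exists_spectral hA.isHermitian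
  refine ⟨U, d, h1, h2, ?_, h3⟩
  refine posDef_diag_of_conj hA (T := U) ⟨⟨U, Uᴴ, h2, h1⟩, rfl⟩ ?_
  rw [h3]
  calc Uᴴ * (U * diagonal (fun i => ((d i : ℝ) : ℂ)) * Uᴴ) * U
      = (Uᴴ * U) * diagonal (fun i => ((d i : ℝ) : ℂ)) * (Uᴴ * U) := by noncomm_ring
    _ = _ := by rw [h1]; simp


lemma diag_conj_re (U : Matrix n n ℂ) (d : n → ℝ) (k : n) :
    ((Uᴴ * dg d * U) k k).re = ∑ i, d i * ‖U i k‖ ^ 2 := by
  rw [Matrix.mul_apply, Complex.re_sum]
  refine Finset.sum_congr rfl fun i _ => ?_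
  rw [dg, Matrix.mul_diagonal, Matrix.conjTranspose_apply, Complex.star_def]
  have : (starRingEnd ℂ) (U i k) * ((d i : ℝ) : ℂ) * U i k
      = ((d i : ℝ) : ℂ) * (U i k * (starRingEnd ℂ) (U i k)) := by ring
  rw [this, Complex.mul_conj, Complex.normSq_eq_norm_sq, ← Complex.ofReal_mul, Complex.ofReal_re]

theorem fact3 {M F X : Matrix n n ℂ} (fr : Frame M F) (hX : X.PosDef) :
    (Fintype.card n : ℝ) + ldet X - ldet (M - F) - ldet (M + F) ≤ lamTr M F X := by
  have hv1 : ∀ i, 0 < 1 - fr.v i := fun i => by linarith [(abs_lt.1 (fr.hv i)).2]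
  have hv2 : ∀ i, 0 < 1 + fr.v i := fun i => by linarith [(abs_lt.1 (fr.hv i)).1]
  have hw : ∀ i, 0 < 1 - fr.v i ^ 2 := fun i => by
    have := mul_pos (hv1 i) (hv2 i); nlinarith
  set q : n → ℝ := fun i => Real.sqrt (1 - fr.v i ^ 2) with hq
  have hqp : ∀ i, 0 < q i := fun i => Real.sqrt_pos.2 (hw i)
  have hqq : ∀ i, q i * q i = 1 - fr.v i ^ 2 := fun i => Real.mul_self_sqrt (hw i).le
  obtain ⟨U, ν, hU1, hU2, hν, hU⟩ := posDef_spectral fr.g_posDef
  set E : Matrix n n ℂ := dg fun i => (q i)⁻¹ with hE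
  set Y : Matrix n n ℂ := fr.Tᴴ * X * fr.T with hY
  have hYp : Y.PosDef := by
    rw [hY, ← Matrix.star_eq_conjTranspose]
    exact (Matrix.IsUnit.posDef_star_left_conjugate_iff fr.isUnit_T).2 hX
  have hEu : IsUnit E := by
    rw [Matrix.isUnit_iff_isUnit_det, hE, dg, Matrix.det_diagonal, isUnit_iff_ne_zero]
    exact Finset.prod_ne_zero_iff.2 fun i _ => by exact_mod_cast (inv_pos.2 (hqp i)).ne'
  have hEh : Eᴴ = E := dg_conjTranspose _
  have hxp : (E * Y * E).PosDef := by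
    have := (Matrix.IsUnit.posDef_star_left_conjugate_iff hEu (x := Y)).2 hYp
    rwa [Matrix.star_eq_conjTranspose, hEh] at this
  obtain ⟨V, ξ, hV1, hV2, hξ, hV⟩ := posDef_spectral hxp
  set S : ℝ → Matrix n n ℂ := fun l => dg fun i => q i * (1 - l * fr.v i)⁻¹ with hS
  have hD1 : ∀ l, fr.D l = S l * E := by
    intro l; rw [hS, hE, Frame.D]; simp only [dg_mul_dg]
    refine congrArg dg (funext fun i => ?_)
    have := (hqp i).ne'
    field_simp
  have hD2 : ∀ l, fr.D l = E * S l := by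
    intro l; rw [hS, hE, Frame.D]; simp only [dg_mul_dg]
    refine congrArg dg (funext fun i => ?_)
    have := (hqp i).ne'
    field_simp
  have hpt : ∀ l ∈ Set.Icc (-1 : ℝ) 1,
      (∑ k, (1 + Real.log (ν k)) * ∑ i, (1 - fr.v i ^ 2) * ((1 - l * fr.v i)⁻¹) ^ 2 * ‖U i k‖ ^ 2)
      + (∑ k, Real.log (ξ k) * ∑ i, (1 - fr.v i ^ 2) * ((1 - l * fr.v i)⁻¹) ^ 2 * ‖V i k‖ ^ 2)
      ≤ rtr (Res M F l * Res M F l * X) := by
    intro l hl
    have h := klein_pt hU2 hV2 hν hξ (S := S l) (dg_conjTranspose _)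
    rw [← hU, ← hV] at h
    have e1 : rtr (Res M F l * Res M F l * X) = rtr (fr.g * S l * (E * Y * E) * S l) := by
      rw [fr.rtr_res_sq_mul hl, ← hY]
      congr 1
      nth_rewrite 1 [hD1 l]
      rw [hD2 l]
      noncomm_ring
    have e2 : S l * S l = dg fun i => (1 - fr.v i ^ 2) * ((1 - l * fr.v i)⁻¹) ^ 2 := by
      rw [hS]; simp only [dg_mul_dg]
      refine congrArg dg (funext fun i => ?_)
      rw [← hqq i]; ring
    rw [e1]
    simp only [e2, diag_conj_re] at h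
    exact h
  have hcont : ∀ i, ContinuousOn (fun l : ℝ => (1 - fr.v i ^ 2) * ((1 - l * fr.v i)⁻¹) ^ 2)
      (Set.Icc (-1 : ℝ) 1) := fun i =>
      continuousOn_const.mul ((continuousOn_inv_one_sub (fr.hv i)).pow 2)
  have hint : ∀ i, ∫ l in (-1 : ℝ)..1, (1 - fr.v i ^ 2) * ((1 - l * fr.v i)⁻¹) ^ 2 = 2 := by
    intro i
    rw [intervalIntegral.integral_const_mul, integral_inv_sq (fr.hv i)]
    have := (hw i).ne'
    field_simp
  have hU3 : ∀ k, ∑ i, ‖U i k‖ ^ 2 = 1 := by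
    intro k; rw [sum_sq_col, hU1]; simp
  have hV3 : ∀ k, ∑ i, ‖V i k‖ ^ 2 = 1 := by
    intro k; rw [sum_sq_col, hV1]; simp
  have hII : ∀ (A : Matrix n n ℂ) (k : n), IntervalIntegrable (fun l : ℝ =>
      ∑ i, (1 - fr.v i ^ 2) * ((1 - l * fr.v i)⁻¹) ^ 2 * ‖A i k‖ ^ 2) volume (-1) 1 := by
    intro A k
    apply ContinuousOn.intervalIntegrable
    rw [Set.uIcc_of_le (by norm_num)]
    exact continuousOn_finsetSum _ fun i _ => (hcont i).mul continuousOn_const
  have hval : ∀ (A : Matrix n n ℂ) (k : n), ∑ i, ‖A i k‖ ^ 2 = 1 →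
      ∫ l in (-1 : ℝ)..1, ∑ i, (1 - fr.v i ^ 2) * ((1 - l * fr.v i)⁻¹) ^ 2 * ‖A i k‖ ^ 2 = 2 := by
    intro A k hA
    rw [intervalIntegral.integral_finsetSum]
    · simp only [intervalIntegral.integral_mul_const, hint, ← Finset.mul_sum, hA, mul_one]
    · intro i _
      apply ContinuousOn.intervalIntegrable
      rw [Set.uIcc_of_le (by norm_num)]
      exact (hcont i).mul continuousOn_const
  have hIIs : ∀ (A : Matrix n n ℂ) (c : n → ℝ), IntervalIntegrable (fun l : ℝ =>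
      ∑ k, c k * ∑ i, (1 - fr.v i ^ 2) * ((1 - l * fr.v i)⁻¹) ^ 2 * ‖A i k‖ ^ 2) volume (-1) 1 := by
    intro A c
    apply ContinuousOn.intervalIntegrable
    rw [Set.uIcc_of_le (by norm_num)]
    exact continuousOn_finsetSum _ fun k _ => continuousOn_const.mul
      (continuousOn_finsetSum _ fun i _ => (hcont i).mul continuousOn_const)
  have h1 := intervalIntegral.integral_mono_on (by norm_num : (-1 : ℝ) ≤ 1) (μ := volume) 
    ((hIIs U _).add (hIIs V _)) (fr.intervalIntegrable X) hpt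
  have h2 : ∫ l in (-1 : ℝ)..1, ((∑ k, (1 + Real.log (ν k)) * ∑ i, (1 - fr.v i ^ 2) * ((1 - l * fr.v i)⁻¹) ^ 2 * ‖U i k‖ ^ 2)
      + (∑ k, Real.log (ξ k) * ∑ i, (1 - fr.v i ^ 2) * ((1 - l * fr.v i)⁻¹) ^ 2 * ‖V i k‖ ^ 2))
      = 2 * ((∑ k, (1 + Real.log (ν k))) + ∑ k, Real.log (ξ k)) := by
    rw [intervalIntegral.integral_add, intervalIntegral.integral_finsetSum,
      intervalIntegral.integral_finsetSum]
    · simp only [intervalIntegral.integral_const_mul, hval U _ (hU3 _), hval V _ (hV3 _)]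
      rw [← Finset.sum_mul, ← Finset.sum_mul]; ring
    · exact fun k _ => (hII V k).const_mul _
    · exact fun k _ => (hII U k).const_mul _
    · exact hIIs U _
    · exact hIIs V _
  rw [h2] at h1
  have h3 : ldet fr.g = ∑ i, Real.log (ν i) := ldet_spec hU1 hν hU
  have h4 : ldet (E * Y * E) = ∑ i, Real.log (ξ i) := ldet_spec hV1 hξ hV
  have hTd : ‖fr.T.det‖ ≠ 0 :=
    norm_ne_zero_iff.2 ((Matrix.isUnit_iff_isUnit_det fr.T).1 fr.isUnit_T).ne_zero
  have hXd : ‖X.det‖ ≠ 0 :=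
    norm_ne_zero_iff.2 ((Matrix.isUnit_iff_isUnit_det X).1 hX.isUnit).ne_zero
  have h5 : ldet fr.g = 2 * ldet fr.T := by
    unfold ldet Frame.g
    rw [Matrix.det_mul, Matrix.det_conjTranspose, norm_mul, norm_star, Real.log_mul hTd hTd]; ring
  have h6 : ldet E = - (1 / 2) * ∑ i, Real.log (1 - fr.v i ^ 2) := by
    unfold ldet
    rw [hE, dg, Matrix.det_diagonal, norm_prod, Real.log_prod]
    · rw [Finset.mul_sum]
      refine Finset.sum_congr rfl fun i _ => ?_
      rw [Complex.norm_real, Real.norm_of_nonneg (inv_pos.2 (hqp i)).le, Real.log_inv, hq]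
      simp only
      rw [Real.log_sqrt (hw i).le]; ring
    · intro i _
      rw [Complex.norm_real]; exact norm_ne_zero_iff.2 (inv_pos.2 (hqp i)).ne'
  have hEd : ‖E.det‖ ≠ 0 :=
    norm_ne_zero_iff.2 ((Matrix.isUnit_iff_isUnit_det E).1 hEu).ne_zero
  have h7 : ldet (E * Y * E) = 2 * ldet E + 2 * ldet fr.T + ldet X := by
    unfold ldet
    rw [hY, Matrix.det_mul, Matrix.det_mul, Matrix.det_mul, Matrix.det_mul,
      Matrix.det_conjTranspose, norm_mul, norm_mul, norm_mul, norm_mul, norm_star,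
      Real.log_mul (mul_ne_zero hEd (mul_ne_zero (mul_ne_zero hTd hXd) hTd)) hEd,
      Real.log_mul hEd (mul_ne_zero (mul_ne_zero hTd hXd) hTd),
      Real.log_mul (mul_ne_zero hTd hXd) hTd, Real.log_mul hTd hXd]
    ring
  have h8 : ∑ i, Real.log (1 - fr.v i ^ 2)
      = (∑ i, Real.log (1 - fr.v i)) + ∑ i, Real.log (1 + fr.v i) := by
    rw [← Finset.sum_add_distrib]
    refine Finset.sum_congr rfl fun i _ => ?_
    rw [← Real.log_mul (hv1 i).ne' (hv2 i).ne']
    congr 1; ring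
  have h9 := fr.ldet_a
  have h10 := fr.ldet_b
  have h11 : ∑ k, (1 + Real.log (ν k)) = Fintype.card n + ∑ k, Real.log (ν k) := by
    rw [Finset.sum_add_distrib]; simp
  unfold lamTr
  rw [h11, ← h3, ← h4, h5, h7, h6, h8] at h1
  rw [h9, h10]
  linarith

end Crest.Agent.R332.Chan
end

-- ▼ part R332/ChanDeriv
section

/-!
Row 332, module A, file: derivatives.
-/

set_option autoImplicit false

namespace Crest.Agent.R332.Chan

open Matrix MeasureTheory intervalIntegral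
open scoped ComplexOrder BigOperators Matrix.Norms.L2Operator

variable {n : Type*} [Fintype n] [DecidableEq n]

lemma hasDerivAt_matrix_inv {A : ℝ → Matrix n n ℂ} {A' : Matrix n n ℂ} {x : ℝ}
    (hA : HasDerivAt A A' x) (hu : IsUnit (A x)) :
    HasDerivAt (fun t => (A t)⁻¹) (-((A x)⁻¹ * A' * (A x)⁻¹)) x := by
  obtain ⟨u, hu⟩ := hu
  have h1 := hasFDerivAt_ringInverse (𝕜 := ℝ) u
  rw [hu] at h1
  have h2 := h1.comp_hasDerivAt x hA
  have e : (fun t => (A t)⁻¹) = Ring.inverse ∘ A := by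
    ext1 t; simp [Matrix.nonsing_inv_eq_ringInverse]
  rw [e]
  refine h2.congr_deriv ?_
  have h3 : ((u⁻¹ : (Matrix n n ℂ)ˣ) : Matrix n n ℂ) = (A x)⁻¹ := by
    rw [← hu, Matrix.coe_units_inv]
  simp [h3]

lemma hasDerivAt_rtr {A : ℝ → Matrix n n ℂ} {A' : Matrix n n ℂ} {x : ℝ}
    (hA : HasDerivAt A A' x) : HasDerivAt (fun t => rtr (A t)) (rtr A') x := by
  have hlin : Continuous (fun B : Matrix n n ℂ => rtr B) := continuous_rtr
  let φ : Matrix n n ℂ →L[ℝ] ℝ :=
    ⟨{ toFun := fun B => rtr B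
       map_add' := fun B C => rtr_add B C
       map_smul' := fun c B => by
        have := rtr_smul c B
        simpa using this }, hlin⟩
  exact φ.hasFDerivAt.comp_hasDerivAt x hA

/-- x-derivative of the potential, pointwise in `l` -/
lemma hasDerivAt_pot {M : Matrix n n ℂ} {F : ℝ → Matrix n n ℂ} {F' : Matrix n n ℂ} {x l : ℝ}
    (hF : HasDerivAt F F' x) (hM : IsUnit M) (hu : IsUnit (M - (l : ℂ) • F x)) :
    HasDerivAt (fun t => rtr (Res M (F t) l * F t * M⁻¹))
      (rtr (Res M (F x) l * Res M (F x) l * F')) x := by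
  have h1 : HasDerivAt (fun t => M - (l : ℂ) • F t) (-((l : ℂ) • F')) x := by
    simpa using (hF.const_smul (l : ℂ)).const_sub M
  have h2 := hasDerivAt_matrix_inv h1 hu
  have h3 := (h2.mul hF).mul_const M⁻¹
  have h4 := hasDerivAt_rtr h3
  refine h4.congr_deriv ?_
  have hMd := (Matrix.isUnit_iff_isUnit_det M).1 hM
  have hRd := (Matrix.isUnit_iff_isUnit_det _).1 hu
  set R := (M - (l : ℂ) • F x)⁻¹ with hR
  have hRes : Res M (F x) l = R := rfl
  rw [hRes]
  have e1 : R * (M - (l : ℂ) • F x) = 1 := Matrix.nonsing_inv_mul _ hRd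
  have e2 : R * M = 1 + (l : ℂ) • (R * F x) := by
    rw [Matrix.mul_sub, Matrix.mul_smul] at e1
    rw [← e1]; abel
  have e3 : (-(R * -((l : ℂ) • F') * R) * F x + R * F') * M⁻¹ = R * F' * R := by
    have : (-(R * -((l : ℂ) • F') * R) * F x + R * F') = R * F' * (R * M) := by
      rw [e2]
      simp only [Matrix.mul_neg, Matrix.neg_mul, neg_neg, Matrix.mul_smul, Matrix.smul_mul,
        Matrix.mul_add, Matrix.mul_one, Matrix.mul_assoc]
      abel
    rw [this, Matrix.mul_assoc (R * F'), Matrix.mul_assoc R M, Matrix.mul_nonsing_inv _ hMd,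
      Matrix.mul_one]
  rw [e3, rtr_mul_comm, ← Matrix.mul_assoc]


lemma hasFDerivAt_entry (i j : n) (A : Matrix n n ℂ) :
    DifferentiableAt ℝ (fun B : Matrix n n ℂ => B i j) A := by
  let φ : Matrix n n ℂ →L[ℝ] ℂ :=
    ⟨{ toFun := fun B => B i j
       map_add' := fun B C => rfl
       map_smul' := fun c B => rfl }, (continuous_apply_apply i j)⟩
  exact φ.differentiableAt

lemma differentiableAt_det (A : Matrix n n ℂ) :
    DifferentiableAt ℝ (fun B : Matrix n n ℂ => B.det) A := by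
  simp only [Matrix.det_apply]
  refine DifferentiableAt.fun_sum fun σ _ => ?_
  refine DifferentiableAt.fun_const_smul ?_ _
  exact (HasFDerivAt.finsetProd (u := Finset.univ) (g := fun i (B : Matrix n n ℂ) => B (σ i) i)
    (x := A) (fun i _ => (hasFDerivAt_entry (σ i) i A).hasFDerivAt)).differentiableAt

lemma hasDerivAt_det_one_add (B : Matrix n n ℂ) :
    HasDerivAt (fun t : ℝ => (1 + (t : ℂ) • B).det) B.trace 0 := by
  have h : ∀ t : ℝ, (1 + (t : ℂ) • B).det = 1 + B.trace * (t : ℂ)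
      + (((1 : Matrix n n (Polynomial ℂ)) + (Polynomial.X : Polynomial ℂ) • B.map Polynomial.C).det.divX.divX.eval (t : ℂ)) * (t : ℂ) ^ 2 := by
    intro t; exact Matrix.det_one_add_smul _ _
  simp only [h]
  have h0 : HasDerivAt (fun t : ℝ => (t : ℂ)) 1 0 := Complex.ofRealCLM.hasDerivAt
  have h1 : HasDerivAt (fun t : ℝ => (((1 : Matrix n n (Polynomial ℂ)) + (Polynomial.X : Polynomial ℂ) • B.map Polynomial.C).det.divX.divX.eval (t : ℂ))) (((1 : Matrix n n (Polynomial ℂ)) + (Polynomial.X : Polynomial ℂ) • B.map Polynomial.C).det.divX.divX.derivative.eval ((0 : ℝ) : ℂ) * 1) 0 :=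
    (Polynomial.hasDerivAt _ _).comp (0 : ℝ) h0
  have h2 := ((h0.const_mul B.trace).const_add 1).add (h1.mul (h0.pow 2))
  refine h2.congr_deriv ?_
  simp

lemma hasDerivAt_det {A : ℝ → Matrix n n ℂ} {A' : Matrix n n ℂ} {x : ℝ}
    (hA : HasDerivAt A A' x) (hu : IsUnit (A x)) :
    HasDerivAt (fun t => (A t).det) ((A x).det * ((A x)⁻¹ * A').trace) x := by
  have hd := (Matrix.isUnit_iff_isUnit_det _).1 hu
  have h1 := (differentiableAt_det (A x)).hasFDerivAt
  have h2 := h1.comp_hasDerivAt x hA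
  refine h2.congr_deriv ?_
  -- compute the directional derivative along a line
  have h3 : HasDerivAt (fun t : ℝ => A x + t • A') A' 0 := by
    simpa using ((hasDerivAt_id (0 : ℝ)).smul_const A').const_add (A x)
  have h4 : HasFDerivAt (fun B : Matrix n n ℂ => B.det)
      (fderiv ℝ (fun B : Matrix n n ℂ => B.det) (A x)) (A x + (0 : ℝ) • A') := by
    simpa using h1
  have h5 := h4.comp_hasDerivAt (0 : ℝ) h3
  have h6 : ((fun B : Matrix n n ℂ => B.det) ∘ fun t : ℝ => A x + t • A')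
      = fun t : ℝ => (A x).det * (1 + (t : ℂ) • ((A x)⁻¹ * A')).det := by
    ext t
    simp only [Function.comp]
    rw [← Matrix.det_mul, Matrix.mul_add, Matrix.mul_one, Matrix.mul_smul, ← Matrix.mul_assoc,
      Matrix.mul_nonsing_inv _ hd, Matrix.one_mul]
    congr 2
  rw [h6] at h5
  have h7 := (hasDerivAt_det_one_add ((A x)⁻¹ * A')).const_mul (A x).det
  exact h5.unique h7

lemma hasDerivAt_ldet {A : ℝ → Matrix n n ℂ} {A' : Matrix n n ℂ} {x : ℝ}
    (hA : HasDerivAt A A' x) (hp : ∀ᶠ t in nhds x, (A t).PosDef) :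
    HasDerivAt (fun t => ldet (A t)) (rtr ((A x)⁻¹ * A')) x := by
  have hx : (A x).PosDef := hp.self_of_nhds
  have h1 := hasDerivAt_det hA hx.isUnit
  have h2 : HasDerivAt (fun t => ((A t).det).re) (((A x).det * ((A x)⁻¹ * A').trace).re) x :=
    Complex.reCLM.hasFDerivAt.comp_hasDerivAt x h1
  have hpos := hx.det_pos
  have hre : 0 < ((A x).det).re := (Complex.pos_iff.1 hpos).1
  have him : ((A x).det).im = 0 := (Complex.pos_iff.1 hpos).2.symm
  have h3 := h2.log hre.ne'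
  have h4 : (fun t => Real.log ((A t).det).re) =ᶠ[nhds x] fun t => ldet (A t) := by
    filter_upwards [hp] with t ht
    have := Complex.pos_iff.1 ht.det_pos
    unfold ldet
    congr 1
    rw [← Complex.re_eq_norm.2]
    exact ht.det_pos.le
  refine (h3.congr_of_eventuallyEq h4.symm).congr_deriv ?_
  rw [Complex.mul_re, him, zero_mul, sub_zero]
  unfold rtr
  field_simp

end Crest.Agent.R332.Chan
end

-- ▼ part R332/ChanPS

/-!
Row 332, module A, file: the per-(x,s) inequality (PS) with deficits.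
-/

set_option autoImplicit false

namespace Crest.Agent.R332.Chan

open Matrix MeasureTheory intervalIntegral
open scoped ComplexOrder BigOperators

variable {n : Type*} [Fintype n] [DecidableEq n]

/-- `M_s = (K^2+s)^{1/2}` for diagonal `K = dg k`. -/
noncomputable def Ms (k : n → ℝ) (s : ℝ) : Matrix n n ℂ := dg fun i => Real.sqrt (k i ^ 2 + s)

/-- deficit (3) -/
noncomputable def def3 (M F X : Matrix n n ℂ) : ℝ :=
  lamTr M F X - Fintype.card n - ldet X + ldet (M - F) + ldet (M + F)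

lemma def3_nonneg {M F X : Matrix n n ℂ} (fr : Frame M F) (hX : X.PosDef) : 0 ≤ def3 M F X := by
  have := fact3 fr hX
  unfold def3; linarith

omit [DecidableEq n] in
lemma posDef_dg_iff [DecidableEq n] {d : n → ℝ} : (dg d).PosDef ↔ ∀ i, 0 < d i := by
  rw [dg, Matrix.posDef_diagonal_iff]
  exact forall_congr' fun i => by exact_mod_cast Iff.rfl

omit [DecidableEq n] in
lemma posSemidef_dg_iff [DecidableEq n] {d : n → ℝ} : (dg d).PosSemidef ↔ ∀ i, 0 ≤ d i := by
  rw [dg, Matrix.posSemidef_diagonal_iff]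
  exact forall_congr' fun i => by exact_mod_cast Iff.rfl

lemma dg_add_dg (d e : n → ℝ) : dg d + dg e = dg fun i => d i + e i := by
  simp [dg, Matrix.diagonal_add]

lemma dg_sub_dg (d e : n → ℝ) : dg d - dg e = dg fun i => d i - e i := by
  simp [dg, Matrix.diagonal_sub]

lemma smul_one_eq_dg (s : ℝ) : (s : ℂ) • (1 : Matrix n n ℂ) = dg fun _ => s := by
  rw [← dg_one, dg, dg, ← Matrix.diagonal_smul]; congr 1; ext i; simp

lemma Ms_posDef {k : n → ℝ} {s : ℝ} (hs : 0 < s) : (Ms k s).PosDef :=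
  posDef_dg_iff.2 fun i => Real.sqrt_pos.2 (by positivity)

lemma Ms_isHermitian (k : n → ℝ) (s : ℝ) : (Ms k s).IsHermitian := dg_conjTranspose _

lemma Ms_sq {k : n → ℝ} {s : ℝ} (hs : 0 ≤ s) :
    Ms k s * Ms k s = dg k * dg k + (s : ℂ) • (1 : Matrix n n ℂ) := by
  rw [Ms, dg_mul_dg, dg_mul_dg, smul_one_eq_dg, dg_add_dg]
  refine congrArg dg (funext fun i => ?_)
  rw [Real.mul_self_sqrt (by positivity)]; ring

lemma lt_sqrt_add {k s : ℝ} (hs : 0 < s) : k < Real.sqrt (k ^ 2 + s) := by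
  rcases lt_or_ge k 0 with h | h
  · exact h.trans (Real.sqrt_pos.2 (by positivity))
  · rw [Real.lt_sqrt h]; linarith

/-- data at one point -/
structure Pt (k : n → ℝ) (F : Matrix n n ℂ) : Prop where
  herm : F.IsHermitian
  sub : (dg k - F).PosSemidef
  add : (dg k + F).PosSemidef

namespace Pt

variable {k : n → ℝ} {F : Matrix n n ℂ}

lemma sub_posDef (h : Pt k F) {s : ℝ} (hs : 0 < s) : (Ms k s - F).PosDef := by
  have h1 : (dg fun i => Real.sqrt (k i ^ 2 + s) - k i).PosDef :=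
    posDef_dg_iff.2 fun i => sub_pos.2 (lt_sqrt_add hs)
  have h2 := h1.add_posSemidef h.sub
  rw [← dg_sub_dg] at h2
  have : dg (fun i => Real.sqrt (k i ^ 2 + s)) - dg k + (dg k - F) = Ms k s - F := by
    unfold Ms; abel
  rwa [this] at h2

lemma add_posDef (h : Pt k F) {s : ℝ} (hs : 0 < s) : (Ms k s + F).PosDef := by
  have h1 : (dg fun i => Real.sqrt (k i ^ 2 + s) - k i).PosDef :=
    posDef_dg_iff.2 fun i => sub_pos.2 (lt_sqrt_add hs)
  have h2 := h1.add_posSemidef h.add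
  rw [← dg_sub_dg] at h2
  have : dg (fun i => Real.sqrt (k i ^ 2 + s)) - dg k + (dg k + F) = Ms k s + F := by
    unfold Ms; abel
  rwa [this] at h2

lemma frame (h : Pt k F) {s : ℝ} (hs : 0 < s) : Nonempty (Frame (Ms k s) F) :=
  exists_frame (Ms_posDef hs) h.herm (h.sub_posDef hs) (h.add_posDef hs)

end Pt

/-- `J = K^2 - F^2` -/
noncomputable def Jm (k : n → ℝ) (F : Matrix n n ℂ) : Matrix n n ℂ := dg k * dg k - F * F

/-- `d_s` -/
noncomputable def dd (k : n → ℝ) (F : Matrix n n ℂ) (s : ℝ) : ℝ :=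
  ldet (Ms k s - F) + ldet (Ms k s + F) - Fintype.card n * Real.log s

/-- derivative of `d_s` -/
noncomputable def dd' (k : n → ℝ) (F : Matrix n n ℂ) (s : ℝ) : ℝ :=
  (1 / 2) * rtr ((Ms k s)⁻¹ * ((Ms k s - F)⁻¹ + (Ms k s + F)⁻¹)) - Fintype.card n / s

/-- `tr ψ_s(Z)` -/
noncomputable def psi (s : ℝ) (Z : Matrix n n ℂ) : ℝ :=
  rtr Z - s * (ldet ((s : ℂ) • (1 : Matrix n n ℂ) + Z) - Fintype.card n * Real.log s)

/-- The per-(x,s) inequality with deficits; `F'` is the derivative of the path. -/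
theorem ps_ineq {k : n → ℝ} {F F' Z : Matrix n n ℂ} {r s : ℝ} (hr : 0 ≤ r) (hs : 0 < s)
    (h : Pt k F) (hF' : F' = Jm k F - ((1 + r : ℝ) : ℂ) • Z) :
    -(rtr F' - s * lamTr (Ms k s) F F') + (rtr (Jm k F) - r * s ^ 2 * dd' k F s
        - (1 + r) * s * dd k F s)
      + s * (def1 (Ms k s) F + (1 + r) * def3 (Ms k s) F ((s : ℂ) • (1 : Matrix n n ℂ) + Z))
      ≤ (1 + r) * psi s Z := by
  obtain ⟨fr⟩ := h.frame hs
  set M := Ms k s with hM
  set N : ℝ := (Fintype.card n : ℝ) with hN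
  have f1 := fact1 (Ms_isHermitian k s) h.herm fr
  have f2 := fact2 fr
  have hsJ : M * M - F * F = (s : ℂ) • (1 : Matrix n n ℂ) + Jm k F := by
    rw [hM, Ms_sq hs.le, Jm]; abel
  rw [← hM] at f1
  rw [hsJ, lamTr_add fr, lamTr_smul] at f1
  have l3 : lamTr M F ((s : ℂ) • (1 : Matrix n n ℂ) + Z) = s * lamTr M F 1 + lamTr M F Z := by
    rw [lamTr_add fr, lamTr_smul]
  have l4 : lamTr M F F' = lamTr M F (Jm k F) - (1 + r) * lamTr M F Z := by
    rw [hF', lamTr_sub fr, lamTr_smul]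
  have l5 : rtr F' = rtr (Jm k F) - (1 + r) * rtr Z := by
    rw [hF', rtr_sub, rtr_smul]
  set LZ := lamTr M F Z
  set LJ := lamTr M F (Jm k F)
  set L1 := lamTr M F 1
  set d3 := def3 M F ((s : ℂ) • (1 : Matrix n n ℂ) + Z) with hd3
  have e3 : ldet ((s : ℂ) • (1 : Matrix n n ℂ) + Z)
      = s * L1 + LZ - N + ldet (M - F) + ldet (M + F) - d3 := by
    rw [hd3]; unfold def3; rw [l3]; ring
  unfold psi dd dd'
  rw [e3, l4, l5]
  rw [← hM, ← hN]
  set e := 1 / 2 * rtr (M⁻¹ * ((M - F)⁻¹ + (M + F)⁻¹))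
  have hLJ : LJ = N - def1 M F - s * L1 := by linarith
  rw [hLJ]
  have key : 0 ≤ r * s ^ 2 * (e - L1) := mul_nonneg (mul_nonneg hr (sq_nonneg s)) (by linarith)
  have hss : s ^ 2 * (N / s) = s * N := by field_simp
  nlinarith [key, hss]


/-! ### s-derivatives -/

section deriv

open scoped Matrix.Norms.L2Operator

lemma hasDerivAt_dg {d : ℝ → n → ℝ} {d' : n → ℝ} {s : ℝ}
    (h : ∀ i, HasDerivAt (fun t => d t i) (d' i) s) :
    HasDerivAt (fun t => dg (d t)) (dg d') s := by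
  have key : HasDerivAt (fun t => (fun i j => dg (d t) i j : n → n → ℂ))
      (fun i j => dg d' i j : n → n → ℂ) s := by
    refine hasDerivAt_pi.2 fun i => hasDerivAt_pi.2 fun j => ?_
    by_cases hij : i = j
    · subst hij
      simp only [dg, Matrix.diagonal_apply_eq]
      exact (h i).ofReal_comp
    · simp only [dg, Matrix.diagonal_apply_ne _ hij]
      exact hasDerivAt_const _ _
  exact key

lemma Ms_inv {k : n → ℝ} {s : ℝ} (hs : 0 < s) :
    (Ms k s)⁻¹ = dg fun i => (Real.sqrt (k i ^ 2 + s))⁻¹ := by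
  refine Matrix.inv_eq_right_inv ?_
  rw [Ms, dg_mul_dg, ← dg_one]
  refine congrArg dg (funext fun i => ?_)
  exact mul_inv_cancel₀ (Real.sqrt_pos.2 (by positivity)).ne'

lemma hasDerivAt_Ms {k : n → ℝ} {s : ℝ} (hs : 0 < s) :
    HasDerivAt (fun t => Ms k t) (((1 / 2 : ℝ) : ℂ) • (Ms k s)⁻¹) s := by
  have e : ((1 / 2 : ℝ) : ℂ) • (Ms k s)⁻¹ = dg fun i => (1 / (2 * Real.sqrt (k i ^ 2 + s))) := by
    rw [Ms_inv hs, dg, dg, ← Matrix.diagonal_smul]
    congr 1; ext i
    simp only [Pi.smul_apply, smul_eq_mul]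
    rw [← Complex.ofReal_mul]
    congr 1
    rw [one_div, one_div, mul_inv]
  rw [e]
  refine hasDerivAt_dg fun i => ?_
  have h1 : HasDerivAt (fun t : ℝ => k i ^ 2 + t) 1 s := by
    simpa using (hasDerivAt_id s).const_add (k i ^ 2)
  exact h1.sqrt (by positivity)

lemma hasDerivAt_dd {k : n → ℝ} {F : Matrix n n ℂ} (h : Pt k F) {s : ℝ} (hs : 0 < s) :
    HasDerivAt (fun t => dd k F t) (dd' k F s) s := by
  have hev : ∀ᶠ t : ℝ in nhds s, 0 < t := lt_mem_nhds hs
  have h1 : HasDerivAt (fun t => Ms k t - F) (((1 / 2 : ℝ) : ℂ) • (Ms k s)⁻¹) s :=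
    (hasDerivAt_Ms hs).sub_const F
  have h2 : HasDerivAt (fun t => Ms k t + F) (((1 / 2 : ℝ) : ℂ) • (Ms k s)⁻¹) s :=
    (hasDerivAt_Ms hs).add_const F
  have h3 := hasDerivAt_ldet h1 (hev.mono fun t ht => h.sub_posDef ht)
  have h4 := hasDerivAt_ldet h2 (hev.mono fun t ht => h.add_posDef ht)
  have h5 := (h3.add h4).sub ((Real.hasDerivAt_log hs.ne').const_mul (Fintype.card n : ℝ))
  refine h5.congr_deriv ?_
  unfold dd'
  rw [Matrix.mul_smul, Matrix.mul_smul, rtr_smul, rtr_smul, Matrix.mul_add, rtr_add,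
    rtr_mul_comm (Ms k s - F)⁻¹, rtr_mul_comm (Ms k s + F)⁻¹]
  ring

/-- boundary functional -/
noncomputable def EE (α : ℝ) (k : n → ℝ) (F : Matrix n n ℂ) (s : ℝ) : ℝ :=
  (1 / α) * s ^ α * (rtr (Jm k F) - s * dd k F s)

lemma hasDerivAt_EE {α : ℝ} (hα : 0 < α) {k : n → ℝ} {F : Matrix n n ℂ} (h : Pt k F) {s : ℝ}
    (hs : 0 < s) :
    HasDerivAt (fun t => EE α k F t) (s ^ (α - 1) *
      (rtr (Jm k F) - (1 / α) * s ^ 2 * dd' k F s - (1 + 1 / α) * s * dd k F s)) s := by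
  have h1 := (Real.hasDerivAt_rpow_const (x := s) (p := α) (Or.inl hs.ne')).const_mul (1 / α)
  have h2 := ((hasDerivAt_id s).mul (hasDerivAt_dd h hs)).const_sub (rtr (Jm k F))
  have h3 := h1.mul h2
  refine h3.congr_deriv ?_
  simp only [id, Pi.mul_apply]
  have e1 : s ^ α = s ^ (α - 1) * s := by
    rw [← Real.rpow_add_one hs.ne']; congr 1; ring
  rw [e1]
  field_simp
  ring

end deriv

lemma rtr_mul_nonneg {A B : Matrix n n ℂ} (hA : A.PosSemidef) (hB : B.PosSemidef) :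
    0 ≤ rtr (A * B) := by
  obtain ⟨U, d, h1, h2, h3⟩ := exists_spectral hA.isHermitian
  have hd : ∀ i, 0 ≤ d i := by
    have h4 : (Uᴴ * A * U).PosSemidef := hA.conjTranspose_mul_mul_same U
    have h5 : Uᴴ * A * U = dg d := by
      rw [h3]
      calc Uᴴ * (U * diagonal (fun i => ((d i : ℝ) : ℂ)) * Uᴴ) * U
          = (Uᴴ * U) * diagonal (fun i => ((d i : ℝ) : ℂ)) * (Uᴴ * U) := by noncomm_ring
        _ = _ := by rw [h1]; simp
    rw [h5] at h4
    exact posSemidef_dg_iff.1 h4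
  have h6 : rtr (A * B) = ∑ i, d i * ((Uᴴ * B * U) i i).re := by
    have e : rtr (A * B) = rtr ((Uᴴ * B * U) * dg d) := by
      rw [h3, Matrix.mul_assoc, rtr_mul_comm]
      congr 1; noncomm_ring
    rw [e]
    unfold rtr Matrix.trace
    rw [Complex.re_sum]
    refine Finset.sum_congr rfl fun i _ => ?_
    rw [Matrix.diag_apply, dg, Matrix.mul_diagonal, Complex.re_mul_ofReal]; ring
  rw [h6]
  refine Finset.sum_nonneg fun i _ => mul_nonneg (hd i) ?_
  have h7 := (hB.conjTranspose_mul_mul_same U).diag_nonneg (i := i)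
  exact (Complex.nonneg_iff.1 h7).1

/-- Gibbs inequality -/
lemma gibbs {A B : Matrix n n ℂ} (hA : A.PosDef) (hB : B.PosDef) :
    (Fintype.card n : ℝ) + ldet A + ldet B ≤ rtr (A * B) := by
  obtain ⟨U, ν, hU1, hU2, hν, hU⟩ := posDef_spectral hA
  obtain ⟨V, ξ, hV1, hV2, hξ, hV⟩ := posDef_spectral hB
  have h := klein_pt hU2 hV2 hν hξ (S := (1 : Matrix n n ℂ)) Matrix.isHermitian_one
  rw [← hU, ← hV] at h
  simp only [hU1, hV1, Matrix.one_apply_eq, Complex.one_re, mul_one] at h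
  rw [ldet_spec hU1 hν hU, ldet_spec hV1 hξ hV]
  rw [Finset.sum_add_distrib] at h
  simp only [Finset.sum_const, Finset.card_univ, nsmul_eq_mul, mul_one] at h
  exact h

lemma ldet_inv {A : Matrix n n ℂ} (_hA : A.PosDef) : ldet A⁻¹ = - ldet A := by
  unfold ldet
  rw [Matrix.det_nonsing_inv, Ring.inverse_eq_inv', norm_inv, Real.log_inv]

lemma ldet_mono {A B : Matrix n n ℂ} (hB : B.PosDef) (h : (A - B).PosSemidef) :
    ldet B ≤ ldet A := by
  have hA : A.PosDef := by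
    have := hB.add_posSemidef h
    simpa using this
  have h1 := gibbs hA.inv hB
  rw [ldet_inv hA] at h1
  have h2 := rtr_mul_nonneg hA.inv.posSemidef h
  have hd := (Matrix.isUnit_iff_isUnit_det _).1 hA.isUnit
  rw [Matrix.mul_sub, rtr_sub, Matrix.nonsing_inv_mul _ hd, rtr_one] at h2
  linarith

lemma ldet_smul {A : Matrix n n ℂ} (hA : A.PosDef) {c : ℝ} (hc : 0 < c) :
    ldet ((c : ℂ) • A) = Fintype.card n * Real.log c + ldet A := by
  unfold ldet
  have hAd : ‖A.det‖ ≠ 0 :=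
    norm_ne_zero_iff.2 ((Matrix.isUnit_iff_isUnit_det A).1 hA.isUnit).ne_zero
  rw [Matrix.det_smul, norm_mul, norm_pow, Complex.norm_real, Real.norm_of_nonneg hc.le,
    Real.log_mul (pow_ne_zero _ hc.ne') hAd, Real.log_pow]

lemma mul_dd_le {k : n → ℝ} {F : Matrix n n ℂ} (h : Pt k F) {s : ℝ} (hs : 0 < s) :
    s * dd k F s ≤ rtr (Jm k F) := by
  have ha := h.sub_posDef hs
  have hb := h.add_posDef hs
  have hc : 0 < s⁻¹ := inv_pos.2 hs
  have hb' : ((s⁻¹ : ℝ) : ℂ) • (Ms k s + F) |>.PosDef := by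
    refine Matrix.PosDef.smul hb ?_
    exact_mod_cast hc
  have h1 := gibbs ha hb'
  rw [ldet_smul hb hc, Matrix.mul_smul, rtr_smul, Real.log_inv] at h1
  have h2 : rtr ((Ms k s - F) * (Ms k s + F)) = s * Fintype.card n + rtr (Jm k F) := by
    have : (Ms k s - F) * (Ms k s + F)
        = (Ms k s * Ms k s - F * F) + (Ms k s * F - F * Ms k s) := by noncomm_ring
    rw [this, rtr_add, rtr_sub (Ms k s * F), rtr_mul_comm (Ms k s) F, sub_self, add_zero,
      Ms_sq hs.le]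
    have : dg k * dg k + (s : ℂ) • (1 : Matrix n n ℂ) - F * F
        = (s : ℂ) • (1 : Matrix n n ℂ) + Jm k F := by unfold Jm; abel
    rw [this, rtr_add, rtr_smul, rtr_one]
  rw [h2] at h1
  unfold dd
  have h3 : s * (s⁻¹ * (s * Fintype.card n + rtr (Jm k F))) = s * Fintype.card n + rtr (Jm k F) := by
    field_simp
  nlinarith [mul_le_mul_of_nonneg_left h1 hs.le]

end Crest.Agent.R332.Chan
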