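import Mathlib
import Crest.Agent.R332.ChanPS
import Crest.Agent.R332.ChanInt

-- ▼ part R332/ChanCont
section

/-!
Row 332, module A, file: joint continuity.
-/

set_option autoImplicit false

namespace Crest.Agent.R332.Chan

open Matrix MeasureTheory intervalIntegral Set
open scoped ComplexOrder BigOperators

variable {n : Type*} [Fintype n] [DecidableEq n]
variable {X : Type*} [TopologicalSpace X]

lemma continuousOn_matrix_inv {A : X → Matrix n n ℂ} {P : Set X} (hA : ContinuousOn A P)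
    (hu : ∀ p ∈ P, IsUnit (A p)) : ContinuousOn (fun p => (A p)⁻¹) P := by
  have h1 : ContinuousOn (fun p => (A p).det) P :=
    (Continuous.matrix_det continuous_id).comp_continuousOn hA
  have h2 : ContinuousOn (fun p => (A p).adjugate) P :=
    (Continuous.matrix_adjugate continuous_id).comp_continuousOn hA
  have h3 : ContinuousOn (fun p => ((A p).det)⁻¹ • (A p).adjugate) P :=
    (h1.inv₀ fun p hp => ((Matrix.isUnit_iff_isUnit_det _).1 (hu p hp)).ne_zero).smul h2
  refine h3.congr fun p _ => ?_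
  rw [Matrix.inv_def, Ring.inverse_eq_inv']

lemma continuousOn_ldet {A : X → Matrix n n ℂ} {P : Set X} (hA : ContinuousOn A P)
    (hu : ∀ p ∈ P, IsUnit (A p)) : ContinuousOn (fun p => ldet (A p)) P := by
  unfold ldet
  have h1 : ContinuousOn (fun p => (A p).det) P :=
    (Continuous.matrix_det continuous_id).comp_continuousOn hA
  exact h1.norm.log fun p hp =>
    norm_ne_zero_iff.2 ((Matrix.isUnit_iff_isUnit_det _).1 (hu p hp)).ne_zero

omit [DecidableEq n] in
lemma continuousOn_rtr {A : X → Matrix n n ℂ} {P : Set X} (hA : ContinuousOn A P) :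
    ContinuousOn (fun p => rtr (A p)) P := continuous_rtr.comp_continuousOn hA

lemma continuous_dg {d : X → n → ℝ} (h : ∀ i, Continuous fun p => d p i) :
    Continuous fun p => dg (d p) := by
  refine Continuous.matrix_diagonal (continuous_pi fun i => ?_)
  exact Complex.continuous_ofReal.comp (h i)

lemma continuous_Ms (k : n → ℝ) : Continuous fun s => Ms k s :=
  continuous_dg fun i => by fun_prop

/-- the assumptions on a parameter set -/
lemma continuousOn_Res_joint {k : n → ℝ} {F : X → Matrix n n ℂ} {S : X → ℝ} {P : Set X}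
    (hF : ContinuousOn F P) (hS : ContinuousOn S P) (hpt : ∀ p ∈ P, Pt k (F p))
    (hs : ∀ p ∈ P, 0 < S p) :
    ContinuousOn (fun q : X × ℝ => Res (Ms k (S q.1)) (F q.1) q.2) (P ×ˢ Icc (-1 : ℝ) 1) := by
  unfold Res
  have h1 : ContinuousOn (fun q : X × ℝ => F q.1) (P ×ˢ Icc (-1 : ℝ) 1) :=
    hF.comp continuous_fst.continuousOn fun q hq => hq.1
  have h2 : ContinuousOn (fun q : X × ℝ => Ms (n := n) k (S q.1)) (P ×ˢ Icc (-1 : ℝ) 1) :=
    (continuous_Ms k).comp_continuousOn (hS.comp continuous_fst.continuousOn fun q hq => hq.1)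
  have h3 : ContinuousOn (fun q : X × ℝ => ((q.2 : ℝ) : ℂ)) (P ×ˢ Icc (-1 : ℝ) 1) :=
    (Complex.continuous_ofReal.comp continuous_snd).continuousOn
  refine continuousOn_matrix_inv (h2.sub (h3.smul h1)) fun q hq => ?_
  obtain ⟨fr⟩ := (hpt q.1 hq.1).frame (hs q.1 hq.1)
  have hm := fr.res_mul (abs_le.2 hq.2)
  exact ⟨⟨_, _, hm.1, hm.2⟩, rfl⟩

lemma continuousOn_lamTr [FirstCountableTopology X] {k : n → ℝ} {F Y : X → Matrix n n ℂ}
    {S : X → ℝ} {P : Set X} (hF : ContinuousOn F P) (hS : ContinuousOn S P)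
    (hY : ContinuousOn Y P) (hpt : ∀ p ∈ P, Pt k (F p)) (hs : ∀ p ∈ P, 0 < S p) :
    ContinuousOn (fun p => lamTr (Ms k (S p)) (F p) (Y p)) P := by
  unfold lamTr
  refine continuousOn_const.mul (continuousOn_param (by norm_num) ?_)
  have h0 := continuousOn_Res_joint hF hS hpt hs
  have h1 : ContinuousOn (fun q : X × ℝ => Y q.1) (P ×ˢ Icc (-1 : ℝ) 1) :=
    hY.comp continuous_fst.continuousOn fun q hq => hq.1
  exact continuousOn_rtr ((h0.mul h0).mul h1)

lemma continuousOn_def1 [FirstCountableTopology X] {k : n → ℝ} {F : X → Matrix n n ℂ}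
    {S : X → ℝ} {P : Set X} (hF : ContinuousOn F P) (hS : ContinuousOn S P)
    (hpt : ∀ p ∈ P, Pt k (F p)) (hs : ∀ p ∈ P, 0 < S p) :
    ContinuousOn (fun p => def1 (Ms k (S p)) (F p)) P := by
  unfold def1
  refine continuousOn_const.mul (continuousOn_param (by norm_num) ?_)
  have h0 := continuousOn_Res_joint hF hS hpt hs
  have h1 : ContinuousOn (fun q : X × ℝ => F q.1) (P ×ˢ Icc (-1 : ℝ) 1) :=
    hF.comp continuous_fst.continuousOn fun q hq => hq.1
  have h2 := (h0.mul h1).sub (h1.mul h0)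
  have h3 : ContinuousOn (fun q : X × ℝ =>
      (Res (Ms k (S q.1)) (F q.1) q.2 * F q.1 - F q.1 * Res (Ms k (S q.1)) (F q.1) q.2)ᴴ)
      (P ×ˢ Icc (-1 : ℝ) 1) :=
    (Continuous.matrix_conjTranspose continuous_id).comp_continuousOn h2
  refine ContinuousOn.mul ?_ (continuousOn_rtr (h3.mul h2))
  fun_prop

lemma continuousOn_def3 [FirstCountableTopology X] {k : n → ℝ} {F Y : X → Matrix n n ℂ}
    {S : X → ℝ} {P : Set X} (hF : ContinuousOn F P) (hS : ContinuousOn S P)
    (hY : ContinuousOn Y P) (hYp : ∀ p ∈ P, (Y p).PosDef) (hpt : ∀ p ∈ P, Pt k (F p))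
    (hs : ∀ p ∈ P, 0 < S p) :
    ContinuousOn (fun p => def3 (Ms k (S p)) (F p) (Y p)) P := by
  unfold def3
  have hM : ContinuousOn (fun p => Ms (n := n) k (S p)) P := (continuous_Ms k).comp_continuousOn hS
  refine ((((continuousOn_lamTr hF hS hY hpt hs).sub continuousOn_const).sub
    (continuousOn_ldet hY fun p hp => (hYp p hp).isUnit)).add
    (continuousOn_ldet (hM.sub hF) fun p hp => ((hpt p hp).sub_posDef (hs p hp)).isUnit)).add
    (continuousOn_ldet (hM.add hF) fun p hp => ((hpt p hp).add_posDef (hs p hp)).isUnit)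

lemma continuousOn_dd {k : n → ℝ} {F : X → Matrix n n ℂ}
    {S : X → ℝ} {P : Set X} (hF : ContinuousOn F P) (hS : ContinuousOn S P)
    (hpt : ∀ p ∈ P, Pt k (F p)) (hs : ∀ p ∈ P, 0 < S p) :
    ContinuousOn (fun p => dd k (F p) (S p)) P := by
  unfold dd
  have hM : ContinuousOn (fun p => Ms (n := n) k (S p)) P := (continuous_Ms k).comp_continuousOn hS
  exact ((continuousOn_ldet (hM.sub hF) fun p hp => ((hpt p hp).sub_posDef (hs p hp)).isUnit).add
    (continuousOn_ldet (hM.add hF) fun p hp => ((hpt p hp).add_posDef (hs p hp)).isUnit)).sub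
    (continuousOn_const.mul (hS.log fun p hp => (hs p hp).ne'))

lemma continuousOn_dd' {k : n → ℝ} {F : X → Matrix n n ℂ}
    {S : X → ℝ} {P : Set X} (hF : ContinuousOn F P) (hS : ContinuousOn S P)
    (hpt : ∀ p ∈ P, Pt k (F p)) (hs : ∀ p ∈ P, 0 < S p) :
    ContinuousOn (fun p => dd' k (F p) (S p)) P := by
  unfold dd'
  have hM : ContinuousOn (fun p => Ms (n := n) k (S p)) P := (continuous_Ms k).comp_continuousOn hS
  have h1 := continuousOn_matrix_inv hM fun p hp => (Ms_posDef (hs p hp)).isUnit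
  have h2 := continuousOn_matrix_inv (hM.sub hF) fun p hp => ((hpt p hp).sub_posDef (hs p hp)).isUnit
  have h3 := continuousOn_matrix_inv (hM.add hF) fun p hp => ((hpt p hp).add_posDef (hs p hp)).isUnit
  exact (continuousOn_const.mul (continuousOn_rtr (h1.mul (h2.add h3)))).sub
    (continuousOn_const.div hS fun p hp => (hs p hp).ne')

lemma posDef_smul_add {s : ℝ} {Z : Matrix n n ℂ} (hs : 0 < s) (hZ : Z.PosSemidef) :
    ((s : ℂ) • (1 : Matrix n n ℂ) + Z).PosDef := by
  rw [smul_one_eq_dg]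
  exact (posDef_dg_iff.2 fun _ => hs).add_posSemidef hZ

lemma continuousOn_sZ {Z : X → Matrix n n ℂ} {S : X → ℝ} {P : Set X} (hZ : ContinuousOn Z P)
    (hS : ContinuousOn S P) :
    ContinuousOn (fun p => ((S p : ℝ) : ℂ) • (1 : Matrix n n ℂ) + Z p) P :=
  ((Complex.continuous_ofReal.comp_continuousOn hS).smul continuousOn_const).add hZ

lemma continuousOn_psi {Z : X → Matrix n n ℂ} {S : X → ℝ} {P : Set X} (hZ : ContinuousOn Z P)
    (hS : ContinuousOn S P) (hZp : ∀ p ∈ P, (Z p).PosSemidef) (hs : ∀ p ∈ P, 0 < S p) :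
    ContinuousOn (fun p => psi (S p) (Z p)) P := by
  unfold psi
  exact (continuousOn_rtr hZ).sub (hS.mul ((continuousOn_ldet (continuousOn_sZ hZ hS)
    fun p hp => (posDef_smul_add (hs p hp) (hZp p hp)).isUnit).sub
    (continuousOn_const.mul (hS.log fun p hp => (hs p hp).ne'))))

lemma continuousOn_Jm {k : n → ℝ} {F : X → Matrix n n ℂ} {P : Set X} (hF : ContinuousOn F P) :
    ContinuousOn (fun p => Jm k (F p)) P := by
  unfold Jm
  exact continuousOn_const.sub (hF.mul hF)

end Crest.Agent.R332.Chan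
end

-- ▼ part R332/ChanMain

/-!
Row 332, module A, main file: the N-channel theorem with deficits.
-/

set_option autoImplicit false

namespace Crest.Agent.R332.Chan

open Matrix MeasureTheory intervalIntegral Set
open scoped ComplexOrder BigOperators

variable {n : Type*} [Fintype n] [DecidableEq n]

/-- endpoint function -/
noncomputable def endp (k s : ℝ) : ℝ :=
  2 * k - s / Real.sqrt (k ^ 2 + s) *
    Real.log ((Real.sqrt (k ^ 2 + s) + k) / (Real.sqrt (k ^ 2 + s) - k))

/-- the assumptions on the path -/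
structure Path (α L : ℝ) (k : n → ℝ) (F Z : ℝ → Matrix n n ℂ) : Prop where
  hL : 0 < L
  hFc : ContinuousOn F (Icc (-L) L)
  hFd : ∀ x ∈ Ioo (-L) L, HasDerivAt F (Jm k (F x) - ((1 + 1 / α : ℝ) : ℂ) • Z x) x
  hpt : ∀ x ∈ Icc (-L) L, Pt k (F x)
  hZc : ContinuousOn Z (Icc (-L) L)
  hZp : ∀ x ∈ Icc (-L) L, (Z x).PosSemidef
  h0 : F (-L) = dg k
  h1 : F L = - dg k

namespace Path

variable {α L : ℝ} {k : n → ℝ} {F Z : ℝ → Matrix n n ℂ}

/-- the derivative of the path -/
noncomputable def Fp (α : ℝ) (k : n → ℝ) (F Z : ℝ → Matrix n n ℂ) (x : ℝ) : Matrix n n ℂ :=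
  Jm k (F x) - ((1 + 1 / α : ℝ) : ℂ) • Z x

lemma continuousOn_Fp (h : Path α L k F Z) : ContinuousOn (Fp α k F Z) (Icc (-L) L) := by
  have h1 : ContinuousOn (fun x => ((1 + 1 / α : ℝ) : ℂ) • Z x) (Icc (-L) L) := by
    have := h.hZc.const_smul ((1 + 1 / α : ℝ) : ℂ)
    exact this
  exact (continuousOn_Jm h.hFc).sub h1

lemma pot_integral (h : Path α L k F Z) {s : ℝ} (hs : 0 < s) {l : ℝ} (hl : l ∈ Icc (-1 : ℝ) 1) :
    ∫ x in (-L)..L, rtr (Res (Ms k s) (F x) l * Res (Ms k s) (F x) l * Fp α k F Z x)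
      = rtr (Res (Ms k s) (F L) l * F L * (Ms k s)⁻¹)
        - rtr (Res (Ms k s) (F (-L)) l * F (-L) * (Ms k s)⁻¹) := by
  have hLL : -L ≤ L := by linarith [h.hL]
  have hu : ∀ x ∈ Icc (-L) L, IsUnit (Ms k s - (l : ℂ) • F x) := by
    intro x hx
    obtain ⟨fr⟩ := (h.hpt x hx).frame hs
    have hm := fr.res_mul (abs_le.2 hl)
    exact ⟨⟨_, _, hm.1, hm.2⟩, rfl⟩
  have hR : ContinuousOn (fun x => Res (Ms k s) (F x) l) (Icc (-L) L) := by
    unfold Res
    have h1 : ContinuousOn (fun x => (l : ℂ) • F x) (Icc (-L) L) := by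
      have := h.hFc.const_smul (l : ℂ)
      exact this
    exact continuousOn_matrix_inv (continuousOn_const.sub h1) hu
  refine intervalIntegral.integral_eq_sub_of_hasDerivAt_of_le hLL
    (f := fun x => rtr (Res (Ms k s) (F x) l * F x * (Ms k s)⁻¹)) ?_ ?_ ?_
  · exact continuousOn_rtr ((hR.mul h.hFc).mul continuousOn_const)
  · intro x hx
    exact hasDerivAt_pot (h.hFd x hx) (Ms_posDef hs).isUnit (hu x ⟨hx.1.le, hx.2.le⟩)
  · apply ContinuousOn.intervalIntegrable
    rw [uIcc_of_le hLL]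
    exact continuousOn_rtr ((hR.mul hR).mul h.continuousOn_Fp)

lemma rtr_Fp_integral (h : Path α L k F Z) :
    ∫ x in (-L)..L, rtr (Fp α k F Z x) = rtr (F L) - rtr (F (-L)) := by
  have hLL : -L ≤ L := by linarith [h.hL]
  refine intervalIntegral.integral_eq_sub_of_hasDerivAt_of_le hLL
    (f := fun x => rtr (F x)) (continuousOn_rtr h.hFc) ?_ ?_
  · intro x hx
    exact hasDerivAt_rtr (h.hFd x hx)
  · apply ContinuousOn.intervalIntegrable
    rw [uIcc_of_le hLL]
    exact continuousOn_rtr h.continuousOn_Fp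

end Path

lemma Res_dg {k : n → ℝ} {s : ℝ} (hs : 0 < s) {l : ℝ} (hl : l ∈ Icc (-1 : ℝ) 1) :
    Res (Ms k s) (dg k) l = dg fun i => (Real.sqrt (k i ^ 2 + s) - l * k i)⁻¹ := by
  have hpos : ∀ i, 0 < Real.sqrt (k i ^ 2 + s) - l * k i := by
    intro i
    have h1 : |k i| < Real.sqrt (k i ^ 2 + s) := by
      rw [← sq_abs (k i)]; exact lt_sqrt_add hs
    have h2 : l * k i ≤ |k i| := by
      calc l * k i ≤ |l * k i| := le_abs_self _
        _ = |l| * |k i| := abs_mul _ _
        _ ≤ 1 * |k i| := by gcongr; exact abs_le.2 hl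
        _ = |k i| := one_mul _
    linarith
  unfold Res
  refine Matrix.inv_eq_right_inv ?_
  have : Ms k s - (l : ℂ) • dg k = dg fun i => Real.sqrt (k i ^ 2 + s) - l * k i := by
    rw [Ms, dg, dg, ← Matrix.diagonal_smul, Matrix.diagonal_sub]
    congr 1; ext i; simp
  rw [this, dg_mul_dg, ← dg_one]
  exact congrArg dg (funext fun i => mul_inv_cancel₀ (hpos i).ne')

lemma Res_neg (M F : Matrix n n ℂ) (l : ℝ) : Res M (-F) l = Res M F (-l) := by
  unfold Res; congr 1; simp

lemma integral_endp {k s : ℝ} (hs : 0 < s) :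
    ∫ l in (-1 : ℝ)..1, (Real.sqrt (k ^ 2 + s) - l * k)⁻¹ * k * (Real.sqrt (k ^ 2 + s))⁻¹
      = (Real.sqrt (k ^ 2 + s))⁻¹ *
        Real.log ((Real.sqrt (k ^ 2 + s) + k) / (Real.sqrt (k ^ 2 + s) - k)) := by
  set m := Real.sqrt (k ^ 2 + s) with hm
  have hmk : |k| < m := by rw [hm, ← sq_abs k]; exact lt_sqrt_add hs
  have hpos : ∀ l ∈ Icc (-1 : ℝ) 1, 0 < m - l * k := by
    intro l hl
    have h2 : l * k ≤ |k| := by
      calc l * k ≤ |l * k| := le_abs_self _
        _ = |l| * |k| := abs_mul _ _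
        _ ≤ 1 * |k| := by gcongr; exact abs_le.2 hl
        _ = |k| := one_mul _
    linarith
  have h1 : ∫ l in (-1 : ℝ)..1, (m - l * k)⁻¹ * k * m⁻¹
      = (-(Real.log (m - 1 * k)) * m⁻¹) - (-(Real.log (m - (-1) * k)) * m⁻¹) := by
    refine intervalIntegral.integral_eq_sub_of_hasDerivAt
      (f := fun l => -(Real.log (m - l * k)) * m⁻¹) ?_ ?_
    · intro l hl
      rw [uIcc_of_le (by norm_num)] at hl
      have h2 : HasDerivAt (fun l : ℝ => m - l * k) (-k) l := by
        simpa using ((hasDerivAt_id l).mul_const k).const_sub m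
      have h3 := ((h2.log (hpos l hl).ne').neg).mul_const m⁻¹
      refine h3.congr_deriv ?_
      rw [neg_div, neg_neg, div_eq_mul_inv]; ring
    · apply ContinuousOn.intervalIntegrable
      rw [uIcc_of_le (by norm_num)]
      refine ContinuousOn.mul (ContinuousOn.mul (ContinuousOn.inv₀ (by fun_prop)
        fun l hl => (hpos l hl).ne') continuousOn_const) continuousOn_const
  rw [h1]
  have ha : 0 < m - k := by have := hpos 1 (by norm_num); linarith
  have hb : 0 < m + k := by have := hpos (-1) (by norm_num); linarith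
  rw [Real.log_div hb.ne' ha.ne']
  have e1 : m - 1 * k = m - k := by ring
  have e2 : m - (-1) * k = m + k := by ring
  rw [e1, e2]; ring

theorem Path.T_integral {α L : ℝ} {k : n → ℝ} {F Z : ℝ → Matrix n n ℂ} (h : Path α L k F Z)
    {s : ℝ} (hs : 0 < s) :
    ∫ x in (-L)..L, -(rtr (Path.Fp α k F Z x)
        - s * lamTr (Ms k s) (F x) (Path.Fp α k F Z x))
      = ∑ i, endp (k i) s := by
  have hLL : -L ≤ L := by linarith [h.hL]
  have hFp := h.continuousOn_Fp
  have hlam : ContinuousOn (fun x => lamTr (Ms k s) (F x) (Path.Fp α k F Z x)) (Icc (-L) L) :=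
    continuousOn_lamTr (S := fun _ => s) h.hFc continuousOn_const hFp h.hpt (fun _ _ => hs)
  have i1 : IntervalIntegrable (fun x => rtr (Path.Fp α k F Z x)) volume (-L) L := by
    apply ContinuousOn.intervalIntegrable
    rw [uIcc_of_le hLL]; exact continuousOn_rtr hFp
  have i2 : IntervalIntegrable (fun x => s * lamTr (Ms k s) (F x) (Path.Fp α k F Z x))
      volume (-L) L := by
    apply ContinuousOn.intervalIntegrable
    rw [uIcc_of_le hLL]; exact continuousOn_const.mul hlam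
  rw [intervalIntegral.integral_neg, intervalIntegral.integral_sub i1 i2, h.rtr_Fp_integral,
    intervalIntegral.integral_const_mul]
  have hswap : ∫ x in (-L)..L, lamTr (Ms k s) (F x) (Path.Fp α k F Z x)
      = (1 / 2) * ∫ l in (-1 : ℝ)..1, (rtr (Res (Ms k s) (F L) l * F L * (Ms k s)⁻¹)
        - rtr (Res (Ms k s) (F (-L)) l * F (-L) * (Ms k s)⁻¹)) := by
    unfold lamTr
    rw [intervalIntegral.integral_const_mul]
    congr 1
    rw [integral_swap_box hLL (by norm_num)]
    · refine intervalIntegral.integral_congr fun l hl => ?_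
      rw [uIcc_of_le (by norm_num)] at hl
      exact h.pot_integral hs hl
    · have hR := continuousOn_Res_joint (S := fun _ : ℝ => s) h.hFc continuousOn_const h.hpt
        (fun _ _ => hs)
      have h1 : ContinuousOn (fun q : ℝ × ℝ => Path.Fp α k F Z q.1)
          (Icc (-L) L ×ˢ Icc (-1 : ℝ) 1) :=
        hFp.comp continuous_fst.continuousOn fun q hq => hq.1
      exact continuousOn_rtr ((hR.mul hR).mul h1)
  rw [hswap, h.h0, h.h1]
  have e1 : ∀ l ∈ Icc (-1 : ℝ) 1, rtr (Res (Ms k s) (-dg k) l * (-dg k) * (Ms k s)⁻¹)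
        - rtr (Res (Ms k s) (dg k) l * dg k * (Ms k s)⁻¹)
      = -(∑ i, (Real.sqrt (k i ^ 2 + s) - (-l) * k i)⁻¹ * k i * (Real.sqrt (k i ^ 2 + s))⁻¹)
        - ∑ i, (Real.sqrt (k i ^ 2 + s) - l * k i)⁻¹ * k i * (Real.sqrt (k i ^ 2 + s))⁻¹ := by
    intro l hl
    have hl' : -l ∈ Icc (-1 : ℝ) 1 := ⟨by linarith [hl.2], by linarith [hl.1]⟩
    rw [Res_neg, Res_dg hs hl, Res_dg hs hl', Ms_inv hs, Matrix.mul_neg, Matrix.neg_mul, rtr_neg,
      dg_mul_dg, dg_mul_dg, dg_mul_dg, dg_mul_dg, rtr_dg, rtr_dg]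
  rw [intervalIntegral.integral_congr (fun l hl => e1 l (by rwa [uIcc_of_le (by norm_num)] at hl))]
  have hpos : ∀ i, ∀ l ∈ Icc (-1 : ℝ) 1, 0 < Real.sqrt (k i ^ 2 + s) - l * k i := by
    intro i l hl
    have h1 : |k i| < Real.sqrt (k i ^ 2 + s) := by
      rw [← sq_abs (k i)]; exact lt_sqrt_add hs
    have h2 : l * k i ≤ |k i| := by
      calc l * k i ≤ |l * k i| := le_abs_self _
        _ = |l| * |k i| := abs_mul _ _
        _ ≤ 1 * |k i| := by gcongr; exact abs_le.2 hl
        _ = |k i| := one_mul _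
    linarith
  have c1 : ∀ i, ContinuousOn (fun l : ℝ => (Real.sqrt (k i ^ 2 + s) - l * k i)⁻¹ * k i *
      (Real.sqrt (k i ^ 2 + s))⁻¹) (Icc (-1 : ℝ) 1) := fun i =>
    ContinuousOn.mul (ContinuousOn.mul (ContinuousOn.inv₀ (by fun_prop)
        fun l hl => (hpos i l hl).ne') continuousOn_const) continuousOn_const
  have c2 : ∀ i, ContinuousOn (fun l : ℝ => (Real.sqrt (k i ^ 2 + s) - (-l) * k i)⁻¹ * k i *
      (Real.sqrt (k i ^ 2 + s))⁻¹) (Icc (-1 : ℝ) 1) := fun i =>
    (c1 i).comp (f := fun l => -l) (by fun_prop) fun l hl => ⟨by linarith [hl.2], by linarith [hl.1]⟩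
  have ii : ∀ {f : ℝ → ℝ}, ContinuousOn f (Icc (-1 : ℝ) 1) → IntervalIntegrable f volume (-1) 1 := by
    intro f hf
    apply ContinuousOn.intervalIntegrable
    rwa [uIcc_of_le (by norm_num)]
  have v1 : ∀ i, ∫ l in (-1 : ℝ)..1, (Real.sqrt (k i ^ 2 + s) - (-l) * k i)⁻¹ * k i *
      (Real.sqrt (k i ^ 2 + s))⁻¹ = (Real.sqrt (k i ^ 2 + s))⁻¹ *
        Real.log ((Real.sqrt (k i ^ 2 + s) + k i) / (Real.sqrt (k i ^ 2 + s) - k i)) := by
    intro i
    rw [intervalIntegral.integral_comp_neg (fun l : ℝ => (Real.sqrt (k i ^ 2 + s) - l * k i)⁻¹ * k i *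
      (Real.sqrt (k i ^ 2 + s))⁻¹), neg_neg, integral_endp hs]
  rw [intervalIntegral.integral_sub, intervalIntegral.integral_neg,
    intervalIntegral.integral_finsetSum, intervalIntegral.integral_finsetSum]
  · simp only [v1, integral_endp hs]
    unfold endp
    rw [rtr_neg, rtr_dg, Finset.sum_sub_distrib, ← Finset.mul_sum]
    have : ∑ i, s / Real.sqrt (k i ^ 2 + s) *
        Real.log ((Real.sqrt (k i ^ 2 + s) + k i) / (Real.sqrt (k i ^ 2 + s) - k i))
        = s * ∑ i, (Real.sqrt (k i ^ 2 + s))⁻¹ *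
        Real.log ((Real.sqrt (k i ^ 2 + s) + k i) / (Real.sqrt (k i ^ 2 + s) - k i)) := by
      rw [Finset.mul_sum]
      refine Finset.sum_congr rfl fun i _ => ?_
      rw [div_eq_mul_inv]; ring
    rw [this]; ring
  · exact fun i _ => ii (c1 i)
  · exact fun i _ => ii (c2 i)
  · exact ii (continuousOn_finsetSum _ fun i _ => c2 i).neg
  · exact ii (continuousOn_finsetSum _ fun i _ => c1 i)

end Crest.Agent.R332.Chan
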