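import Crest.Agent.R332.TrBasic
import Crest.Agent.R332.ChanPS

-- ▼ part R332/CoerIHS
section

/-! # Row 332, module (F1): dimension-free coercivity, part 1 (Hilbert–Schmidt toolbox) -/

set_option autoImplicit false
set_option linter.unusedSectionVars false

namespace Crest.Agent.R332.CoerI

open Matrix MeasureTheory
open scoped ComplexOrder

variable {n : Type*} [Fintype n] [DecidableEq n]
variable {m : Type*} [Fintype m] [DecidableEq m]

/-- Hilbert–Schmidt norm squared. -/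
noncomputable def hs (A : Matrix n m ℂ) : ℝ := ∑ i, ∑ j, Complex.normSq (A i j)

lemma hs_nonneg (A : Matrix n m ℂ) : 0 ≤ hs A :=
  Finset.sum_nonneg fun _ _ => Finset.sum_nonneg fun _ _ => Complex.normSq_nonneg _

lemma hs_eq_rtr (A : Matrix n m ℂ) : hs A = rtr (A * Aᴴ) := by
  simp only [hs, rtr, Matrix.trace, Matrix.diag_apply, Complex.re_sum, Matrix.mul_apply,
    Matrix.conjTranspose_apply]
  refine Finset.sum_congr rfl fun i _ => Finset.sum_congr rfl fun j _ => ?_
  rw [Complex.star_def, Complex.mul_conj, Complex.ofReal_re]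

lemma hs_eq_rtr' (A : Matrix n m ℂ) : hs A = rtr (Aᴴ * A) := by
  rw [hs_eq_rtr, rtr_mul_comm]

lemma hs_conjTranspose (A : Matrix n m ℂ) : hs Aᴴ = hs A := by
  rw [hs_eq_rtr', hs_eq_rtr, conjTranspose_conjTranspose]


lemma hs_neg (A : Matrix n m ℂ) : hs (-A) = hs A := by
  simp [hs]

lemma normSq_add_le (z w : ℂ) : Complex.normSq (z + w) ≤ 2 * Complex.normSq z + 2 * Complex.normSq w := by
  simp only [Complex.normSq_apply, Complex.add_re, Complex.add_im]
  nlinarith [sq_nonneg (z.re - w.re), sq_nonneg (z.im - w.im)]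

lemma hs_add_le (A B : Matrix n m ℂ) : hs (A + B) ≤ 2 * hs A + 2 * hs B := by
  simp only [hs, Finset.mul_sum, ← Finset.sum_add_distrib, Matrix.add_apply]
  exact Finset.sum_le_sum fun i _ => Finset.sum_le_sum fun j _ => normSq_add_le _ _

lemma hs_sub_le (A B : Matrix n m ℂ) : hs (A - B) ≤ 2 * hs A + 2 * hs B := by
  rw [sub_eq_add_neg]
  exact (hs_add_le _ _).trans (by rw [hs_neg])

lemma rtr_nonneg {A : Matrix n n ℂ} (hA : A.PosSemidef) : 0 ≤ rtr A := by
  have := hA.trace_nonneg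
  rw [Complex.le_def] at this
  exact this.1

/-- `OB A c`: the operator norm of `A` is at most `c` (in the sense `A* A ≤ c²`). -/
def OB (A : Matrix n n ℂ) (c : ℝ) : Prop := (((c ^ 2 : ℝ)) • (1 : Matrix n n ℂ) - Aᴴ * A).PosSemidef

lemma OB.hs_mul_le {A : Matrix n n ℂ} {c : ℝ} (h : OB A c) (B : Matrix n n ℂ) :
    hs (A * B) ≤ c ^ 2 * hs B := by
  have h1 := rtr_nonneg (h.conjTranspose_mul_mul_same B)
  have h2 : Bᴴ * (((c ^ 2 : ℝ)) • (1 : Matrix n n ℂ) - Aᴴ * A) * B =
      (c ^ 2 : ℝ) • (Bᴴ * B) - (A * B)ᴴ * (A * B) := by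
    rw [Matrix.conjTranspose_mul, Matrix.mul_sub, Matrix.sub_mul, Matrix.mul_smul, Matrix.mul_one,
      Matrix.smul_mul]
    simp only [Matrix.mul_assoc]
  rw [h2, rtr_sub, rtr_smul, ← hs_eq_rtr', ← hs_eq_rtr'] at h1
  linarith

lemma OB.mul {A B : Matrix n n ℂ} {a b : ℝ} (hA : OB A a) (hB : OB B b) : OB (A * B) (a * b) := by
  unfold OB at *
  have h1 := hA.conjTranspose_mul_mul_same B
  have h2 : (0:ℝ) ≤ a ^ 2 := sq_nonneg a
  have h3 : (((a * b) ^ 2 : ℝ)) • (1 : Matrix n n ℂ) - (A * B)ᴴ * (A * B) =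
      Bᴴ * (((a ^ 2 : ℝ)) • (1 : Matrix n n ℂ) - Aᴴ * A) * B +
      (a ^ 2 : ℝ) • (((b ^ 2 : ℝ)) • (1 : Matrix n n ℂ) - Bᴴ * B) := by
    rw [Matrix.conjTranspose_mul, Matrix.mul_sub, Matrix.sub_mul, Matrix.mul_smul, Matrix.mul_one,
      Matrix.smul_mul, smul_sub, smul_smul, mul_pow]
    simp only [Matrix.mul_assoc]
    abel
  rw [h3]
  exact h1.add (hB.smul h2)

lemma OB.hs_mul_right_le {A : Matrix n n ℂ} {c : ℝ} (h : OB Aᴴ c) (B : Matrix n n ℂ) :
    hs (B * A) ≤ c ^ 2 * hs B := by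
  rw [← hs_conjTranspose, Matrix.conjTranspose_mul]
  exact (h.hs_mul_le Bᴴ).trans (by rw [hs_conjTranspose])

lemma OB.hs_mul_right_le' {A : Matrix n n ℂ} {c : ℝ} (h : OB A c) (hA : A.IsHermitian)
    (B : Matrix n n ℂ) : hs (B * A) ≤ c ^ 2 * hs B :=
  OB.hs_mul_right_le (by rw [hA.eq]; exact h) B

lemma OB.neg {A : Matrix n n ℂ} {c : ℝ} (h : OB A c) : OB (-A) c := by
  unfold OB at *
  rwa [Matrix.conjTranspose_neg, neg_mul_neg]

lemma OB.of_le {A : Matrix n n ℂ} (hA : A.IsHermitian) {c : ℝ} (hc : 0 < c)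
    (h1 : (c • (1 : Matrix n n ℂ) - A).PosSemidef) (h2 : (c • (1 : Matrix n n ℂ) + A).PosSemidef) :
    OB A c := by
  unfold OB
  rw [hA.eq]
  have e1 := h1.mul_mul_conjTranspose_same (c • (1 : Matrix n n ℂ) + A)
  have e2 := h2.mul_mul_conjTranspose_same (c • (1 : Matrix n n ℂ) - A)
  have e3 := (e1.add e2).smul (show (0:ℝ) ≤ (2 * c)⁻¹ by positivity)
  have e4 : (c ^ 2 : ℝ) • (1 : Matrix n n ℂ) - A * A = (2 * c)⁻¹ •
      ((c • (1 : Matrix n n ℂ) + A) * (c • (1 : Matrix n n ℂ) - A) * (c • (1 : Matrix n n ℂ) + A)ᴴ +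
      (c • (1 : Matrix n n ℂ) - A) * (c • (1 : Matrix n n ℂ) + A) *
        (c • (1 : Matrix n n ℂ) - A)ᴴ) := by
    have h3 : (c • (1 : Matrix n n ℂ) + A)ᴴ = c • (1 : Matrix n n ℂ) + A := by
      rw [Matrix.conjTranspose_add, Matrix.conjTranspose_smul, hA.eq]; simp
    have h4 : (c • (1 : Matrix n n ℂ) - A)ᴴ = c • (1 : Matrix n n ℂ) - A := by
      rw [Matrix.conjTranspose_sub, Matrix.conjTranspose_smul, hA.eq]; simp
    rw [h3, h4]
    simp only [Matrix.mul_add, Matrix.add_mul, Matrix.mul_sub, Matrix.sub_mul, Matrix.smul_mul,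
      Matrix.mul_smul, Matrix.one_mul, Matrix.mul_one, smul_add, smul_sub, smul_smul, mul_assoc]
    match_scalars <;> field_simp <;> ring
  rw [e4]
  exact e3

lemma posDef_of_ge {B : Matrix n n ℂ} {d : ℝ} (hd : 0 < d)
    (h : (B - d • (1 : Matrix n n ℂ)).PosSemidef) : B.PosDef := by
  have h1 : (d • (1 : Matrix n n ℂ)).PosDef := PosDef.one.smul hd
  have := h1.add_posSemidef h
  simpa using this

lemma OB_inv {B : Matrix n n ℂ} {d : ℝ} (hd : 0 < d)
    (h : (B - d • (1 : Matrix n n ℂ)).PosSemidef) : OB B⁻¹ d⁻¹ := by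
  have hB := posDef_of_ge hd h
  have hBu : IsUnit B.det := by
    rw [← Matrix.isUnit_iff_isUnit_det]; exact hB.isUnit
  have hBi : (B⁻¹)ᴴ = B⁻¹ := hB.inv.isHermitian.eq
  unfold OB
  rw [hBi]
  have e1 : (B - d • (1 : Matrix n n ℂ))ᴴ = B - d • (1 : Matrix n n ℂ) := h.isHermitian.eq
  have e2 : (B * B - (d ^ 2) • (1 : Matrix n n ℂ)).PosSemidef := by
    have h1 := (posSemidef_conjTranspose_mul_self (B - d • (1 : Matrix n n ℂ))).add
      (h.smul (show (0:ℝ) ≤ 2 * d by positivity))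
    rw [e1] at h1
    convert h1 using 1
    simp only [Matrix.mul_sub, Matrix.sub_mul, Matrix.smul_mul,
      Matrix.mul_smul, Matrix.one_mul, Matrix.mul_one, smul_sub, smul_smul]
    match_scalars <;> ring
  have e3 := (e2.mul_mul_conjTranspose_same B⁻¹).smul (show (0:ℝ) ≤ (d⁻¹)^2 by positivity)
  have e4 : (d⁻¹ ^ 2) • (1 : Matrix n n ℂ) - B⁻¹ * B⁻¹ =
      d⁻¹ ^ 2 • (B⁻¹ * (B * B - d ^ 2 • (1 : Matrix n n ℂ)) * B⁻¹ᴴ) := by
    rw [hBi, Matrix.mul_sub, Matrix.sub_mul, Matrix.mul_smul, Matrix.smul_mul, Matrix.mul_one,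
      smul_sub, smul_smul]
    have e5 : B⁻¹ * (B * B) * B⁻¹ = 1 := by
      rw [← Matrix.mul_assoc, Matrix.nonsing_inv_mul _ hBu, Matrix.one_mul,
        Matrix.mul_nonsing_inv _ hBu]
    rw [e5]
    have : d⁻¹ ^ 2 * d ^ 2 = 1 := by field_simp
    rw [this, one_smul]
  rw [e4]
  exact e3

lemma scalar_coer {t : ℝ} (ht : 0 < t) : (t - 1) ^ 2 ≤ 2 * (1 + t) * (t - 1 - Real.log t) := by
  set u := Real.sqrt t with hu
  have hu0 : 0 < u := Real.sqrt_pos.mpr ht
  have hut : u ^ 2 = t := Real.sq_sqrt ht.le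
  have h1 : Real.log t = 2 * Real.log u := by
    rw [← hut, Real.log_pow]; norm_num
  have h2 : Real.log u ≤ u - 1 := Real.log_le_sub_one_of_pos hu0
  have h3 : (u - 1) ^ 2 ≤ t - 1 - Real.log t := by rw [h1, ← hut]; nlinarith
  have h4 : (t - 1) ^ 2 = (u + 1) ^ 2 * (u - 1) ^ 2 := by rw [← hut]; ring
  have h5 : (u + 1) ^ 2 ≤ 2 * (1 + t) := by rw [← hut]; nlinarith [sq_nonneg (u - 1)]
  rw [h4]
  exact mul_le_mul h5 h3 (sq_nonneg _) (by positivity)

lemma det_re_eq_prod {A : Matrix n n ℂ} (hA : A.IsHermitian) :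
    A.det.re = ∏ i, hA.eigenvalues i := by
  rw [hA.det_eq_prod_eigenvalues]
  rw [← Complex.ofReal_re (∏ i, hA.eigenvalues i)]
  congr 1
  push_cast
  rfl

lemma log_det_re {A : Matrix n n ℂ} (hA : A.PosDef) :
    Real.log A.det.re = ∑ i, Real.log (hA.isHermitian.eigenvalues i) := by
  rw [det_re_eq_prod hA.isHermitian, Real.log_prod]
  intro i _
  exact (hA.eigenvalues_pos i).ne'

lemma cfc_id_mat {A : Matrix n n ℂ} (hA : A.IsHermitian) : cfc (fun x : ℝ => x) A = A := by
  rw [cfc_eq_conj hA]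
  exact (eq_conj hA).symm

lemma cfc_const_mat {A : Matrix n n ℂ} (hA : A.IsHermitian) (c : ℝ) :
    cfc (fun _ : ℝ => c) A = c • (1 : Matrix n n ℂ) := by
  rw [cfc_eq_conj hA]
  have : diagonal (fun _ : n => ((c : ℝ) : ℂ)) = c • (1 : Matrix n n ℂ) := by
    ext i j
    by_cases hij : i = j
    · subst hij; simp
    · simp [hij]
  rw [this, Matrix.mul_smul, Matrix.mul_one, Matrix.smul_mul, unitary_mul_conj]

lemma rtr_eq_sum {A : Matrix n n ℂ} (hA : A.IsHermitian) : rtr A = ∑ i, hA.eigenvalues i := by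
  have h := rtr_cfc hA (fun x => x)
  rwa [cfc_id_mat hA] at h

lemma eig_le {A : Matrix n n ℂ} (hA : A.IsHermitian) {c : ℝ}
    (h : (c • (1 : Matrix n n ℂ) - A).PosSemidef) (i : n) : hA.eigenvalues i ≤ c := by
  have h1 := h.conjTranspose_mul_mul_same (hA.eigenvectorUnitary : Matrix n n ℂ)
  have h2 : (hA.eigenvectorUnitary : Matrix n n ℂ)ᴴ * (c • (1 : Matrix n n ℂ) - A) *
      (hA.eigenvectorUnitary : Matrix n n ℂ) =
      diagonal (fun i => ((c - hA.eigenvalues i : ℝ) : ℂ)) := by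
    rw [Matrix.mul_sub, Matrix.sub_mul, Matrix.mul_smul, Matrix.mul_one, Matrix.smul_mul,
      unitary_conj_mul]
    have h3 : (hA.eigenvectorUnitary : Matrix n n ℂ)ᴴ * A *
        (hA.eigenvectorUnitary : Matrix n n ℂ) =
        diagonal (fun i => ((hA.eigenvalues i : ℝ) : ℂ)) := by
      have h4 : (hA.eigenvectorUnitary : Matrix n n ℂ)ᴴ *
        ((hA.eigenvectorUnitary : Matrix n n ℂ) *
          diagonal (fun i => ((hA.eigenvalues i : ℝ) : ℂ)) *
          (hA.eigenvectorUnitary : Matrix n n ℂ)ᴴ) * (hA.eigenvectorUnitary : Matrix n n ℂ) =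
        diagonal (fun i => ((hA.eigenvalues i : ℝ) : ℂ)) := by
        rw [← Matrix.mul_assoc, ← Matrix.mul_assoc, unitary_conj_mul, Matrix.one_mul,
          Matrix.mul_assoc, unitary_conj_mul, Matrix.mul_one]
      rwa [← eq_conj hA] at h4
    rw [h3]
    ext i j
    by_cases hij : i = j
    · subst hij; simp
    · simp [hij]
  rw [h2] at h1
  have h3 := h1.diag_nonneg (i := i)
  rw [Matrix.diagonal_apply_eq] at h3
  have h4 : (0:ℝ) ≤ c - hA.eigenvalues i := by exact_mod_cast h3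
  linarith

lemma trace_log_coer {T : Matrix n n ℂ} (hT : T.PosDef) {τ : ℝ}
    (hτ : (τ • (1 : Matrix n n ℂ) - T).PosSemidef) :
    hs (T - 1) ≤ 2 * (1 + τ) * (rtr T - Fintype.card n - Real.log T.det.re) := by
  have hH := hT.isHermitian
  have h1 : hs (T - 1) = ∑ i, (hH.eigenvalues i - 1) ^ 2 := by
    rw [← rtr_cfc hH (fun t => (t - 1) ^ 2)]
    have e1 : (T - 1)ᴴ = T - 1 := by rw [Matrix.conjTranspose_sub, hH.eq]; simp
    rw [hs_eq_rtr, e1]
    congr 1
    have e2 : (fun t : ℝ => (t - 1) ^ 2) = fun t => (t - 1) * (t - 1) := by ext t; ring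
    rw [e2, cfc_mul']
    have e3 : cfc (fun t : ℝ => t - 1) T = T - 1 := by
      have := cfc_sub (R := ℝ) (fun t : ℝ => t) (fun _ => 1) T (contOn_spec _) (contOn_spec _)
      rw [this, cfc_id_mat hH, cfc_const_mat hH, one_smul]
    rw [e3]
  have h2 : rtr T - Fintype.card n - Real.log T.det.re =
      ∑ i, (hH.eigenvalues i - 1 - Real.log (hH.eigenvalues i)) := by
    rw [log_det_re hT, rtr_eq_sum hH]
    simp [Finset.sum_sub_distrib]
  rw [h1, h2, Finset.mul_sum]
  refine Finset.sum_le_sum fun i _ => ?_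
  have hp := hT.eigenvalues_pos i
  have hle := eig_le hH hτ i
  have h3 := scalar_coer hp
  have h4 : 0 ≤ hH.eigenvalues i - 1 - Real.log (hH.eigenvalues i) := by
    have := Real.log_le_sub_one_of_pos hp
    linarith
  refine h3.trans (mul_le_mul_of_nonneg_right ?_ h4)
  linarith

lemma det_ofReal_re {A : Matrix n n ℂ} (hA : A.IsHermitian) : A.det = ((A.det.re : ℝ) : ℂ) := by
  rw [det_re_eq_prod hA, hA.det_eq_prod_eigenvalues]
  push_cast
  rfl

lemma det_re_pos {A : Matrix n n ℂ} (hA : A.PosDef) : 0 < A.det.re := by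
  rw [det_re_eq_prod hA.isHermitian]
  exact Finset.prod_pos fun i _ => hA.eigenvalues_pos i

lemma klein_coer {Λ X : Matrix n n ℂ} (hΛ : Λ.PosDef) (hX : X.PosDef) {a b ξ : ℝ} (ha : 0 < a)
    (hξ : 0 ≤ ξ) (h1 : (Λ - a • (1 : Matrix n n ℂ)).PosSemidef)
    (h2 : (b • (1 : Matrix n n ℂ) - Λ).PosSemidef)
    (h3 : (ξ • (1 : Matrix n n ℂ) - X).PosSemidef) :
    hs (X - Λ⁻¹) ≤ (a⁻¹) ^ 2 * (2 * (1 + ξ * b)) *
      (rtr (Λ * X) - Fintype.card n - Real.log X.det.re - Real.log Λ.det.re) := by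
  set G := mpow Λ (1 / 2) with hG
  have hGp : G.PosDef := mpow_posDef hΛ _
  have hGH : Gᴴ = G := hGp.isHermitian.eq
  have hGG : G * G = Λ := by
    rw [hG, mpow, ← cfc_mul']
    conv_rhs => rw [← cfc_id_mat hΛ.isHermitian]
    refine cfc_congr_eig hΛ.isHermitian fun i => ?_
    have := hΛ.eigenvalues_pos i
    rw [← Real.rpow_add this]
    norm_num
  have hGu : IsUnit G.det := by
    rw [← Matrix.isUnit_iff_isUnit_det]; exact hGp.isUnit
  have hGiH : (G⁻¹)ᴴ = G⁻¹ := hGp.inv.isHermitian.eq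
  have hΛi : Λ⁻¹ = G⁻¹ * G⁻¹ := by rw [← hGG, Matrix.mul_inv_rev]
  set T := G * X * G with hT
  have hTp : T.PosDef := by
    have := hX.mul_mul_conjTranspose_same (B := G) ?_
    · rwa [hGH] at this
    · exact Matrix.vecMul_injective_iff_isUnit.mpr hGp.isUnit
  have hTle : ((ξ * b) • (1 : Matrix n n ℂ) - T).PosSemidef := by
    have e1 := h3.mul_mul_conjTranspose_same G
    have e2 := h2.smul hξ
    have e3 := e1.add e2
    rw [hGH] at e3
    convert e3 using 1
    rw [Matrix.mul_sub, Matrix.sub_mul, Matrix.mul_smul, Matrix.smul_mul, Matrix.mul_one, hGG,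
      smul_sub, smul_smul, hT]
    abel
  have hrT : rtr T = rtr (Λ * X) := by
    rw [hT, rtr_mul_comm, ← Matrix.mul_assoc, hGG]
  have hdT : Real.log T.det.re = Real.log X.det.re + Real.log Λ.det.re := by
    have e1 : T.det = X.det * Λ.det := by
      rw [hT, ← hGG, Matrix.det_mul, Matrix.det_mul, Matrix.det_mul]; ring
    rw [e1, det_ofReal_re hX.isHermitian, det_ofReal_re hΛ.isHermitian, ← Complex.ofReal_mul,
      Complex.ofReal_re, Complex.ofReal_re, Complex.ofReal_re,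
      Real.log_mul (det_re_pos hX).ne' (det_re_pos hΛ).ne']
  have hc := trace_log_coer hTp hTle
  have hai : 0 < a⁻¹ := inv_pos.mpr ha
  have hOB : OB G⁻¹ (Real.sqrt a⁻¹) := by
    unfold OB
    rw [Real.sq_sqrt hai.le, hGiH]
    have e1 := (h1.mul_mul_conjTranspose_same G⁻¹).smul hai.le
    rw [hGiH] at e1
    convert e1 using 1
    rw [Matrix.mul_sub, Matrix.sub_mul, Matrix.mul_smul, Matrix.smul_mul, Matrix.mul_one,
      smul_sub, smul_smul, inv_mul_cancel₀ ha.ne', one_smul]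
    congr 2
    rw [← hGG, ← Matrix.mul_assoc, Matrix.nonsing_inv_mul _ hGu, Matrix.one_mul,
      Matrix.mul_nonsing_inv _ hGu]
  have hX' : X - Λ⁻¹ = G⁻¹ * ((T - 1) * G⁻¹) := by
    rw [hT, hΛi, Matrix.sub_mul, Matrix.one_mul, Matrix.mul_sub]
    congr 1
    rw [Matrix.mul_assoc, Matrix.mul_assoc, Matrix.mul_nonsing_inv _ hGu,
      Matrix.mul_one, ← Matrix.mul_assoc, Matrix.nonsing_inv_mul _ hGu, Matrix.one_mul]
  rw [hX']
  have h4 := hOB.hs_mul_le ((T - 1) * G⁻¹)
  have h5 := hOB.hs_mul_right_le' hGp.inv.isHermitian (T - 1)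
  rw [Real.sq_sqrt hai.le] at h4 h5
  rw [hrT, hdT] at hc
  calc hs (G⁻¹ * ((T - 1) * G⁻¹)) ≤ a⁻¹ * (a⁻¹ * hs (T - 1)) :=
        h4.trans (mul_le_mul_of_nonneg_left h5 hai.le)
    _ = a⁻¹ ^ 2 * hs (T - 1) := by ring
    _ ≤ a⁻¹ ^ 2 * (2 * (1 + ξ * b) * (rtr (Λ * X) - Fintype.card n -
          (Real.log X.det.re + Real.log Λ.det.re))) :=
        mul_le_mul_of_nonneg_left hc (sq_nonneg _)
    _ = _ := by ring

end Crest.Agent.R332.CoerI
end

-- ▼ part R332/CoerIAvg
section

/-! # Row 332, module (F1): averages over `l ∈ [-1,1]` of matrix functions -/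

set_option autoImplicit false
set_option linter.unusedSectionVars false

namespace Crest.Agent.R332.CoerI

open Matrix MeasureTheory Set
open scoped ComplexOrder Interval

variable {n : Type*} [Fintype n] [DecidableEq n]

/-- Entrywise average over `[-1,1]`. -/
noncomputable def mavg (A : ℝ → Matrix n n ℂ) : Matrix n n ℂ :=
  Matrix.of fun i j => (1 / 2 : ℂ) * ∫ l in (-1 : ℝ)..1, A l i j

lemma mavg_apply (A : ℝ → Matrix n n ℂ) (i j : n) :
    mavg A i j = (1 / 2 : ℂ) * ∫ l in (-1 : ℝ)..1, A l i j := rfl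

lemma entry_contOn {A : ℝ → Matrix n n ℂ} (hA : ContinuousOn A (Icc (-1) 1)) (i j : n) :
    ContinuousOn (fun l => A l i j) (Icc (-1) 1) := by
  have h : Continuous fun B : Matrix n n ℂ => B i j := continuous_id.matrix_elem i j
  exact h.comp_continuousOn hA

lemma entry_intble {A : ℝ → Matrix n n ℂ} (hA : ContinuousOn A (Icc (-1) 1)) (i j : n) :
    IntervalIntegrable (fun l => A l i j) volume (-1) 1 := by
  apply ContinuousOn.intervalIntegrable
  rw [uIcc_of_le (by norm_num)]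
  exact entry_contOn hA i j

lemma rtr_contOn {A : ℝ → Matrix n n ℂ} (hA : ContinuousOn A (Icc (-1) 1)) :
    ContinuousOn (fun l => rtr (A l)) (Icc (-1) 1) := by
  have h : Continuous fun B : Matrix n n ℂ => rtr B :=
    Complex.continuous_re.comp continuous_id.matrix_trace
  exact h.comp_continuousOn hA


lemma mavg_const (C : Matrix n n ℂ) : mavg (fun _ => C) = C := by
  ext i j
  rw [mavg_apply, intervalIntegral.integral_const]
  simp
  ring

lemma mavg_sub {A B : ℝ → Matrix n n ℂ} (hA : ContinuousOn A (Icc (-1) 1))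
    (hB : ContinuousOn B (Icc (-1) 1)) : mavg (fun l => A l - B l) = mavg A - mavg B := by
  ext i j
  rw [Matrix.sub_apply, mavg_apply, mavg_apply, mavg_apply, ← mul_sub,
    ← intervalIntegral.integral_sub (entry_intble hA i j) (entry_intble hB i j)]
  rfl

lemma mavg_mul_right {A : ℝ → Matrix n n ℂ} (hA : ContinuousOn A (Icc (-1) 1))
    (X : Matrix n n ℂ) : mavg (fun l => A l * X) = mavg A * X := by
  ext i j
  rw [mavg_apply, Matrix.mul_apply]
  simp only [Matrix.mul_apply, mavg_apply]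
  rw [intervalIntegral.integral_finsetSum]
  · rw [Finset.mul_sum]
    refine Finset.sum_congr rfl fun k _ => ?_
    rw [intervalIntegral.integral_mul_const, mul_assoc]
  · intro k _
    exact (entry_intble hA i k).mul_const _

lemma rtr_mavg {A : ℝ → Matrix n n ℂ} (hA : ContinuousOn A (Icc (-1) 1)) :
    rtr (mavg A) = (1 / 2) * ∫ l in (-1 : ℝ)..1, rtr (A l) := by
  simp only [rtr, Matrix.trace, Matrix.diag_apply, mavg_apply, Complex.re_sum]
  rw [intervalIntegral.integral_finsetSum]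
  · rw [Finset.mul_sum]
    refine Finset.sum_congr rfl fun k _ => ?_
    have h1 : (∫ l in (-1 : ℝ)..1, (A l k k).re) = (∫ l in (-1 : ℝ)..1, A l k k).re := by
      exact (Complex.reCLM.intervalIntegral_comp_comm (entry_intble hA k k))
    rw [h1]
    have : (1 / 2 : ℂ) = ((1 / 2 : ℝ) : ℂ) := by push_cast; ring
    rw [this, Complex.re_ofReal_mul]
  · intro k _
    apply ContinuousOn.intervalIntegrable
    rw [uIcc_of_le (by norm_num)]
    exact Complex.continuous_re.comp_continuousOn (entry_contOn hA k k)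

lemma normSq_avg_le {f : ℝ → ℂ} (hf : ContinuousOn f (Icc (-1) 1)) :
    Complex.normSq ((1 / 2 : ℂ) * ∫ l in (-1 : ℝ)..1, f l) ≤
      (1 / 2) * ∫ l in (-1 : ℝ)..1, Complex.normSq (f l) := by
  set c : ℂ := (1 / 2 : ℂ) * ∫ l in (-1 : ℝ)..1, f l with hc
  have hfi : IntervalIntegrable f volume (-1) 1 := by
    apply ContinuousOn.intervalIntegrable
    rwa [uIcc_of_le (by norm_num)]
  have hf2 : IntervalIntegrable (fun l => Complex.normSq (f l)) volume (-1) 1 := by
    apply ContinuousOn.intervalIntegrable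
    rw [uIcc_of_le (by norm_num)]
    exact Complex.continuous_normSq.comp_continuousOn hf
  have hfc : IntervalIntegrable (fun l => (f l * (starRingEnd ℂ) c).re) volume (-1) 1 := by
    apply ContinuousOn.intervalIntegrable
    rw [uIcc_of_le (by norm_num)]
    exact Complex.continuous_re.comp_continuousOn (hf.mul continuousOn_const)
  have h0 : 0 ≤ ∫ l in (-1 : ℝ)..1, Complex.normSq (f l - c) :=
    intervalIntegral.integral_nonneg (by norm_num) fun _ _ => Complex.normSq_nonneg _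
  have h1 : (fun l => Complex.normSq (f l - c)) = fun l =>
      Complex.normSq (f l) + Complex.normSq c - 2 * (f l * (starRingEnd ℂ) c).re := by
    ext l; rw [Complex.normSq_sub]
  rw [h1, intervalIntegral.integral_sub (hf2.add (by simp)) (hfc.const_mul 2),
    intervalIntegral.integral_add hf2 (by simp), intervalIntegral.integral_const_mul] at h0
  have h2 : (∫ l in (-1 : ℝ)..1, (f l * (starRingEnd ℂ) c).re) = 2 * Complex.normSq c := by
    have e1 : (∫ l in (-1 : ℝ)..1, (f l * (starRingEnd ℂ) c).re) =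
        (∫ l in (-1 : ℝ)..1, (f l * (starRingEnd ℂ) c)).re :=
      Complex.reCLM.intervalIntegral_comp_comm (hfi.mul_const _)
    rw [e1, intervalIntegral.integral_mul_const]
    have e2 : (∫ l in (-1 : ℝ)..1, f l) = 2 * c := by rw [hc]; ring
    rw [e2, mul_assoc, Complex.mul_conj]
    simp
  rw [h2] at h0
  simp at h0
  linarith

lemma hs_mavg_le {A : ℝ → Matrix n n ℂ} (hA : ContinuousOn A (Icc (-1) 1)) :
    hs (mavg A) ≤ (1 / 2) * ∫ l in (-1 : ℝ)..1, hs (A l) := by
  have hc : ∀ i j, IntervalIntegrable (fun l => Complex.normSq (A l i j)) volume (-1) 1 := by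
    intro i j
    apply ContinuousOn.intervalIntegrable
    rw [uIcc_of_le (by norm_num)]
    exact Complex.continuous_normSq.comp_continuousOn (entry_contOn hA i j)
  simp only [hs]
  rw [intervalIntegral.integral_finsetSum]
  · rw [Finset.mul_sum]
    refine Finset.sum_le_sum fun i _ => ?_
    rw [intervalIntegral.integral_finsetSum]
    · rw [Finset.mul_sum]
      refine Finset.sum_le_sum fun j _ => ?_
      exact normSq_avg_le (entry_contOn hA i j)
    · intro j _; exact hc i j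
  · intro i _
    apply ContinuousOn.intervalIntegrable
    rw [uIcc_of_le (by norm_num)]
    exact continuousOn_finsetSum _ fun j _ =>
      Complex.continuous_normSq.comp_continuousOn (entry_contOn hA i j)

lemma mavg_isHermitian {A : ℝ → Matrix n n ℂ} (hA : ContinuousOn A (Icc (-1) 1))
    (h : ∀ l ∈ Icc (-1 : ℝ) 1, (A l).IsHermitian) : (mavg A).IsHermitian := by
  ext i j
  rw [Matrix.conjTranspose_apply, mavg_apply, mavg_apply, star_mul', Complex.star_def]
  have h1 : (starRingEnd ℂ) (1 / 2 : ℂ) = 1 / 2 := by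
    rw [map_div₀, map_one, Complex.conj_ofNat]
  rw [h1]
  congr 1
  have h2 : (starRingEnd ℂ) (∫ l in (-1 : ℝ)..1, A l j i) =
      ∫ l in (-1 : ℝ)..1, (starRingEnd ℂ) (A l j i) :=
    (Complex.conjCLE.toContinuousLinearMap.intervalIntegral_comp_comm (entry_intble hA j i)).symm
  rw [h2]
  apply intervalIntegral.integral_congr
  intro l hl
  rw [uIcc_of_le (by norm_num)] at hl
  exact (h l hl).apply i j

lemma dot_mavg {A : ℝ → Matrix n n ℂ} (hA : ContinuousOn A (Icc (-1) 1)) (v w : n → ℂ) :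
    v ⬝ᵥ (mavg A *ᵥ w) = (1 / 2 : ℂ) * ∫ l in (-1 : ℝ)..1, v ⬝ᵥ (A l *ᵥ w) := by
  simp only [dotProduct, Matrix.mulVec, mavg_apply]
  rw [intervalIntegral.integral_finsetSum]
  · rw [Finset.mul_sum]
    refine Finset.sum_congr rfl fun i _ => ?_
    rw [intervalIntegral.integral_const_mul, intervalIntegral.integral_finsetSum]
    · simp only [intervalIntegral.integral_mul_const, Finset.mul_sum]
      refine Finset.sum_congr rfl fun j _ => ?_
      ring
    · intro j _
      exact (entry_intble hA i j).mul_const (w j)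
  · intro i _
    apply IntervalIntegrable.const_mul
    apply ContinuousOn.intervalIntegrable
    rw [uIcc_of_le (by norm_num)]
    exact continuousOn_finsetSum _ fun j _ => (entry_contOn hA i j).mul continuousOn_const

lemma mavg_posSemidef {A : ℝ → Matrix n n ℂ} (hA : ContinuousOn A (Icc (-1) 1))
    (h : ∀ l ∈ Icc (-1 : ℝ) 1, (A l).PosSemidef) : (mavg A).PosSemidef := by
  refine Matrix.PosSemidef.of_dotProduct_mulVec_nonneg
    (mavg_isHermitian hA fun l hl => (h l hl).isHermitian) fun v => ?_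
  rw [dot_mavg hA]
  have hcont : ContinuousOn (fun l => star v ⬝ᵥ (A l *ᵥ v)) (Icc (-1) 1) := by
    have : Continuous fun B : Matrix n n ℂ => star v ⬝ᵥ (B *ᵥ v) := by
      exact Continuous.dotProduct continuous_const
        (Continuous.matrix_mulVec continuous_id continuous_const)
    exact this.comp_continuousOn hA
  have hint : IntervalIntegrable (fun l => star v ⬝ᵥ (A l *ᵥ v)) volume (-1) 1 := by
    apply ContinuousOn.intervalIntegrable
    rwa [uIcc_of_le (by norm_num)]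
  have hre : (∫ l in (-1 : ℝ)..1, star v ⬝ᵥ (A l *ᵥ v)) =
      ((∫ l in (-1 : ℝ)..1, (star v ⬝ᵥ (A l *ᵥ v)).re : ℝ) : ℂ) := by
    rw [← intervalIntegral.integral_ofReal]
    apply intervalIntegral.integral_congr
    intro l hl
    rw [uIcc_of_le (by norm_num)] at hl
    have h1 := (h l hl).dotProduct_mulVec_nonneg v
    rw [Complex.le_def] at h1
    apply Complex.ext
    · simp
    · simp [← h1.2]
  rw [hre]
  have h2 : 0 ≤ ∫ l in (-1 : ℝ)..1, (star v ⬝ᵥ (A l *ᵥ v)).re := by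
    apply intervalIntegral.integral_nonneg (by norm_num)
    intro l hl
    have h1 := (h l hl).dotProduct_mulVec_nonneg v
    rw [Complex.le_def] at h1
    exact h1.1
  have h3 : (1 / 2 : ℂ) * ((∫ l in (-1 : ℝ)..1, (star v ⬝ᵥ (A l *ᵥ v)).re : ℝ) : ℂ) =
      (((1 / 2) * ∫ l in (-1 : ℝ)..1, (star v ⬝ᵥ (A l *ᵥ v)).re : ℝ) : ℂ) := by push_cast; ring
  rw [h3]
  exact_mod_cast (by positivity : 0 ≤ (1 / 2) * ∫ l in (-1 : ℝ)..1, (star v ⬝ᵥ (A l *ᵥ v)).re)

end Crest.Agent.R332.CoerI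
end

-- ▼ part R332/CoerIMain

/-! # Row 332, module (F1): dimension-free coercivity of the two deficits -/

set_option autoImplicit false
set_option linter.unusedSectionVars false

namespace Crest.Agent.R332.CoerI

open Matrix MeasureTheory Set
open scoped ComplexOrder Interval

variable {n : Type*} [Fintype n] [DecidableEq n]

open Chan

lemma mavg_mul_left {A : ℝ → Matrix n n ℂ} (hA : ContinuousOn A (Icc (-1) 1))
    (X : Matrix n n ℂ) : mavg (fun l => X * A l) = X * mavg A := by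
  ext i j
  rw [mavg_apply, Matrix.mul_apply]
  simp only [Matrix.mul_apply, mavg_apply]
  rw [intervalIntegral.integral_finsetSum]
  · rw [Finset.mul_sum]
    refine Finset.sum_congr rfl fun k _ => ?_
    rw [intervalIntegral.integral_const_mul]; ring
  · intro k _
    exact (entry_intble hA k j).const_mul _

lemma mavg_congr {A B : ℝ → Matrix n n ℂ} (h : ∀ l ∈ Icc (-1 : ℝ) 1, A l = B l) :
    mavg A = mavg B := by
  ext i j
  rw [mavg_apply, mavg_apply]
  congr 1
  apply intervalIntegral.integral_congr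
  intro l hl
  rw [uIcc_of_le (by norm_num)] at hl
  show A l i j = B l i j
  rw [h l hl]

lemma ldet_eq {A : Matrix n n ℂ} (hA : A.PosDef) : ldet A = Real.log A.det.re := by
  unfold ldet
  rw [det_ofReal_re hA.isHermitian, Complex.norm_real, Real.norm_of_nonneg (det_re_pos hA).le,
    Complex.ofReal_re]

lemma comm_conj {B R F : Matrix n n ℂ} (h1 : R * B = 1) (h2 : B * R = 1) :
    F * B - B * F = B * ((R * F - F * R) * B) := by
  have e1 : B * ((R * F - F * R) * B) = (B * R) * F * B - B * F * (R * B) := by noncomm_ring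
  rw [e1, h1, h2, Matrix.one_mul, Matrix.mul_one]

lemma comm_pencil (M F : Matrix n n ℂ) (l : ℝ) :
    F * (M - (l : ℂ) • F) - (M - (l : ℂ) • F) * F = F * M - M * F := by
  simp only [Matrix.mul_sub, Matrix.sub_mul, Matrix.mul_smul, Matrix.smul_mul]
  abel

section

variable {M F : Matrix n n ℂ} {d μ : ℝ}

/-- Assumptions for the coercivity lemmas. -/
structure Bd (M F : Matrix n n ℂ) (d μ : ℝ) : Prop where
  hd : 0 < d
  hμ : 0 < μ
  hM : M.IsHermitian
  hF : F.IsHermitian
  ha : (M - F - d • (1 : Matrix n n ℂ)).PosSemidef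
  hb : (M + F - d • (1 : Matrix n n ℂ)).PosSemidef
  hMμ : (μ • (1 : Matrix n n ℂ) - M).PosSemidef

namespace Bd

variable (h : Bd M F d μ)
include h

lemma posDef_a : (M - F).PosDef := posDef_of_ge h.hd h.ha

lemma posDef_b : (M + F).PosDef := posDef_of_ge h.hd h.hb

lemma posDef_M : M.PosDef := by
  have h1 := (h.posDef_a.add h.posDef_b).smul (show (0:ℝ) < 1/2 by norm_num)
  convert h1 using 1
  rw [show M - F + (M + F) = (2:ℝ) • M by rw [two_smul]; abel, smul_smul]
  norm_num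

lemma nonempty_frame : Nonempty (Frame M F) :=
  exists_frame h.posDef_M h.hF h.posDef_a h.posDef_b

lemma ge {l : ℝ} (hl : l ∈ Icc (-1 : ℝ) 1) :
    (M - (l : ℂ) • F - d • (1 : Matrix n n ℂ)).PosSemidef := by
  have h1 : (0:ℝ) ≤ (1 + l) / 2 := by linarith [hl.1]
  have h2 : (0:ℝ) ≤ (1 - l) / 2 := by linarith [hl.2]
  convert (h.ha.smul h1).add (h.hb.smul h2) using 1
  ext i j
  simp only [Matrix.sub_apply, Matrix.add_apply, Matrix.smul_apply, Complex.real_smul, smul_eq_mul]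
  push_cast
  ring

lemma le {l : ℝ} (hl : l ∈ Icc (-1 : ℝ) 1) :
    ((2 * μ) • (1 : Matrix n n ℂ) - (M - (l : ℂ) • F)).PosSemidef := by
  have h1 : (0:ℝ) ≤ (1 + l) / 2 := by linarith [hl.1]
  have h2 : (0:ℝ) ≤ (1 - l) / 2 := by linarith [hl.2]
  have h3 := ((h.hMμ.smul (show (0:ℝ) ≤ 2 by norm_num)).add
    ((h.posDef_a.posSemidef.smul h2).add (h.posDef_b.posSemidef.smul h1)))
  convert h3 using 1
  ext i j
  simp only [Matrix.sub_apply, Matrix.add_apply, Matrix.smul_apply, Complex.real_smul, smul_eq_mul]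
  push_cast
  ring

lemma isHermitian_pencil (l : ℝ) : (M - (l : ℂ) • F).IsHermitian := by
  unfold Matrix.IsHermitian
  rw [Matrix.conjTranspose_sub, Matrix.conjTranspose_smul, h.hM.eq, h.hF.eq]
  simp

lemma OB_pencil {l : ℝ} (hl : l ∈ Icc (-1 : ℝ) 1) : OB (M - (l : ℂ) • F) (2 * μ) := by
  have hμ := h.hμ
  refine OB.of_le (h.isHermitian_pencil l) (by positivity) (h.le hl) ?_
  have h1 : ((2 * μ) • (1 : Matrix n n ℂ)).PosSemidef :=
    PosSemidef.one.smul (by positivity)
  exact h1.add (posDef_of_ge h.hd (h.ge hl)).posSemidef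

lemma OB_pencil' {l : ℝ} (hl : l ∈ Icc (-1 : ℝ) 1) : OB ((l : ℂ) • M - F) (2 * μ) := by
  have hμ := h.hμ
  have hH : ((l : ℂ) • M - F).IsHermitian := by
    unfold Matrix.IsHermitian
    rw [Matrix.conjTranspose_sub, Matrix.conjTranspose_smul, h.hM.eq, h.hF.eq]
    simp
  have h1 : (0:ℝ) ≤ 1 + l := by linarith [hl.1]
  have h2 : (0:ℝ) ≤ 1 - l := by linarith [hl.2]
  refine OB.of_le hH (by positivity) ?_ ?_
  · have h3 := (h.hMμ.smul (show (0:ℝ) ≤ 2 by norm_num)).add
      (h.posDef_b.posSemidef.add (h.posDef_M.posSemidef.smul h2))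
    convert h3 using 1
    ext i j
    simp only [Matrix.sub_apply, Matrix.add_apply, Matrix.smul_apply, Complex.real_smul,
      smul_eq_mul]
    push_cast
    ring
  · have h3 := (h.hMμ.smul (show (0:ℝ) ≤ 2 by norm_num)).add
      (h.posDef_a.posSemidef.add (h.posDef_M.posSemidef.smul h1))
    convert h3 using 1
    ext i j
    simp only [Matrix.sub_apply, Matrix.add_apply, Matrix.smul_apply, Complex.real_smul,
      smul_eq_mul]
    push_cast
    ring

lemma OB_Res {l : ℝ} (hl : l ∈ Icc (-1 : ℝ) 1) : OB (Res M F l) d⁻¹ :=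
  OB_inv h.hd (h.ge hl)

lemma Res_posDef {l : ℝ} (hl : l ∈ Icc (-1 : ℝ) 1) : (Res M F l).PosDef :=
  (posDef_of_ge h.hd (h.ge hl)).inv

lemma Res_mul {l : ℝ} (hl : l ∈ Icc (-1 : ℝ) 1) : Res M F l * (M - (l : ℂ) • F) = 1 := by
  obtain ⟨fr⟩ := h.nonempty_frame
  exact (fr.res_mul (abs_le.2 hl)).2

lemma mul_Res {l : ℝ} (hl : l ∈ Icc (-1 : ℝ) 1) : (M - (l : ℂ) • F) * Res M F l = 1 := by
  obtain ⟨fr⟩ := h.nonempty_frame
  exact (fr.res_mul (abs_le.2 hl)).1

lemma hs_comm_le {l : ℝ} (hl : l ∈ Icc (-1 : ℝ) 1) :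
    hs (F * M - M * F) ≤ 16 * μ ^ 4 * hs (Res M F l * F - F * Res M F l) := by
  have e : F * M - M * F = (M - (l : ℂ) • F) * ((Res M F l * F - F * Res M F l) *
      (M - (l : ℂ) • F)) := by
    rw [← comm_conj (h.Res_mul hl) (h.mul_Res hl), comm_pencil]
  rw [e]
  refine ((h.OB_pencil hl).hs_mul_le _).trans ?_
  have h2 := (h.OB_pencil hl).hs_mul_right_le' (h.isHermitian_pencil l)
    (Res M F l * F - F * Res M F l)
  calc (2 * μ) ^ 2 * hs ((Res M F l * F - F * Res M F l) * (M - (l : ℂ) • F))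
      ≤ (2 * μ) ^ 2 * ((2 * μ) ^ 2 * hs (Res M F l * F - F * Res M F l)) :=
        mul_le_mul_of_nonneg_left h2 (sq_nonneg _)
    _ = _ := by ring

lemma hs_ResF_le {l : ℝ} (hl : l ∈ Icc (-1 : ℝ) 1) :
    hs (Res M F l * F - F * Res M F l) ≤ (d⁻¹) ^ 4 * hs (F * M - M * F) := by
  have e : Res M F l * F - F * Res M F l = Res M F l * ((F * M - M * F) * Res M F l) := by
    have e1 := comm_conj (F := F) (h.mul_Res hl) (h.Res_mul hl)
    have e2 := comm_pencil M F l
    rw [← e2, ← neg_sub ((M - (l : ℂ) • F) * F), Matrix.neg_mul, Matrix.mul_neg, ← e1, neg_sub]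
  rw [e]
  refine ((h.OB_Res hl).hs_mul_le _).trans ?_
  have h2 := (h.OB_Res hl).hs_mul_right_le' (h.Res_posDef hl).isHermitian (F * M - M * F)
  calc (d⁻¹) ^ 2 * hs ((F * M - M * F) * Res M F l)
      ≤ (d⁻¹) ^ 2 * ((d⁻¹) ^ 2 * hs (F * M - M * F)) :=
        mul_le_mul_of_nonneg_left h2 (sq_nonneg _)
    _ = _ := by ring

lemma OB_M : OB M μ := by
  refine OB.of_le h.hM h.hμ h.hMμ ?_
  exact (PosSemidef.one.smul h.hμ.le).add h.posDef_M.posSemidef

lemma hs_comm_sq : hs (F * (M * M) - M * M * F) ≤ 4 * μ ^ 2 * hs (F * M - M * F) := by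
  have e : F * (M * M) - M * M * F = (F * M - M * F) * M + M * (F * M - M * F) := by noncomm_ring
  rw [e]
  refine (hs_add_le _ _).trans ?_
  have h1 := h.OB_M.hs_mul_right_le' h.hM (F * M - M * F)
  have h2 := h.OB_M.hs_mul_le (F * M - M * F)
  nlinarith

lemma contOn_Res : ContinuousOn (fun l => Res M F l) (Icc (-1) 1) := by
  obtain ⟨fr⟩ := h.nonempty_frame
  exact fr.continuousOn_Res

lemma hs_comm_le_def1 : hs (F * M - M * F) ≤ 48 * μ ^ 4 * def1 M F := by
  have hμ := h.hμ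
  have hc : ContinuousOn (fun l : ℝ => (1 - l ^ 2) *
    rtr ((Res M F l * F - F * Res M F l)ᴴ * (Res M F l * F - F * Res M F l))) (Icc (-1) 1) := by
    refine ContinuousOn.mul (by fun_prop) ?_
    refine rtr_contOn ?_
    have h1 : ContinuousOn (fun l => Res M F l * F - F * Res M F l) (Icc (-1) 1) :=
      (h.contOn_Res.mul continuousOn_const).sub (continuousOn_const.mul h.contOn_Res)
    have h2 : Continuous fun A : Matrix n n ℂ => Aᴴ := continuous_id.matrix_conjTranspose
    exact (h2.comp_continuousOn h1).mul h1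
  have h1 : (∫ l in (-1 : ℝ)..1, (1 - l ^ 2) * (hs (F * M - M * F) / (16 * μ ^ 4))) ≤
      ∫ l in (-1 : ℝ)..1, (1 - l ^ 2) *
        rtr ((Res M F l * F - F * Res M F l)ᴴ * (Res M F l * F - F * Res M F l)) := by
    apply intervalIntegral.integral_mono_on (by norm_num)
    · apply Continuous.intervalIntegrable; fun_prop
    · apply ContinuousOn.intervalIntegrable
      rwa [uIcc_of_le (by norm_num)]
    · intro l hl
      refine mul_le_mul_of_nonneg_left ?_ (by nlinarith [hl.1, hl.2])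
      rw [← hs_eq_rtr', div_le_iff₀ (by positivity)]
      have := h.hs_comm_le hl
      linarith
  rw [intervalIntegral.integral_mul_const] at h1
  have h2 : (∫ l in (-1 : ℝ)..1, (1 - l ^ 2)) = 4 / 3 := by
    rw [intervalIntegral.integral_sub (by simp) (by
      apply Continuous.intervalIntegrable; fun_prop)]
    simp; norm_num
  rw [h2] at h1
  unfold def1
  have h3 : hs (F * M - M * F) = 48 * μ ^ 4 * (1 / 4 * (4 / 3 * (hs (F * M - M * F) /
      (16 * μ ^ 4)))) := by
    field_simp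
    ring
  rw [h3]
  exact mul_le_mul_of_nonneg_left (mul_le_mul_of_nonneg_left h1
    (by norm_num)) (by positivity)

lemma contOn_RR : ContinuousOn (fun l => Res M F l * Res M F l) (Icc (-1) 1) :=
  h.contOn_Res.mul h.contOn_Res

end Bd

/-- averaged square of the resolvent -/
noncomputable def Lam (M F : Matrix n n ℂ) : Matrix n n ℂ :=
  mavg fun l => Res M F l * Res M F l

namespace Bd

variable (h : Bd M F d μ)
include h

lemma lamTr_eq (X : Matrix n n ℂ) : lamTr M F X = rtr (Lam M F * X) := by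
  unfold lamTr Lam
  rw [← mavg_mul_right h.contOn_RR]
  exact (rtr_mavg (A := fun l => Res M F l * Res M F l * X)
    (h.contOn_RR.mul continuousOn_const)).symm

lemma Lam_ge : (Lam M F - ((2 * μ) ^ 2)⁻¹ • (1 : Matrix n n ℂ)).PosSemidef := by
  have hμ := h.hμ
  have e : Lam M F - ((2 * μ) ^ 2)⁻¹ • (1 : Matrix n n ℂ) =
      mavg (fun l => Res M F l * Res M F l - ((2 * μ) ^ 2)⁻¹ • (1 : Matrix n n ℂ)) := by
    rw [mavg_sub h.contOn_RR continuousOn_const, mavg_const]; rfl
  rw [e]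
  refine mavg_posSemidef (h.contOn_RR.sub continuousOn_const) fun l hl => ?_
  have h1 := h.OB_pencil hl
  unfold OB at h1
  rw [(h.isHermitian_pencil l).eq] at h1
  have h2 := (h1.mul_mul_conjTranspose_same (Res M F l)).smul
    (show (0:ℝ) ≤ ((2 * μ) ^ 2)⁻¹ by positivity)
  convert h2 using 1
  rw [(h.Res_posDef hl).isHermitian.eq, Matrix.mul_sub, Matrix.sub_mul, Matrix.mul_smul,
    Matrix.smul_mul, Matrix.mul_one, smul_sub, smul_smul, inv_mul_cancel₀ (by positivity),
    one_smul]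
  congr 2
  rw [← Matrix.mul_assoc, h.Res_mul hl, Matrix.one_mul, h.mul_Res hl]

lemma Lam_le : ((d ^ 2)⁻¹ • (1 : Matrix n n ℂ) - Lam M F).PosSemidef := by
  have e : (d ^ 2)⁻¹ • (1 : Matrix n n ℂ) - Lam M F =
      mavg (fun l => (d ^ 2)⁻¹ • (1 : Matrix n n ℂ) - Res M F l * Res M F l) := by
    rw [mavg_sub continuousOn_const h.contOn_RR, mavg_const]; rfl
  rw [e]
  refine mavg_posSemidef (continuousOn_const.sub h.contOn_RR) fun l hl => ?_
  have h1 := h.OB_Res hl
  unfold OB at h1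
  rw [(h.Res_posDef hl).isHermitian.eq, inv_pow] at h1
  exact h1

lemma Lam_posDef : (Lam M F).PosDef := by
  have hμ := h.hμ
  exact posDef_of_ge (by positivity) h.Lam_ge

lemma Lam_mul_inv : Lam M F * (Lam M F)⁻¹ = 1 := by
  apply Matrix.mul_nonsing_inv
  rw [← Matrix.isUnit_iff_isUnit_det]; exact h.Lam_posDef.isUnit

lemma Lam_inv_mul : (Lam M F)⁻¹ * Lam M F = 1 := by
  apply Matrix.nonsing_inv_mul
  rw [← Matrix.isUnit_iff_isUnit_det]; exact h.Lam_posDef.isUnit

lemma ldet_Lam : 0 ≤ ldet (Lam M F) + ldet (M - F) + ldet (M + F) := by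
  obtain ⟨fr⟩ := h.nonempty_frame
  have h1 := fact3 fr h.Lam_posDef.inv
  rw [h.lamTr_eq, h.Lam_mul_inv, rtr_one] at h1
  have h2 : ldet (Lam M F)⁻¹ = - ldet (Lam M F) := by
    unfold ldet
    rw [Matrix.det_nonsing_inv, Ring.inverse_eq_inv', norm_inv, Real.log_inv]
  rw [h2] at h1
  linarith

lemma hs_sub_Lam_inv {X : Matrix n n ℂ} (hX : X.PosDef) {ξ : ℝ} (hξ : 0 ≤ ξ)
    (hXξ : (ξ • (1 : Matrix n n ℂ) - X).PosSemidef) :
    hs (X - (Lam M F)⁻¹) ≤ 32 * μ ^ 4 * (1 + ξ / d ^ 2) * def3 M F X := by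
  have hμ := h.hμ
  have hd := h.hd
  have h1 := klein_coer h.Lam_posDef hX (a := ((2 * μ) ^ 2)⁻¹) (b := (d ^ 2)⁻¹) (by positivity) hξ
    h.Lam_ge h.Lam_le hXξ
  refine h1.trans ?_
  have h2 : rtr (Lam M F * X) - Fintype.card n - Real.log X.det.re - Real.log (Lam M F).det.re ≤
      def3 M F X := by
    have h3 := h.ldet_Lam
    unfold def3
    rw [h.lamTr_eq, ← ldet_eq hX, ← ldet_eq h.Lam_posDef]
    linarith
  calc (((2 * μ) ^ 2)⁻¹)⁻¹ ^ 2 * (2 * (1 + ξ * (d ^ 2)⁻¹)) *
      (rtr (Lam M F * X) - Fintype.card n - Real.log X.det.re - Real.log (Lam M F).det.re)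
      ≤ (((2 * μ) ^ 2)⁻¹)⁻¹ ^ 2 * (2 * (1 + ξ * (d ^ 2)⁻¹)) * def3 M F X :=
        mul_le_mul_of_nonneg_left h2 (by positivity)
    _ = _ := by rw [inv_inv]; ring

lemma isHermitian_pencil' (l : ℝ) : ((l : ℂ) • M - F).IsHermitian := by
  unfold Matrix.IsHermitian
  rw [Matrix.conjTranspose_sub, Matrix.conjTranspose_smul, h.hM.eq, h.hF.eq]
  simp

lemma contOn_MRM : ContinuousOn
    (fun l => Res M F l * (M * Res M F l * M - F * Res M F l * F)) (Icc (-1) 1) :=
  h.contOn_Res.mul (((continuousOn_const.mul h.contOn_Res).mul continuousOn_const).sub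
    ((continuousOn_const.mul h.contOn_Res).mul continuousOn_const))

lemma mavg_MRM : mavg (fun l => Res M F l * (M * Res M F l * M - F * Res M F l * F)) = 1 := by
  obtain ⟨fr⟩ := h.nonempty_frame
  have hT : IsUnit fr.T.det := (Matrix.isUnit_iff_isUnit_det fr.T).1 fr.isUnit_T
  have h1 : mavg (fun l => Res M F l * (M * Res M F l * M - F * Res M F l * F)) * fr.T = fr.T := by
    rw [← mavg_mul_right h.contOn_MRM]
    have h2 : ∀ l ∈ Icc (-1 : ℝ) 1,
        Res M F l * (M * Res M F l * M - F * Res M F l * F) * fr.T =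
        fr.T * dg (fun i => (1 - fr.v i ^ 2) * ((1 - l * fr.v i)⁻¹) ^ 2) := by
      intro l hl
      have e1 : Res M F l * (M * Res M F l * M - F * Res M F l * F) * fr.T =
          Res M F l * M * Res M F l * M * fr.T - Res M F l * F * Res M F l * F * fr.T := by
        noncomm_ring
      rw [e1, fr.Res_eq hl]
      have e2 : fr.T * fr.D l * fr.Tᴴ * M * (fr.T * fr.D l * fr.Tᴴ) * M * fr.T =
          fr.T * (fr.D l * (fr.Tᴴ * M * fr.T) * fr.D l * (fr.Tᴴ * M * fr.T)) := by noncomm_ring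
      have e3 : fr.T * fr.D l * fr.Tᴴ * F * (fr.T * fr.D l * fr.Tᴴ) * F * fr.T =
          fr.T * (fr.D l * (fr.Tᴴ * F * fr.T) * fr.D l * (fr.Tᴴ * F * fr.T)) := by noncomm_ring
      rw [e2, e3, fr.hM, fr.hF, ← Matrix.mul_sub]
      congr 1
      unfold Frame.D
      simp only [Matrix.mul_one, dg, Matrix.diagonal_mul_diagonal, Matrix.diagonal_sub]
      congr 1
      ext i
      push_cast
      ring
    rw [mavg_congr h2, mavg_mul_left (A := fun l => dg (fun i => (1 - fr.v i ^ 2) *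
      ((1 - l * fr.v i)⁻¹) ^ 2))]
    · have h3 : mavg (fun l => dg (fun i => (1 - fr.v i ^ 2) * ((1 - l * fr.v i)⁻¹) ^ 2)) =
          (1 : Matrix n n ℂ) := by
        ext i j
        rw [mavg_apply]
        by_cases hij : i = j
        · subst hij
          simp only [dg, Matrix.diagonal_apply_eq, Matrix.one_apply_eq]
          rw [intervalIntegral.integral_ofReal, intervalIntegral.integral_const_mul,
            integral_inv_sq (fr.hv i)]
          have hw : (1 - fr.v i ^ 2) ≠ 0 := by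
            have h1 : 0 < 1 - fr.v i := by linarith [(abs_lt.1 (fr.hv i)).2]
            have h2 : 0 < 1 + fr.v i := by linarith [(abs_lt.1 (fr.hv i)).1]
            have := mul_pos h1 h2
            nlinarith
          have : (1 - fr.v i ^ 2) * (2 / (1 - fr.v i ^ 2)) = 2 := by field_simp
          rw [this]
          norm_num
        · simp [dg, Matrix.diagonal_apply_ne _ hij, Matrix.one_apply_ne hij]
      rw [h3, Matrix.mul_one]
    · refine continuousOn_pi.2 fun i => continuousOn_pi.2 fun j => ?_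
      by_cases hij : i = j
      · subst hij
        simp only [dg, Matrix.diagonal_apply_eq]
        exact Complex.continuous_ofReal.comp_continuousOn
          (continuousOn_const.mul ((continuousOn_inv_one_sub (fr.hv i)).pow 2))
      · simp only [dg, Matrix.diagonal_apply_ne _ hij]
        exact continuousOn_const
  calc mavg (fun l => Res M F l * (M * Res M F l * M - F * Res M F l * F))
      = mavg (fun l => Res M F l * (M * Res M F l * M - F * Res M F l * F)) * fr.T * fr.T⁻¹ := by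
        rw [Matrix.mul_assoc, Matrix.mul_nonsing_inv _ hT, Matrix.mul_one]
    _ = 1 := by rw [h1, Matrix.mul_nonsing_inv _ hT]

lemma Lam_mul_sub_one : hs (Lam M F * (M * M - F * F) - 1) ≤
    4 * μ ^ 2 / d ^ 6 * hs (F * M - M * F) := by
  have hμ := h.hμ
  have hd := h.hd
  have hcont : ContinuousOn (fun l => Res M F l * ((Res M F l * F - F * Res M F l) *
      ((l : ℂ) • M - F))) (Icc (-1) 1) := by
    have h1 : ContinuousOn (fun l => Res M F l * F - F * Res M F l) (Icc (-1) 1) :=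
      (h.contOn_Res.mul continuousOn_const).sub (continuousOn_const.mul h.contOn_Res)
    have h2 : ContinuousOn (fun l : ℝ => (l : ℂ) • M - F) (Icc (-1) 1) :=
      ((Complex.continuous_ofReal.continuousOn).smul continuousOn_const).sub continuousOn_const
    exact h.contOn_Res.mul (h1.mul h2)
  have e : Lam M F * (M * M - F * F) - 1 = mavg (fun l => Res M F l *
      ((Res M F l * F - F * Res M F l) * ((l : ℂ) • M - F))) := by
    conv_lhs => rw [← h.mavg_MRM]
    unfold Lam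
    rw [← mavg_mul_right h.contOn_RR]
    have hcc : ContinuousOn (fun l => Res M F l * Res M F l * (M * M - F * F)) (Icc (-1) 1) :=
      h.contOn_RR.mul continuousOn_const
    rw [← mavg_sub hcc h.contOn_MRM]
    refine mavg_congr fun l hl => ?_
    have h1 := h.Res_mul hl
    have h2 := h.mul_Res hl
    have hcomm : Res M F l * M - M * Res M F l = (l : ℂ) • (Res M F l * F - F * Res M F l) := by
      have := h1.trans h2.symm
      rw [Matrix.mul_sub, Matrix.sub_mul, Matrix.mul_smul, Matrix.smul_mul] at this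
      rw [smul_sub]
      have h3 : Res M F l * M - M * Res M F l = (Res M F l * M - (l : ℂ) • (Res M F l * F)) -
          (M * Res M F l - (l : ℂ) • (F * Res M F l))
          + ((l : ℂ) • (Res M F l * F) - (l : ℂ) • (F * Res M F l)) := by abel
      rw [h3, this]; simp
    have h4 : Res M F l * Res M F l * (M * M - F * F) -
        Res M F l * (M * Res M F l * M - F * Res M F l * F) =
        Res M F l * ((Res M F l * M - M * Res M F l) * M - (Res M F l * F - F * Res M F l) * F) := by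
      noncomm_ring
    rw [h4, hcomm]
    congr 1
    rw [Matrix.mul_sub, Matrix.mul_smul, Matrix.smul_mul]
  rw [e]
  refine (hs_mavg_le hcont).trans ?_
  have hbound : ∀ l ∈ Icc (-1 : ℝ) 1, hs (Res M F l *
      ((Res M F l * F - F * Res M F l) * ((l : ℂ) • M - F))) ≤
      4 * μ ^ 2 / d ^ 6 * hs (F * M - M * F) := by
    intro l hl
    have h1 := (h.OB_Res hl).hs_mul_le ((Res M F l * F - F * Res M F l) * ((l : ℂ) • M - F))
    have h2 := (h.OB_pencil' hl).hs_mul_right_le' (h.isHermitian_pencil' l)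
      (Res M F l * F - F * Res M F l)
    have h3 := h.hs_ResF_le hl
    calc _ ≤ d⁻¹ ^ 2 * hs ((Res M F l * F - F * Res M F l) * ((l : ℂ) • M - F)) := h1
      _ ≤ d⁻¹ ^ 2 * ((2 * μ) ^ 2 * hs (Res M F l * F - F * Res M F l)) :=
        mul_le_mul_of_nonneg_left h2 (by positivity)
      _ ≤ d⁻¹ ^ 2 * ((2 * μ) ^ 2 * (d⁻¹ ^ 4 * hs (F * M - M * F))) :=
        mul_le_mul_of_nonneg_left (mul_le_mul_of_nonneg_left h3 (by positivity)) (by positivity)
      _ = _ := by field_simp; ring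
  have hci : ContinuousOn (fun l => hs (Res M F l *
      ((Res M F l * F - F * Res M F l) * ((l : ℂ) • M - F)))) (Icc (-1) 1) := by
    simp only [hs]
    exact continuousOn_finsetSum _ fun i _ => continuousOn_finsetSum _ fun j _ =>
      Complex.continuous_normSq.comp_continuousOn (entry_contOn hcont i j)
  have h5 : (∫ l in (-1 : ℝ)..1, hs (Res M F l *
      ((Res M F l * F - F * Res M F l) * ((l : ℂ) • M - F)))) ≤
      ∫ l in (-1 : ℝ)..1, 4 * μ ^ 2 / d ^ 6 * hs (F * M - M * F) := by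
    apply intervalIntegral.integral_mono_on (by norm_num)
    · apply ContinuousOn.intervalIntegrable
      rwa [uIcc_of_le (by norm_num)]
    · exact intervalIntegrable_const
    · exact hbound
  rw [intervalIntegral.integral_const, smul_eq_mul] at h5
  calc (1 / 2) * ∫ l in (-1 : ℝ)..1, hs (Res M F l *
      ((Res M F l * F - F * Res M F l) * ((l : ℂ) • M - F)))
      ≤ (1 / 2) * ((1 - (-1)) * (4 * μ ^ 2 / d ^ 6 * hs (F * M - M * F))) :=
        mul_le_mul_of_nonneg_left h5 (by norm_num)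
    _ = _ := by ring

lemma hs_J_sub_Lam_inv : hs ((M * M - F * F) - (Lam M F)⁻¹) ≤
    3072 * μ ^ 10 / d ^ 6 * def1 M F := by
  have hμ := h.hμ
  have hd := h.hd
  have e : (M * M - F * F) - (Lam M F)⁻¹ = (Lam M F)⁻¹ * (Lam M F * (M * M - F * F) - 1) := by
    rw [Matrix.mul_sub, ← Matrix.mul_assoc, h.Lam_inv_mul, Matrix.one_mul, Matrix.mul_one]
  have h1 := (OB_inv (by positivity) h.Lam_ge).hs_mul_le (Lam M F * (M * M - F * F) - 1)
  rw [← e, inv_inv] at h1
  calc hs ((M * M - F * F) - (Lam M F)⁻¹)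
      ≤ ((2 * μ) ^ 2) ^ 2 * hs (Lam M F * (M * M - F * F) - 1) := h1
    _ ≤ ((2 * μ) ^ 2) ^ 2 * (4 * μ ^ 2 / d ^ 6 * (48 * μ ^ 4 * def1 M F)) :=
        mul_le_mul_of_nonneg_left (h.Lam_mul_sub_one.trans
          (mul_le_mul_of_nonneg_left h.hs_comm_le_def1 (by positivity))) (by positivity)
    _ = _ := by ring

/-- **Coercivity, commutator part.** -/
theorem coer_comm : hs (F * (M * M) - M * M * F) ≤ 192 * μ ^ 6 * def1 M F := by
  have hμ := h.hμ
  calc hs (F * (M * M) - M * M * F) ≤ 4 * μ ^ 2 * hs (F * M - M * F) := h.hs_comm_sq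
    _ ≤ 4 * μ ^ 2 * (48 * μ ^ 4 * def1 M F) :=
        mul_le_mul_of_nonneg_left h.hs_comm_le_def1 (by positivity)
    _ = _ := by ring

/-- **Coercivity, main part.** -/
theorem coer_main {X : Matrix n n ℂ} (hX : X.PosDef) {ξ : ℝ} (hξ : 0 ≤ ξ)
    (hXξ : (ξ • (1 : Matrix n n ℂ) - X).PosSemidef) :
    hs (X - (M * M - F * F)) ≤
      64 * μ ^ 4 * (1 + ξ / d ^ 2) * def3 M F X + 6144 * μ ^ 10 / d ^ 6 * def1 M F := by
  have e : X - (M * M - F * F) = (X - (Lam M F)⁻¹) - ((M * M - F * F) - (Lam M F)⁻¹) := by abel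
  rw [e]
  have h1 := hs_sub_le (X - (Lam M F)⁻¹) ((M * M - F * F) - (Lam M F)⁻¹)
  have h2 := h.hs_sub_Lam_inv hX hξ hXξ
  have h3 := h.hs_J_sub_Lam_inv
  calc _ ≤ 2 * hs (X - (Lam M F)⁻¹) + 2 * hs ((M * M - F * F) - (Lam M F)⁻¹) := h1
    _ ≤ 2 * (32 * μ ^ 4 * (1 + ξ / d ^ 2) * def3 M F X) +
        2 * (3072 * μ ^ 10 / d ^ 6 * def1 M F) := by gcongr
    _ = _ := by ring

lemma def3_nonneg {X : Matrix n n ℂ} (hX : X.PosDef) : 0 ≤ def3 M F X := by
  obtain ⟨fr⟩ := h.nonempty_frame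
  have := fact3 fr hX
  unfold def3
  linarith

end Bd

end

end Crest.Agent.R332.CoerI
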