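import Mathlib
import Crest.Agent.R332.TrBasic
import Crest.Agent.R332.TrRect

-- ▼ part R332/LimAA
section

/-! # Row 332: extraction of convergent subsequences for equi-Hölder families -/

set_option autoImplicit false

namespace Crest.Agent.R332.Lim

open Filter Topology

/-- Sequential Arzelà–Ascoli on the line (pointwise convergence form): uniformly bounded and
uniformly equicontinuous sequences with values in a proper space have pointwise convergent
subsequences. -/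
theorem exists_subseq_tendsto {E : Type*} [NormedAddCommGroup E] [ProperSpace E]
    (f : ℕ → ℝ → E) (B : ℝ) (hB : ∀ k x, ‖f k x‖ ≤ B) (ω : ℝ → ℝ)
    (hω : Tendsto ω (𝓝 0) (𝓝 0)) (hf : ∀ k x y, ‖f k x - f k y‖ ≤ ω |x - y|) :
    ∃ φ : ℕ → ℕ, StrictMono φ ∧ ∃ g : ℝ → E,
      (∀ x, Tendsto (fun k => f (φ k) x) atTop (𝓝 (g x))) ∧
      (∀ x, ‖g x‖ ≤ B) ∧ ∀ x y, ‖g x - g y‖ ≤ ω |x - y| := by
  have hcpt : IsCompact (Set.pi Set.univ (fun _ : ℚ => Metric.closedBall (0 : E) B)) :=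
    isCompact_univ_pi fun _ => isCompact_closedBall _ _
  have hmem : ∀ k, (fun q : ℚ => f k (q : ℝ)) ∈
      Set.pi Set.univ (fun _ : ℚ => Metric.closedBall (0 : E) B) := by
    intro k q _
    simpa using hB k q
  obtain ⟨g₀, -, φ, hφ, hlim⟩ := hcpt.tendsto_subseq hmem
  rw [tendsto_pi_nhds] at hlim
  have hcauchy : ∀ x : ℝ, ∃ y : E, Tendsto (fun k => f (φ k) x) atTop (𝓝 y) := by
    intro x
    apply cauchySeq_tendsto_of_complete
    rw [Metric.cauchySeq_iff]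
    intro ε hε
    have h1 : ∀ᶠ t in 𝓝 (0 : ℝ), ω t < ε / 3 := by
      have := hω.eventually (gt_mem_nhds (show (0 : ℝ) < ε / 3 by positivity))
      exact this
    obtain ⟨δ, hδ, hδ'⟩ := Metric.eventually_nhds_iff.1 h1
    obtain ⟨q, hq⟩ := exists_rat_near x hδ
    have hωq : ω |x - q| < ε / 3 := by
      apply hδ'
      rw [Real.dist_eq, sub_zero, abs_abs]
      exact hq
    have h2 := (hlim q).cauchySeq
    rw [Metric.cauchySeq_iff] at h2
    obtain ⟨N, hN⟩ := h2 (ε / 3) (by positivity)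
    refine ⟨N, fun a ha b hb => ?_⟩
    have h3 := hN a ha b hb
    rw [dist_eq_norm] at h3 ⊢
    have h3' : ‖f (φ a) q - f (φ b) q‖ < ε / 3 := h3
    calc ‖f (φ a) x - f (φ b) x‖
        = ‖(f (φ a) x - f (φ a) q) + (f (φ a) q - f (φ b) q) - (f (φ b) x - f (φ b) q)‖ := by
          congr 1; abel
      _ ≤ ‖f (φ a) x - f (φ a) q‖ + ‖f (φ a) q - f (φ b) q‖ + ‖f (φ b) x - f (φ b) q‖ := by
          refine (norm_sub_le _ _).trans ?_
          gcongr
          exact norm_add_le _ _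
      _ < ε := by
          have := hf (φ a) x q
          have := hf (φ b) x q
          linarith
  choose g hg using hcauchy
  refine ⟨φ, hφ, g, hg, ?_, ?_⟩
  · intro x
    exact le_of_tendsto (hg x).norm (Eventually.of_forall fun k => hB _ _)
  · intro x y
    exact le_of_tendsto ((hg x).sub (hg y)).norm (Eventually.of_forall fun k => hf _ _ _)

end Crest.Agent.R332.Lim
end

-- ▼ part R332/LimAE
section

/-! # Row 332: a.e. convergence along subsequences, square-root integral bound -/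

set_option autoImplicit false

namespace Crest.Agent.R332.Lim

open Filter Topology MeasureTheory

/-- A sequence of nonnegative integrable functions whose integrals tend to `0` has a subsequence
tending to `0` almost everywhere. -/
theorem exists_subseq_ae_zero (g : ℕ → ℝ → ℝ) (hg0 : ∀ k x, 0 ≤ g k x)
    (hgi : ∀ k, Integrable (g k)) (hlim : Tendsto (fun k => ∫ x, g k x) atTop (𝓝 0)) :
    ∃ φ : ℕ → ℕ, StrictMono φ ∧ ∀ᵐ x : ℝ, Tendsto (fun k => g (φ k) x) atTop (𝓝 0) := by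
  have h1 : ∀ k, eLpNorm (g k - fun _ => (0 : ℝ)) 1 volume = ENNReal.ofReal (∫ x, g k x) := by
    intro k
    rw [eLpNorm_one_eq_lintegral_enorm]
    rw [ofReal_integral_eq_lintegral_ofReal (hgi k) (Eventually.of_forall (hg0 k))]
    refine lintegral_congr fun x => ?_
    simp only [Pi.sub_apply, sub_zero]
    rw [Real.enorm_of_nonneg (hg0 k x)]
  have h2 : TendstoInMeasure volume g atTop (fun _ => (0 : ℝ)) := by
    refine tendstoInMeasure_of_tendsto_eLpNorm one_ne_zero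
      (fun k => (hgi k).aestronglyMeasurable) aestronglyMeasurable_const ?_
    simp only [h1]
    have := (ENNReal.continuous_ofReal.tendsto 0).comp hlim
    rw [ENNReal.ofReal_zero] at this
    exact this
  obtain ⟨φ, hφ, h3⟩ := h2.exists_seq_tendsto_ae
  exact ⟨φ, hφ, h3⟩

/-- `∫_a^b √g ≤ λ (b - a) + (∫ g) / (4 λ)`. -/
theorem integral_sqrt_le {g : ℝ → ℝ} (hg0 : ∀ x, 0 ≤ g x) (hgi : Integrable g)
    {a b : ℝ} (hab : a ≤ b) {t : ℝ} (ht : 0 < t) :
    IntervalIntegrable (fun x => Real.sqrt (g x)) volume a b ∧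
    ∫ x in a..b, Real.sqrt (g x) ≤ t * (b - a) + (∫ x, g x) / (4 * t) := by
  have hpt : ∀ x, Real.sqrt (g x) ≤ t + g x / (4 * t) := by
    intro x
    have h1 := Real.sq_sqrt (hg0 x)
    have h2 : 0 ≤ (Real.sqrt (g x) - 2 * t) ^ 2 := sq_nonneg _
    rw [← sub_nonneg]
    have h3 : t + g x / (4 * t) - Real.sqrt (g x) = (Real.sqrt (g x) - 2 * t) ^ 2 / (4 * t) := by
      field_simp
      nlinarith
    rw [h3]
    positivity
  have hmeas : AEStronglyMeasurable (fun x => Real.sqrt (g x)) volume :=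
    (Real.continuous_sqrt.comp_aestronglyMeasurable hgi.aestronglyMeasurable)
  have hI : IntervalIntegrable (fun x => t + g x / (4 * t)) volume a b :=
    intervalIntegrable_const.add ((hgi.div_const _).intervalIntegrable)
  have hi : IntervalIntegrable (fun x => Real.sqrt (g x)) volume a b := by
    refine hI.mono_fun hmeas.restrict (Eventually.of_forall fun x => ?_)
    show ‖Real.sqrt (g x)‖ ≤ ‖t + g x / (4 * t)‖
    rw [Real.norm_of_nonneg (Real.sqrt_nonneg _), Real.norm_of_nonneg]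
    · exact hpt x
    · have := hg0 x
      positivity
  refine ⟨hi, ?_⟩
  calc ∫ x in a..b, Real.sqrt (g x) ≤ ∫ x in a..b, (t + g x / (4 * t)) :=
        intervalIntegral.integral_mono_on hab hi hI fun x _ => hpt x
    _ = t * (b - a) + (∫ x in a..b, g x) / (4 * t) := by
        rw [intervalIntegral.integral_add intervalIntegrable_const
          ((hgi.div_const _).intervalIntegrable), intervalIntegral.integral_const,
          intervalIntegral.integral_div, smul_eq_mul, mul_comm]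
    _ ≤ t * (b - a) + (∫ x, g x) / (4 * t) := by
        gcongr
        rw [intervalIntegral.integral_of_le hab]
        exact setIntegral_le_integral hgi (Eventually.of_forall hg0)

end Crest.Agent.R332.Lim
end

-- ▼ part R332/LimHS
section

/-! # Row 332: squared Hilbert–Schmidt norm of rectangular complex matrices -/

set_option autoImplicit false
set_option linter.unusedSectionVars false

namespace Crest.Agent.R332.Lim

open Matrix
open scoped ComplexOrder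

variable {m n p : Type*} [Fintype m] [Fintype n] [Fintype p]

/-- Squared Hilbert–Schmidt norm. -/
noncomputable def hs (A : Matrix m n ℂ) : ℝ := ∑ i, ∑ j, ‖A i j‖ ^ 2

lemma hs_nonneg (A : Matrix m n ℂ) : 0 ≤ hs A :=
  Finset.sum_nonneg fun _ _ => Finset.sum_nonneg fun _ _ => sq_nonneg _

lemma hs_entry (A : Matrix m n ℂ) (i : m) (j : n) : ‖A i j‖ ^ 2 ≤ hs A := by
  unfold hs
  refine le_trans ?_ (Finset.single_le_sum (f := fun i => ∑ j, ‖A i j‖ ^ 2)
    (fun i _ => Finset.sum_nonneg fun _ _ => sq_nonneg _) (Finset.mem_univ i))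
  exact Finset.single_le_sum (f := fun j => ‖A i j‖ ^ 2) (fun _ _ => sq_nonneg _)
    (Finset.mem_univ j)

lemma hs_entry' (A : Matrix m n ℂ) (i : m) (j : n) : ‖A i j‖ ≤ Real.sqrt (hs A) :=
  Real.le_sqrt_of_sq_le (hs_entry A i j)

lemma hs_eq_rtr (A : Matrix m n ℂ) : hs A = rtr (Aᴴ * A) := by
  unfold hs rtr
  rw [Matrix.trace, Complex.re_sum, Finset.sum_comm]
  refine Finset.sum_congr rfl fun j _ => ?_
  rw [Matrix.diag_apply, Matrix.mul_apply, Complex.re_sum]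
  refine Finset.sum_congr rfl fun i _ => ?_
  rw [Matrix.conjTranspose_apply]
  have : star (A i j) * A i j = ((‖A i j‖ ^ 2 : ℝ) : ℂ) := by
    rw [mul_comm, Complex.star_def, Complex.mul_conj, Complex.normSq_eq_norm_sq]
  rw [this, Complex.ofReal_re]

lemma hs_eq_rtr' (A : Matrix m n ℂ) : hs A = rtr (A * Aᴴ) := by
  rw [hs_eq_rtr]
  simp only [rtr]
  rw [Matrix.trace_mul_comm]

lemma hs_conjTranspose (A : Matrix m n ℂ) : hs Aᴴ = hs A := by
  rw [hs_eq_rtr, hs_eq_rtr', Matrix.conjTranspose_conjTranspose]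

lemma hs_eq_zero {A : Matrix m n ℂ} (h : hs A = 0) : A = 0 := by
  ext i j
  have h1 := hs_entry A i j
  rw [h] at h1
  have h2 : ‖A i j‖ = 0 := by
    have := sq_nonneg ‖A i j‖
    exact pow_eq_zero_iff (two_ne_zero) |>.1 (le_antisymm h1 this)
  simpa using h2

@[simp] lemma hs_zero : hs (0 : Matrix m n ℂ) = 0 := by simp [hs]

lemma hs_neg (A : Matrix m n ℂ) : hs (-A) = hs A := by simp [hs]

lemma hs_smul (c : ℝ) (A : Matrix m n ℂ) : hs (c • A) = c ^ 2 * hs A := by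
  simp only [hs, Matrix.smul_apply, norm_smul, mul_pow, Finset.mul_sum, Real.norm_eq_abs, sq_abs]


lemma hs_add_le (A B : Matrix m n ℂ) : hs (A + B) ≤ 2 * hs A + 2 * hs B := by
  simp only [hs, Finset.mul_sum, ← Finset.sum_add_distrib]
  refine Finset.sum_le_sum fun i _ => Finset.sum_le_sum fun j _ => ?_
  rw [Matrix.add_apply]
  have h1 := norm_add_le (A i j) (B i j)
  have h2 := norm_nonneg (A i j + B i j)
  nlinarith [sq_nonneg (‖A i j‖ - ‖B i j‖), norm_nonneg (A i j), norm_nonneg (B i j)]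

lemma hs_sub_le (A B : Matrix m n ℂ) : hs (A - B) ≤ 2 * hs A + 2 * hs B := by
  rw [sub_eq_add_neg]
  refine (hs_add_le A (-B)).trans ?_
  rw [hs_neg]

lemma hs_mul_le (A : Matrix m n ℂ) (B : Matrix n p ℂ) : hs (A * B) ≤ hs A * hs B := by
  have key : ∀ i k, ‖(A * B) i k‖ ^ 2 ≤ (∑ j, ‖A i j‖ ^ 2) * (∑ j, ‖B j k‖ ^ 2) := by
    intro i k
    rw [Matrix.mul_apply]
    have h1 : ‖∑ j, A i j * B j k‖ ≤ ∑ j, ‖A i j‖ * ‖B j k‖ :=
      (norm_sum_le _ _).trans (Finset.sum_le_sum fun j _ => (norm_mul_le _ _))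
    have h2 := Finset.sum_mul_sq_le_sq_mul_sq Finset.univ (fun j => ‖A i j‖) (fun j => ‖B j k‖)
    exact (pow_le_pow_left₀ (norm_nonneg _) h1 2).trans h2
  calc hs (A * B) ≤ ∑ i, ∑ k, (∑ j, ‖A i j‖ ^ 2) * (∑ j, ‖B j k‖ ^ 2) :=
        Finset.sum_le_sum fun i _ => Finset.sum_le_sum fun k _ => key i k
    _ = hs A * hs B := by
        unfold hs
        rw [Finset.sum_comm (s := (Finset.univ : Finset n)) (t := (Finset.univ : Finset p)),
          Finset.sum_mul_sum]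

variable [DecidableEq n]

/-- `κ² - F² ≥ 0` for Hermitian `F` with `-κ ≤ F ≤ κ`. -/
lemma sq_le_of_abs_le {F : Matrix n n ℂ} {κ : ℝ} (hκ : 0 < κ)
    (h1 : (((κ : ℝ) : ℂ) • (1 : Matrix n n ℂ) - F).PosSemidef)
    (h2 : (((κ : ℝ) : ℂ) • (1 : Matrix n n ℂ) + F).PosSemidef) :
    (((κ ^ 2 : ℝ) : ℂ) • (1 : Matrix n n ℂ) - F * F).PosSemidef := by
  set k : ℂ := ((κ : ℝ) : ℂ) with hk
  have hk0 : k ≠ 0 := by
    rw [hk]; exact_mod_cast hκ.ne'
  set A : Matrix n n ℂ := k • (1 : Matrix n n ℂ) - F with hA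
  set B : Matrix n n ℂ := k • (1 : Matrix n n ℂ) + F with hB
  have e1 : (A * B * Aᴴ).PosSemidef := h2.mul_mul_conjTranspose_same A
  have e2 : (B * A * Bᴴ).PosSemidef := h1.mul_mul_conjTranspose_same B
  rw [h1.1] at e1
  rw [h2.1] at e2
  have e3 : (A * B * A + B * A * B).PosSemidef := e1.add e2
  have hc : (0 : ℂ) ≤ (((2 * κ)⁻¹ : ℝ) : ℂ) := by
    have : (0 : ℝ) ≤ (2 * κ)⁻¹ := by positivity
    exact_mod_cast this
  have e4 := e3.smul hc
  convert e4 using 1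
  have hAB : A * B = (k ^ 2) • (1 : Matrix n n ℂ) - F * F := by
    rw [hA, hB]
    simp only [Matrix.sub_mul, Matrix.mul_add, Matrix.smul_mul, Matrix.mul_smul, Matrix.one_mul,
      Matrix.mul_one]
    module
  have hBA : B * A = (k ^ 2) • (1 : Matrix n n ℂ) - F * F := by
    rw [hA, hB]
    simp only [Matrix.add_mul, Matrix.mul_sub, Matrix.smul_mul, Matrix.mul_smul, Matrix.one_mul,
      Matrix.mul_one]
    module
  rw [hAB, hBA, ← Matrix.mul_add]
  have hApB : A + B = (2 * k) • (1 : Matrix n n ℂ) := by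
    rw [hA, hB, two_mul, add_smul]
    abel
  rw [hApB, Matrix.mul_smul, Matrix.mul_one, smul_smul]
  have : (((2 * κ)⁻¹ : ℝ) : ℂ) * (2 * k) = 1 := by
    rw [hk]
    push_cast
    field_simp
  rw [this, one_smul]
  congr 2
  rw [hk]
  push_cast
  ring

lemma rtr_nonneg_of_posSemidef {A : Matrix n n ℂ} (h : A.PosSemidef) : 0 ≤ rtr A := by
  have := h.trace_nonneg
  exact (Complex.le_def.1 this).1

/-- Right multiplication by a Hermitian matrix between `-κ` and `κ`. -/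
lemma hs_mul_bdd_le {F : Matrix n n ℂ} {κ : ℝ} (hκ : 0 < κ)
    (h1 : (((κ : ℝ) : ℂ) • (1 : Matrix n n ℂ) - F).PosSemidef)
    (h2 : (((κ : ℝ) : ℂ) • (1 : Matrix n n ℂ) + F).PosSemidef) (hF : F.IsHermitian)
    [DecidableEq m] (A : Matrix m n ℂ) : hs (A * F) ≤ κ ^ 2 * hs A := by
  have h3 := sq_le_of_abs_le hκ h1 h2
  have h4 := rtr_nonneg_of_posSemidef (h3.mul_mul_conjTranspose_same A)
  have h5 : A * (((κ ^ 2 : ℝ) : ℂ) • (1 : Matrix n n ℂ) - F * F) * Aᴴ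
      = (κ ^ 2) • (A * Aᴴ) - (A * F) * (A * F)ᴴ := by
    rw [Matrix.conjTranspose_mul, hF, Matrix.mul_sub, Matrix.sub_mul, Matrix.mul_smul,
      Matrix.smul_mul, Matrix.mul_one]
    congr 1
    simp only [Matrix.mul_assoc]
  rw [h5, rtr_sub, rtr_smul, ← hs_eq_rtr', ← hs_eq_rtr'] at h4
  linarith

lemma hs_bdd_mul_le {F : Matrix n n ℂ} {κ : ℝ} (hκ : 0 < κ)
    (h1 : (((κ : ℝ) : ℂ) • (1 : Matrix n n ℂ) - F).PosSemidef)
    (h2 : (((κ : ℝ) : ℂ) • (1 : Matrix n n ℂ) + F).PosSemidef) (hF : F.IsHermitian)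
    [DecidableEq m] (A : Matrix n m ℂ) : hs (F * A) ≤ κ ^ 2 * hs A := by
  have := hs_mul_bdd_le hκ h1 h2 hF Aᴴ
  rw [hs_conjTranspose] at this
  rw [← hs_conjTranspose (F * A), Matrix.conjTranspose_mul, hF]
  exact this

end Crest.Agent.R332.Lim
end

-- ▼ part R332/LimYoung
section

/-! # Row 332: equality case of the Young trace inequality -/

set_option autoImplicit false
set_option linter.unusedSectionVars false

namespace Crest.Agent.R332.Lim

open Matrix Filter Topology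
open scoped ComplexOrder

/-- Scalar Young inequality with the constant `c = (α/(1+α))^α/(1+α)`. -/
lemma young_scalar' {α r w ρ : ℝ} (hα : 0 < α) (hr : r = 1 / α) (hw : 0 ≤ w) (hρ : 0 ≤ ρ) :
    0 ≤ (α / (1 + α)) ^ α / (1 + α) * w ^ (1 + α) - w * ρ + ρ ^ (1 + r) := by
  subst hr
  have h1α : 0 < 1 + α := by linarith
  have hq : (1 + 1 / α) = (1 + α) / α := by field_simp; ring
  set q : ℝ := (1 + α) / α with hqdef
  have hq0 : 0 < q := by positivity
  have hpq : (1 + α).HolderConjugate q := by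
    rw [Real.holderConjugate_iff]
    refine ⟨by linarith, ?_⟩
    rw [hqdef]; field_simp
  set t : ℝ := q ^ (-(1 / q)) with ht
  have ht0 : 0 < t := Real.rpow_pos_of_pos hq0 _
  have h := Real.young_inequality_of_nonneg (a := t * w) (b := ρ / t) (by positivity)
    (by positivity) hpq
  have h1 : t * w * (ρ / t) = w * ρ := by field_simp
  have h2 : (t * w) ^ (1 + α) / (1 + α) = (α / (1 + α)) ^ α / (1 + α) * w ^ (1 + α) := by
    rw [Real.mul_rpow ht0.le hw, ht, ← Real.rpow_mul hq0.le]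
    have : -(1 / q) * (1 + α) = -α := by
      rw [hqdef]; field_simp
    rw [this, Real.rpow_neg hq0.le, ← Real.inv_rpow hq0.le]
    have : q⁻¹ = α / (1 + α) := by rw [hqdef, inv_div]
    rw [this]
    ring
  have h3 : (ρ / t) ^ q / q = ρ ^ (1 + 1 / α) := by
    rw [Real.div_rpow hρ ht0.le, ht, ← Real.rpow_mul hq0.le]
    have : -(1 / q) * q = -1 := by field_simp
    rw [this, Real.rpow_neg_one, hq]
    field_simp
  rw [h1, h2, h3] at h
  linarith

lemma young_scalar_eq {α r w ρ : ℝ} (hα : 0 < α) (hr : r = 1 / α) (hw : 0 ≤ w) (hρ : 0 ≤ ρ)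
    (h : (α / (1 + α)) ^ α / (1 + α) * w ^ (1 + α) - w * ρ + ρ ^ (1 + r) = 0) :
    w = (1 + r) * ρ ^ r := by
  have hr0 : 0 < r := by rw [hr]; positivity
  rcases hρ.eq_or_lt with h0 | h0
  · rw [← h0, Real.zero_rpow (by linarith)] at h
    rw [← h0, Real.zero_rpow hr0.ne']
    have hc : (α / (1 + α)) ^ α / (1 + α) ≠ 0 := by
      have : 0 < 1 + α := by linarith
      positivity
    have hw1 : w ^ (1 + α) = 0 := by
      have : (α / (1 + α)) ^ α / (1 + α) * w ^ (1 + α) = 0 := by linarith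
      rcases mul_eq_zero.1 this with h' | h'
      · exact absurd h' hc
      · exact h'
    rw [Real.rpow_eq_zero hw (by linarith)] at hw1
    rw [hw1]
    ring
  · have hmin : IsLocalMin (fun x : ℝ => (α / (1 + α)) ^ α / (1 + α) * w ^ (1 + α) - w * x +
        x ^ (1 + r)) ρ := by
      filter_upwards [lt_mem_nhds h0] with x hx
      rw [h]
      exact young_scalar' hα hr hw hx.le
    have hd : HasDerivAt (fun x : ℝ => (α / (1 + α)) ^ α / (1 + α) * w ^ (1 + α) - w * x +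
        x ^ (1 + r)) (0 - w * 1 + (1 + r) * ρ ^ (1 + r - 1)) ρ := by
      refine ((hasDerivAt_const _ _).sub ((hasDerivAt_id ρ).const_mul w)).add ?_
      exact Real.hasDerivAt_rpow_const (Or.inl h0.ne')
    have := hmin.hasDerivAt_eq_zero hd
    have e : 1 + r - 1 = r := by ring
    rw [e] at this
    linarith

variable {n : Type*} [Fintype n] [DecidableEq n]

/-- If `tr (A - B)^2`-type expression in the pair weights vanishes then `A = B`. -/
lemma eq_of_wt {A B : Matrix n n ℂ} (hA : A.IsHermitian) (hB : B.IsHermitian) (f : ℝ → ℝ)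
    (h : ∀ i j, wt hA hB i j = 0 ∨ hA.eigenvalues i = f (hB.eigenvalues j)) :
    A = cfc f B := by
  have hcA : cfc (fun t : ℝ => t) A = A := cfc_id' ℝ A
  have e : ∀ x y : ℝ → ℝ, rtr (cfc x A * cfc y B) =
      ∑ i, ∑ j, x (hA.eigenvalues i) * y (hB.eigenvalues j) * wt hA hB i j :=
    fun x y => rtr_cfc_mul hA hB x y
  have hX : (cfc f B).IsHermitian := cfc_predicate (R := ℝ) (p := IsSelfAdjoint) f B
  have h1 : hs (A - cfc f B) = 0 := by
    have e1 : A * A = cfc (fun t : ℝ => t * t) A * cfc (fun _ : ℝ => (1 : ℝ)) B := by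
      rw [cfc_mul' (A := A) (fun t : ℝ => t) (fun t : ℝ => t), hcA]
      rw [show cfc (fun _ : ℝ => (1 : ℝ)) B = 1 from cfc_const_one ℝ B, Matrix.mul_one]
    have e2 : A * cfc f B = cfc (fun t : ℝ => t) A * cfc f B := by rw [hcA]
    have e3 : cfc f B * cfc f B = cfc (fun _ : ℝ => (1 : ℝ)) A * cfc (fun t : ℝ => f t * f t) B := by
      rw [cfc_mul' (A := B) f f]
      rw [show cfc (fun _ : ℝ => (1 : ℝ)) A = 1 from cfc_const_one ℝ A, Matrix.one_mul]
    rw [hs_eq_rtr, Matrix.conjTranspose_sub, hA, hX, Matrix.sub_mul, Matrix.mul_sub,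
      Matrix.mul_sub, rtr_sub, rtr_sub, rtr_sub, rtr_mul_comm (cfc f B) A, e1, e2, e3, e, e, e]
    rw [← Finset.sum_sub_distrib, ← Finset.sum_sub_distrib, ← Finset.sum_sub_distrib]
    refine Finset.sum_eq_zero fun i _ => ?_
    rw [← Finset.sum_sub_distrib, ← Finset.sum_sub_distrib, ← Finset.sum_sub_distrib]
    refine Finset.sum_eq_zero fun j _ => ?_
    rcases h i j with h' | h'
    · rw [h']; ring
    · rw [h']; ring
  exact sub_eq_zero.1 (hs_eq_zero h1)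

/-- **Equality case of Young's trace inequality.** -/
theorem young_trace_eq {W R : Matrix n n ℂ} (hW : W.PosSemidef) (hR : R.PosSemidef)
    {α r : ℝ} (hα : 0 < α) (hr : r = 1 / α)
    (h : (α / (1 + α)) ^ α / (1 + α) * trp W (1 + α) - rtr (W * R) + trp R (1 + r) = 0) :
    W = (1 + r) • mpow R r := by
  have e : ∀ x y : ℝ → ℝ, rtr (cfc x W * cfc y R) =
      ∑ i, ∑ j, x (hW.1.eigenvalues i) * y (hR.1.eigenvalues j) * wt hW.1 hR.1 i j :=
    fun x y => rtr_cfc_mul hW.1 hR.1 x y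
  have e1 : trp W (1 + α) = rtr (cfc (fun t : ℝ => t ^ (1 + α)) W *
      cfc (fun _ : ℝ => (1 : ℝ)) R) := by
    rw [show cfc (fun _ : ℝ => (1 : ℝ)) R = 1 from cfc_const_one ℝ R hR.1, Matrix.mul_one]
    rfl
  have e2 : rtr (W * R) = rtr (cfc (fun t : ℝ => t) W * cfc (fun t : ℝ => t) R) := by
    rw [show cfc (fun t : ℝ => t) W = W from cfc_id' ℝ W hW.1,
      show cfc (fun t : ℝ => t) R = R from cfc_id' ℝ R hR.1]
  have e3 : trp R (1 + r) = rtr (cfc (fun _ : ℝ => (1 : ℝ)) W *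
      cfc (fun t : ℝ => t ^ (1 + r)) R) := by
    rw [show cfc (fun _ : ℝ => (1 : ℝ)) W = 1 from cfc_const_one ℝ W hW.1, Matrix.one_mul]
    rfl
  rw [e1, e2, e3, e, e, e, Finset.mul_sum, ← Finset.sum_sub_distrib,
    ← Finset.sum_add_distrib] at h
  simp only [Finset.mul_sum, ← Finset.sum_sub_distrib, ← Finset.sum_add_distrib] at h
  have hnn : ∀ i j, 0 ≤ (α / (1 + α)) ^ α / (1 + α) *
      ((hW.1.eigenvalues i) ^ (1 + α) * 1 * wt hW.1 hR.1 i j) -
      (hW.1.eigenvalues i) * (hR.1.eigenvalues j) * wt hW.1 hR.1 i j +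
      1 * (hR.1.eigenvalues j) ^ (1 + r) * wt hW.1 hR.1 i j := by
    intro i j
    have h1 := young_scalar' hα hr (hW.eigenvalues_nonneg i) (hR.eigenvalues_nonneg j)
    have h2 := wt_nonneg hW.1 hR.1 i j
    have := mul_nonneg h1 h2
    calc (0 : ℝ) ≤ _ := this
      _ = _ := by ring
  have hz : ∀ i j, (α / (1 + α)) ^ α / (1 + α) *
      ((hW.1.eigenvalues i) ^ (1 + α) * 1 * wt hW.1 hR.1 i j) -
      (hW.1.eigenvalues i) * (hR.1.eigenvalues j) * wt hW.1 hR.1 i j +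
      1 * (hR.1.eigenvalues j) ^ (1 + r) * wt hW.1 hR.1 i j = 0 := by
    intro i j
    have h1 := (Finset.sum_eq_zero_iff_of_nonneg
      (fun i _ => Finset.sum_nonneg fun j _ => hnn i j)).1 h i (Finset.mem_univ i)
    exact (Finset.sum_eq_zero_iff_of_nonneg (fun j _ => hnn i j)).1 h1 j (Finset.mem_univ j)
  have hfin : W = cfc (fun t : ℝ => (1 + r) * t ^ r) R := by
    refine eq_of_wt hW.1 hR.1 _ fun i j => ?_
    by_cases hwt : wt hW.1 hR.1 i j = 0
    · exact Or.inl hwt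
    · right
      refine young_scalar_eq hα hr (hW.eigenvalues_nonneg i) (hR.eigenvalues_nonneg j) ?_
      have h1 := hz i j
      have h2 : ((α / (1 + α)) ^ α / (1 + α) * (hW.1.eigenvalues i) ^ (1 + α) -
        hW.1.eigenvalues i * hR.1.eigenvalues j + hR.1.eigenvalues j ^ (1 + r)) *
        wt hW.1 hR.1 i j = 0 := by
        rw [← h1]; ring
      rcases mul_eq_zero.1 h2 with h3 | h3
      · exact h3
      · exact absurd h3 hwt
  rw [hfin, mpow]
  exact cfc_const_mul (1 + r) (fun t : ℝ => t ^ r) R (contOn_spec _)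

end Crest.Agent.R332.Lim
end

-- ▼ part R332/LimSys
section

/-! # Row 332: passage to the limit in the `m × m` system -/

set_option autoImplicit false
set_option linter.unusedSectionVars false

namespace Crest.Agent.R332.Lim

open Matrix Filter Topology MeasureTheory
open scoped ComplexOrder

variable {m : Type*} [Fintype m] [DecidableEq m]

lemma tendsto_matrix_iff {ι : Type*} {l : Filter ι} {A : ι → Matrix m m ℂ} {B : Matrix m m ℂ} :
    Tendsto A l (𝓝 B) ↔ ∀ i j, Tendsto (fun k => A k i j) l (𝓝 (B i j)) := by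
  constructor
  · intro h i j
    have hc : Continuous fun X : Matrix m m ℂ => X i j := continuous_id.matrix_elem i j
    exact (hc.tendsto B).comp h
  · intro h
    exact tendsto_pi_nhds.2 fun i => tendsto_pi_nhds.2 fun j => h i j

lemma isHermitian_of_tendsto {A : ℕ → Matrix m m ℂ} {B : Matrix m m ℂ}
    (h : Tendsto A atTop (𝓝 B)) (hA : ∀ k, (A k).IsHermitian) : B.IsHermitian := by
  have h1 : Tendsto (fun k => (A k)ᴴ) atTop (𝓝 Bᴴ) :=
    (continuous_id.matrix_conjTranspose.tendsto B).comp h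
  have h2 : (fun k => (A k)ᴴ) = A := funext fun k => hA k
  rw [h2] at h1
  exact tendsto_nhds_unique h1 h

lemma posSemidef_of_tendsto {A : ℕ → Matrix m m ℂ} {B : Matrix m m ℂ}
    (h : Tendsto A atTop (𝓝 B)) (hA : ∀ k, (A k).PosSemidef) : B.PosSemidef := by
  refine Matrix.PosSemidef.of_dotProduct_mulVec_nonneg
    (isHermitian_of_tendsto h fun k => (hA k).1) fun v => ?_
  have h1 : Tendsto (fun k => star v ⬝ᵥ (A k *ᵥ v)) atTop (𝓝 (star v ⬝ᵥ (B *ᵥ v))) := by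
    have hc : Continuous fun X : Matrix m m ℂ => star v ⬝ᵥ (X *ᵥ v) := by
      exact continuous_const.dotProduct (continuous_id.matrix_mulVec continuous_const)
    exact (hc.tendsto B).comp h
  exact ge_of_tendsto' h1 fun k => (hA k).dotProduct_mulVec_nonneg v

lemma tendsto_mpow {A : ℕ → Matrix m m ℂ} {B : Matrix m m ℂ}
    (h : Tendsto A atTop (𝓝 B)) (hA : ∀ k, (A k).IsHermitian) {q : ℝ} (hq : 0 ≤ q) :
    Tendsto (fun k => mpow (A k) q) atTop (𝓝 (mpow B q)) := by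
  have hB := isHermitian_of_tendsto h hA
  have hc : Continuous (fun X : {X : Matrix m m ℂ // X.IsHermitian} => mpow (X : Matrix m m ℂ) q) :=
    continuous_mpow continuous_subtype_val (fun X => X.2) hq
  have h1 : Tendsto (fun k => (⟨A k, hA k⟩ : {X : Matrix m m ℂ // X.IsHermitian})) atTop
      (𝓝 ⟨B, hB⟩) := by
    rw [tendsto_subtype_rng]
    exact h
  exact (hc.tendsto ⟨B, hB⟩).comp h1

lemma tendsto_rtr {A : ℕ → Matrix m m ℂ} {B : Matrix m m ℂ}
    (h : Tendsto A atTop (𝓝 B)) : Tendsto (fun k => rtr (A k)) atTop (𝓝 (rtr B)) := by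
  have hc : Continuous (fun X : Matrix m m ℂ => rtr X) := continuous_rtr continuous_id
  exact (hc.tendsto B).comp h

/-- Limit of approximate integral equations. -/
lemma integral_eq_of_limit {u v : ℕ → ℝ → ℂ} {U V : ℝ → ℂ} {g : ℕ → ℝ → ℝ} {C B : ℝ}
    (hu : ∀ x, Tendsto (fun k => u k x) atTop (𝓝 (U x)))
    (hv : ∀ x, Tendsto (fun k => v k x) atTop (𝓝 (V x)))
    (hvc : ∀ k, Continuous (v k)) (hvb : ∀ k x, ‖v k x‖ ≤ B)
    (hg0 : ∀ k x, 0 ≤ g k x) (hgi : ∀ k, Integrable (g k))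
    (hglim : Tendsto (fun k => ∫ x, g k x) atTop (𝓝 0)) (hC : 0 ≤ C)
    (heq : ∀ k x y, x ≤ y → ‖u k y - u k x - ∫ t in x..y, v k t‖ ≤
      C * ∫ t in x..y, Real.sqrt (g k t)) {x y : ℝ} (hxy : x ≤ y) :
    U y - U x = ∫ t in x..y, V t := by
  have h1 : Tendsto (fun k => ∫ t in x..y, v k t) atTop (𝓝 (∫ t in x..y, V t)) := by
    refine intervalIntegral.tendsto_integral_filter_of_dominated_convergence (fun _ => B)
      (Eventually.of_forall fun k => ((hvc k).aestronglyMeasurable).restrict)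
      (Eventually.of_forall fun k => Eventually.of_forall fun t _ => hvb k t)
      intervalIntegrable_const (Eventually.of_forall fun t _ => hv t)
  have h2 : Tendsto (fun k => ‖u k y - u k x - ∫ t in x..y, v k t‖) atTop
      (𝓝 ‖U y - U x - ∫ t in x..y, V t‖) := (((hu y).sub (hu x)).sub h1).norm
  have h3 : ∀ t : ℝ, 0 < t → ‖U y - U x - ∫ t in x..y, V t‖ ≤ C * (t * (y - x)) := by
    intro t ht
    have h4 : Tendsto (fun k => C * (t * (y - x) + (∫ x, g k x) / (4 * t))) atTop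
        (𝓝 (C * (t * (y - x) + 0 / (4 * t)))) :=
      ((hglim.div_const _).const_add _).const_mul _
    rw [zero_div, add_zero] at h4
    refine le_of_tendsto_of_tendsto' h2 h4 fun k => ?_
    refine (heq k x y hxy).trans ?_
    exact mul_le_mul_of_nonneg_left (integral_sqrt_le (hg0 k) (hgi k) hxy ht).2 hC
  have h5 : ‖U y - U x - ∫ t in x..y, V t‖ ≤ 0 := by
    have h6 : Tendsto (fun t : ℝ => C * (t * (y - x))) (𝓝[>] 0) (𝓝 (C * (0 * (y - x)))) := by
      have : Continuous fun t : ℝ => C * (t * (y - x)) := by fun_prop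
      exact (this.tendsto 0).mono_left nhdsWithin_le_nhds
    rw [zero_mul, mul_zero] at h6
    exact ge_of_tendsto h6 (by filter_upwards [self_mem_nhdsWithin] with t ht using h3 t ht)
  have h7 := norm_le_zero_iff.1 h5
  exact sub_eq_zero.1 h7

lemma hasDerivAt_of_integral_eq {U V : ℝ → ℂ} (hV : Continuous V)
    (h : ∀ x y, x ≤ y → U y - U x = ∫ t in x..y, V t) (x : ℝ) : HasDerivAt U (V x) x := by
  have h1 : ∀ y, U y = U x + ∫ t in x..y, V t := by
    intro y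
    rcases le_total x y with hxy | hxy
    · rw [← h x y hxy]; ring
    · rw [intervalIntegral.integral_symm, ← h y x hxy]; ring
  have h2 : U = fun y => U x + ∫ t in x..y, V t := funext h1
  have h3 : HasDerivAt (fun y => ∫ t in x..y, V t) (V x) x :=
    intervalIntegral.integral_hasDerivAt_right (hV.intervalIntegrable _ _)
      (hV.stronglyMeasurableAtFilter _ _) hV.continuousAt
  rw [h2]
  exact h3.const_add _

end Crest.Agent.R332.Lim
end

-- ▼ part R332/LimMain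
section

/-! # Row 332: the limit system for near-extremal families -/

set_option autoImplicit false
set_option linter.unusedSectionVars false

namespace Crest.Agent.R332.Lim

open Matrix Filter Topology MeasureTheory
open scoped ComplexOrder

variable {m : Type*} [Fintype m] [DecidableEq m]

lemma tendsto_mmul {A B : ℕ → Matrix m m ℂ} {a b : Matrix m m ℂ}
    (hA : Tendsto A atTop (𝓝 a)) (hB : Tendsto B atTop (𝓝 b)) :
    Tendsto (fun k => A k * B k) atTop (𝓝 (a * b)) := by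
  rw [tendsto_matrix_iff]
  intro i j
  simp only [Matrix.mul_apply]
  exact tendsto_finsetSum _ fun l _ =>
    ((tendsto_matrix_iff.1 hA) i l).mul ((tendsto_matrix_iff.1 hB) l j)

/-- Approximate `m × m` systems with errors controlled by `√g_k`, `∫ g_k → 0`, converge along a
subsequence to an exact system, and the potential is `(1+r) R^r` in the limit. -/
theorem lim_system {α r κ C : ℝ} (hα : 0 < α) (hr : r = 1 / α) (hr1 : 1 < r) (hC : 0 ≤ C)
    {W : ℝ → Matrix m m ℂ} (hWp : ∀ x, (W x).PosSemidef)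
    (R S Q : ℕ → ℝ → Matrix m m ℂ) (g : ℕ → ℝ → ℝ)
    (hg0 : ∀ k x, 0 ≤ g k x) (hgi : ∀ k, Integrable (g k))
    (hglim : Tendsto (fun k => ∫ x, g k x) atTop (𝓝 0))
    (hRp : ∀ k x, (R k x).PosSemidef) (hSh : ∀ k x, (S k x).IsHermitian)
    (hRc : ∀ k, Continuous (R k)) (hSc : ∀ k, Continuous (S k)) (hQc : ∀ k, Continuous (Q k))
    (hRb : ∀ k x i j, ‖R k x i j‖ ≤ C) (hSb : ∀ k x i j, ‖S k x i j‖ ≤ C)
    (hQb : ∀ k x i j, ‖Q k x i j‖ ≤ C)
    (hRPb : ∀ k x i j, ‖mpow (R k x) (1 + r) i j‖ ≤ C)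
    (hRh : ∀ k x y i j, ‖R k x i j - R k y i j‖ ≤ C * (Real.sqrt |x - y| + |x - y|))
    (hSh' : ∀ k x y i j, ‖S k x i j - S k y i j‖ ≤ C * (Real.sqrt |x - y| + |x - y|))
    (hQh : ∀ k x y i j, ‖Q k x i j - Q k y i j‖ ≤ C * (Real.sqrt |x - y| + |x - y|))
    (hReq : ∀ k x y, x ≤ y → ∀ i j, ‖R k y i j - R k x i j - ∫ t in x..y, 2 * S k t i j‖ ≤
      C * ∫ t in x..y, Real.sqrt (g k t))
    (hSeq : ∀ k x y, x ≤ y → ∀ i j, ‖S k y i j - S k x i j -
      ∫ t in x..y, (2 * Q k t i j - (r : ℂ) * mpow (R k t) (1 + r) i j)‖ ≤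
      C * ∫ t in x..y, Real.sqrt (g k t))
    (hcomm : ∀ k x i j, ‖(S k x * mpow (R k x) r - mpow (R k x) r * S k x) i j‖ ≤
      C * Real.sqrt (g k x))
    (hQ : ∀ k x i j, ‖(mpow (R k x) r * Q k x - S k x * mpow (R k x) (r - 1) * S k x) i j‖ ≤
      C * Real.sqrt (g k x))
    (hlo : ∀ k x, (((κ : ℝ) : ℂ) • R k x + S k x).PosSemidef)
    (hhi : ∀ k x, (((κ : ℝ) : ℂ) • R k x - S k x).PosSemidef)
    (hy : ∀ k x, (α / (1 + α)) ^ α / (1 + α) * trp (W x) (1 + α) - rtr (W x * R k x) +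
      trp (R k x) (1 + r) ≤ g k x) :
    ∃ R S Q : ℝ → Matrix m m ℂ,
      (∀ x, (R x).PosSemidef) ∧ (∀ x, (S x).IsHermitian) ∧
      Continuous R ∧ Continuous S ∧ Continuous Q ∧
      (∀ x i j, HasDerivAt (fun y => R y i j) (2 * S x i j) x) ∧
      (∀ x i j, HasDerivAt (fun y => S y i j)
        (2 * Q x i j - (r : ℂ) * mpow (R x) (1 + r) i j) x) ∧
      (∀ x, S x * R x = R x * S x) ∧
      (∀ x, mpow (R x) r * Q x = S x * mpow (R x) (r - 1) * S x) ∧
      (∀ x, (((κ : ℝ) : ℂ) • R x + S x).PosSemidef) ∧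
      (∀ x, (((κ : ℝ) : ℂ) • R x - S x).PosSemidef) ∧
      (∀ᵐ x : ℝ, W x = (1 + r) • mpow (R x) r) := by
  have hr0 : 0 < r := by linarith
  -- subsequence with `g → 0` a.e.
  obtain ⟨φ₁, hφ₁, hae⟩ := exists_subseq_ae_zero g hg0 hgi hglim
  -- Arzelà–Ascoli
  set f : ℕ → ℝ → (m → m → ℂ) × (m → m → ℂ) × (m → m → ℂ) := fun k x =>
    (fun i j => R (φ₁ k) x i j, fun i j => S (φ₁ k) x i j, fun i j => Q (φ₁ k) x i j) with hf
  set ω : ℝ → ℝ := fun t => C * (Real.sqrt |t| + |t|) with hω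
  have hωlim : Tendsto ω (𝓝 0) (𝓝 0) := by
    have hc : Continuous ω := by rw [hω]; fun_prop
    have := hc.tendsto 0
    simpa [hω] using this
  have hω0 : ∀ t, 0 ≤ ω t := fun t => by
    rw [hω]; positivity
  have hωabs : ∀ t, ω |t| = ω t := fun t => by
    simp only [hω, abs_abs]
  obtain ⟨φ₂, hφ₂, G, hG, -, hGω⟩ := exists_subseq_tendsto f C (by
      intro k x
      simp only [hf, Prod.norm_def, sup_le_iff]
      exact ⟨(pi_norm_le_iff_of_nonneg hC).2 fun i => (pi_norm_le_iff_of_nonneg hC).2 fun j =>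
          hRb _ _ _ _,
        (pi_norm_le_iff_of_nonneg hC).2 fun i => (pi_norm_le_iff_of_nonneg hC).2 fun j =>
          hSb _ _ _ _,
        (pi_norm_le_iff_of_nonneg hC).2 fun i => (pi_norm_le_iff_of_nonneg hC).2 fun j =>
          hQb _ _ _ _⟩) ω hωlim (by
      intro k x y
      simp only [hf, Prod.mk_sub_mk, Prod.norm_def, sup_le_iff]
      rw [hωabs]
      have h0 := hω0 (x - y)
      exact ⟨(pi_norm_le_iff_of_nonneg h0).2 fun i => (pi_norm_le_iff_of_nonneg h0).2 fun j =>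
          hRh _ _ _ _ _,
        (pi_norm_le_iff_of_nonneg h0).2 fun i => (pi_norm_le_iff_of_nonneg h0).2 fun j =>
          hSh' _ _ _ _ _,
        (pi_norm_le_iff_of_nonneg h0).2 fun i => (pi_norm_le_iff_of_nonneg h0).2 fun j =>
          hQh _ _ _ _ _⟩)
  set φ : ℕ → ℕ := fun k => φ₁ (φ₂ k) with hφ
  have hφmono : Tendsto φ atTop atTop := hφ₁.tendsto_atTop.comp hφ₂.tendsto_atTop
  set R' : ℝ → Matrix m m ℂ := fun x => Matrix.of (G x).1 with hR'
  set S' : ℝ → Matrix m m ℂ := fun x => Matrix.of (G x).2.1 with hS'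
  set Q' : ℝ → Matrix m m ℂ := fun x => Matrix.of (G x).2.2 with hQ'
  have hGc : Continuous G := by
    rw [Metric.continuous_iff]
    intro x ε hε
    have h1 : ∀ᶠ t in 𝓝 (0 : ℝ), ω t < ε := hωlim.eventually (gt_mem_nhds hε)
    obtain ⟨δ, hδ, hδ'⟩ := Metric.eventually_nhds_iff.1 h1
    refine ⟨δ, hδ, fun y hy => ?_⟩
    rw [dist_eq_norm]
    refine (hGω y x).trans_lt ?_
    rw [hωabs]
    apply hδ'
    rw [Real.dist_eq, sub_zero]
    exact hy
  have hRlim : ∀ x, Tendsto (fun k => R (φ k) x) atTop (𝓝 (R' x)) := fun x => by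
    rw [tendsto_matrix_iff]
    intro i j
    have h1 := (((continuous_apply j).comp ((continuous_apply i).comp
      (continuous_fst (X := m → m → ℂ) (Y := (m → m → ℂ) × (m → m → ℂ))))).tendsto (G x)).comp (hG x)
    exact h1
  have hSlim : ∀ x, Tendsto (fun k => S (φ k) x) atTop (𝓝 (S' x)) := fun x => by
    rw [tendsto_matrix_iff]
    intro i j
    have h1 := (((continuous_apply j).comp ((continuous_apply i).comp
      ((continuous_fst (X := m → m → ℂ) (Y := m → m → ℂ)).comp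
      (continuous_snd (X := m → m → ℂ) (Y := (m → m → ℂ) × (m → m → ℂ)))))).tendsto (G x)).comp
      (hG x)
    exact h1
  have hQlim : ∀ x, Tendsto (fun k => Q (φ k) x) atTop (𝓝 (Q' x)) := fun x => by
    rw [tendsto_matrix_iff]
    intro i j
    have h1 := (((continuous_apply j).comp ((continuous_apply i).comp
      ((continuous_snd (X := m → m → ℂ) (Y := m → m → ℂ)).comp
      (continuous_snd (X := m → m → ℂ) (Y := (m → m → ℂ) × (m → m → ℂ)))))).tendsto (G x)).comp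
      (hG x)
    exact h1
  have hR'c : Continuous R' := continuous_fst.comp hGc
  have hS'c : Continuous S' := (continuous_fst.comp continuous_snd).comp hGc
  have hQ'c : Continuous Q' := (continuous_snd.comp continuous_snd).comp hGc
  have hR'p : ∀ x, (R' x).PosSemidef := fun x => posSemidef_of_tendsto (hRlim x) fun k => hRp _ _
  have hS'h : ∀ x, (S' x).IsHermitian := fun x => isHermitian_of_tendsto (hSlim x) fun k => hSh _ _
  have hPowlim : ∀ x q, 0 ≤ q → Tendsto (fun k => mpow (R (φ k) x) q) atTop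
      (𝓝 (mpow (R' x) q)) := fun x q hq => tendsto_mpow (hRlim x) (fun k => (hRp _ _).1) hq
  have hglim' : Tendsto (fun k => ∫ x, g (φ k) x) atTop (𝓝 0) := hglim.comp hφmono
  -- a.e. convergence of `g (φ k)`
  have hae' : ∀ᵐ x : ℝ, Tendsto (fun k => g (φ k) x) atTop (𝓝 0) := by
    filter_upwards [hae] with x hx
    exact hx.comp hφ₂.tendsto_atTop
  have hRpowc : Continuous fun x => mpow (R' x) (1 + r) :=
    continuous_mpow hR'c (fun x => (hR'p x).1) (by linarith)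
  have hRrc : Continuous fun x => mpow (R' x) r :=
    continuous_mpow hR'c (fun x => (hR'p x).1) hr0.le
  have hRr1c : Continuous fun x => mpow (R' x) (r - 1) :=
    continuous_mpow hR'c (fun x => (hR'p x).1) (by linarith)
  -- derivative equations
  have hRder : ∀ x i j, HasDerivAt (fun y => R' y i j) (2 * S' x i j) x := by
    intro x i j
    refine hasDerivAt_of_integral_eq (U := fun y => R' y i j) (V := fun y => 2 * S' y i j)
      (continuous_const.mul (hS'c.matrix_elem i j)) (fun a b hab => ?_) x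
    refine integral_eq_of_limit (u := fun k y => R (φ k) y i j)
      (v := fun k y => 2 * S (φ k) y i j) (g := fun k => g (φ k)) (C := C) (B := 2 * C)
      (fun x => (tendsto_matrix_iff.1 (hRlim x)) i j)
      (fun x => ((tendsto_matrix_iff.1 (hSlim x)) i j).const_mul 2)
      (fun k => continuous_const.mul ((hSc _).matrix_elem i j)) ?_ (fun k => hg0 _)
      (fun k => hgi _) hglim' hC (fun k a b hab => hReq _ a b hab i j) hab
    intro k x
    rw [norm_mul]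
    have := hSb (φ k) x i j
    norm_num
    linarith
  have hSder : ∀ x i j, HasDerivAt (fun y => S' y i j)
      (2 * Q' x i j - (r : ℂ) * mpow (R' x) (1 + r) i j) x := by
    intro x i j
    refine hasDerivAt_of_integral_eq (U := fun y => S' y i j)
      (V := fun y => 2 * Q' y i j - (r : ℂ) * mpow (R' y) (1 + r) i j)
      ((continuous_const.mul (hQ'c.matrix_elem i j)).sub
        (continuous_const.mul (hRpowc.matrix_elem i j))) (fun a b hab => ?_) x
    refine integral_eq_of_limit (u := fun k y => S (φ k) y i j)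
      (v := fun k y => 2 * Q (φ k) y i j - (r : ℂ) * mpow (R (φ k) y) (1 + r) i j)
      (g := fun k => g (φ k)) (C := C) (B := 2 * C + r * C)
      (fun x => (tendsto_matrix_iff.1 (hSlim x)) i j)
      (fun x => (((tendsto_matrix_iff.1 (hQlim x)) i j).const_mul 2).sub
        (((tendsto_matrix_iff.1 (hPowlim x (1 + r) (by linarith))) i j).const_mul _))
      (fun k => (continuous_const.mul ((hQc _).matrix_elem i j)).sub
        (continuous_const.mul ((continuous_mpow (hRc _) (fun x => (hRp _ x).1)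
          (by linarith)).matrix_elem i j))) ?_ (fun k => hg0 _)
      (fun k => hgi _) hglim' hC (fun k a b hab => hSeq _ a b hab i j) hab
    intro k x
    refine (norm_sub_le _ _).trans ?_
    rw [norm_mul, norm_mul, Complex.norm_real, Real.norm_of_nonneg hr0.le]
    have h1 := hQb (φ k) x i j
    have h2 := hRPb (φ k) x i j
    have h3 : ‖(2 : ℂ)‖ = 2 := by norm_num
    rw [h3]
    have := mul_le_mul_of_nonneg_left h2 hr0.le
    linarith
  -- algebraic relations hold a.e., hence everywhere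
  have hzero : ∀ (A : ℕ → ℝ → Matrix m m ℂ) (B : ℝ → Matrix m m ℂ), Continuous B →
      (∀ x, Tendsto (fun k => A k x) atTop (𝓝 (B x))) →
      (∀ k x i j, ‖A k x i j‖ ≤ C * Real.sqrt (g (φ k) x)) → ∀ x, B x = 0 := by
    intro A B hBc hlim hle
    have h1 : ∀ᵐ x : ℝ, B x = 0 := by
      filter_upwards [hae'] with x hx
      ext i j
      have h2 : Tendsto (fun k => A k x i j) atTop (𝓝 (B x i j)) :=
        (tendsto_matrix_iff.1 (hlim x)) i j
      have h3 : Tendsto (fun k => C * Real.sqrt (g (φ k) x)) atTop (𝓝 0) := by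
        have := (Real.continuous_sqrt.tendsto 0).comp hx
        rw [Real.sqrt_zero] at this
        have := this.const_mul C
        rw [mul_zero] at this
        exact this
      have h4 : Tendsto (fun k => A k x i j) atTop (𝓝 0) :=
        squeeze_zero_norm (fun k => hle k x i j) h3
      exact tendsto_nhds_unique h2 h4
    have h5 : B = fun _ => 0 := by
      have := (Continuous.ae_eq_iff_eq volume hBc continuous_const (g := fun _ : ℝ => (0 : Matrix m m ℂ))).1 h1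
      exact this
    intro x
    rw [h5]
  have hcomm' : ∀ x, S' x * mpow (R' x) r - mpow (R' x) r * S' x = 0 := by
    refine hzero (fun k x => S (φ k) x * mpow (R (φ k) x) r - mpow (R (φ k) x) r * S (φ k) x)
      _ ((hS'c.matrix_mul hRrc).sub (hRrc.matrix_mul hS'c)) (fun x => ?_)
      (fun k x i j => hcomm (φ k) x i j)
    exact (tendsto_mmul (hSlim x) (hPowlim x r hr0.le)).sub
      (tendsto_mmul (hPowlim x r hr0.le) (hSlim x))
  have hQ'' : ∀ x, mpow (R' x) r * Q' x - S' x * mpow (R' x) (r - 1) * S' x = 0 := by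
    refine hzero (fun k x => mpow (R (φ k) x) r * Q (φ k) x -
      S (φ k) x * mpow (R (φ k) x) (r - 1) * S (φ k) x)
      _ ((hRrc.matrix_mul hQ'c).sub ((hS'c.matrix_mul hRr1c).matrix_mul hS'c)) (fun x => ?_)
      (fun k x i j => hQ (φ k) x i j)
    exact (tendsto_mmul (hPowlim x r hr0.le) (hQlim x)).sub
      (tendsto_mmul (tendsto_mmul (hSlim x) (hPowlim x (r - 1) (by linarith))) (hSlim x))
  refine ⟨R', S', Q', hR'p, hS'h, hR'c, hS'c, hQ'c, hRder, hSder, ?_, ?_, ?_, ?_, ?_⟩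
  · -- commutation with `R`
    intro x
    have h1 : Commute (mpow (R' x) r) (S' x) := (sub_eq_zero.1 (hcomm' x)).symm
    have h2 : mpow (mpow (R' x) r) (1 / r) = R' x := by
      rw [mpow_mpow (hR'p x), mul_one_div_cancel hr0.ne', mpow_one (hR'p x).1]
    have h3 : Commute (mpow (mpow (R' x) r) (1 / r)) (S' x) := by
      show mpow (mpow (R' x) r) (1 / r) * S' x = S' x * mpow (mpow (R' x) r) (1 / r)
      exact cfc_intertwine (mpow_isHermitian _ _) (mpow_isHermitian _ _) h1 _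
    rw [h2] at h3
    exact h3.symm
  · intro x
    exact sub_eq_zero.1 (hQ'' x)
  · intro x
    refine posSemidef_of_tendsto (A := fun k => ((κ : ℝ) : ℂ) • R (φ k) x + S (φ k) x) ?_
      fun k => hlo _ _
    exact ((hRlim x).const_smul _).add (hSlim x)
  · intro x
    refine posSemidef_of_tendsto (A := fun k => ((κ : ℝ) : ℂ) • R (φ k) x - S (φ k) x) ?_
      fun k => hhi _ _
    exact ((hRlim x).const_smul _).sub (hSlim x)
  · filter_upwards [hae'] with x hx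
    refine young_trace_eq (hWp x) (hR'p x) hα hr ?_
    have h1 : Tendsto (fun k => (α / (1 + α)) ^ α / (1 + α) * trp (W x) (1 + α) -
        rtr (W x * R (φ k) x) + trp (R (φ k) x) (1 + r)) atTop
        (𝓝 ((α / (1 + α)) ^ α / (1 + α) * trp (W x) (1 + α) -
        rtr (W x * R' x) + trp (R' x) (1 + r))) := by
      refine (tendsto_const_nhds.sub ?_).add ?_
      · refine tendsto_rtr ?_
        have hm : Continuous fun X : Matrix m m ℂ => W x * X :=
          continuous_const.matrix_mul continuous_id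
        exact (hm.tendsto (R' x)).comp (hRlim x)
      · exact tendsto_rtr (hPowlim x (1 + r) (by linarith))
    have h2 : (α / (1 + α)) ^ α / (1 + α) * trp (W x) (1 + α) -
        rtr (W x * R' x) + trp (R' x) (1 + r) ≤ 0 :=
      le_of_tendsto_of_tendsto' h1 hx fun k => hy _ _
    have h3 := matrix_young hα (hWp x) (hR'p x)
    rw [← hr] at h3
    exact le_antisymm h2 h3

end Crest.Agent.R332.Lim
end

-- ▼ part R332/LimData
section

/-! # Row 332: algebraic estimates for one near-extremal family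

`Ψ` is `m × ι`, `P = ΨᴴΨ`, `R = ΨΨᴴ`, `S = ΨFΨᴴ`, `Q = ΨF²Ψᴴ`, `Δ = Ψ' - ΨF`. -/

set_option autoImplicit false
set_option linter.unusedSectionVars false

namespace Crest.Agent.R332.Lim

open Matrix Filter Topology MeasureTheory
open scoped ComplexOrder

variable {m ι : Type*} [Fintype m] [DecidableEq m] [Fintype ι] [DecidableEq ι]

/-- Algebraic hypotheses at one point. -/
structure PtData (κ : ℝ) (K F : Matrix ι ι ℂ) : Prop where
  sub : (K - F).PosSemidef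
  add : (K + F).PosSemidef
  bdd : (((κ : ℝ) : ℂ) • (1 : Matrix ι ι ℂ) - K).PosSemidef

namespace PtData

variable {κ : ℝ} {K F : Matrix ι ι ℂ}

lemma posK (h : PtData κ K F) : K.PosSemidef := by
  have h1 := (h.sub.add h.add).smul (show (0 : ℂ) ≤ (((1 / 2 : ℝ)) : ℂ) by
    have : (0 : ℝ) ≤ 1 / 2 := by norm_num
    exact_mod_cast this)
  convert h1 using 1
  have : K - F + (K + F) = (2 : ℂ) • K := by
    rw [two_smul]; abel
  rw [this, smul_smul]
  norm_num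

lemma hermF (h : PtData κ K F) : F.IsHermitian := by
  have h1 : Kᴴ = K := h.posK.1
  have h2 : (K + F)ᴴ = K + F := h.add.1
  rw [Matrix.conjTranspose_add, h1] at h2
  exact add_left_cancel h2

lemma subF (h : PtData κ K F) : (((κ : ℝ) : ℂ) • (1 : Matrix ι ι ℂ) - F).PosSemidef := by
  have := h.bdd.add h.sub
  rwa [sub_add_sub_cancel] at this

lemma addF (h : PtData κ K F) : (((κ : ℝ) : ℂ) • (1 : Matrix ι ι ℂ) + F).PosSemidef := by
  have := h.bdd.add h.add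
  convert this using 1
  abel

lemma subK (h : PtData κ K F) : (((κ : ℝ) : ℂ) • (1 : Matrix ι ι ℂ) - K).PosSemidef := h.bdd

lemma addK (h : PtData κ K F) (hκ : 0 ≤ κ) :
    (((κ : ℝ) : ℂ) • (1 : Matrix ι ι ℂ) + K).PosSemidef := by
  have h1 : (((κ : ℝ) : ℂ) • (1 : Matrix ι ι ℂ)).PosSemidef :=
    Matrix.PosSemidef.one.smul (by exact_mod_cast hκ)
  exact h1.add h.posK

lemma mulF (h : PtData κ K F) (hκ : 0 < κ) (A : Matrix m ι ℂ) : hs (A * F) ≤ κ ^ 2 * hs A :=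
  hs_mul_bdd_le hκ h.subF h.addF h.hermF A

lemma Fmul (h : PtData κ K F) (hκ : 0 < κ) (A : Matrix ι m ℂ) : hs (F * A) ≤ κ ^ 2 * hs A :=
  hs_bdd_mul_le hκ h.subF h.addF h.hermF A

lemma mulK (h : PtData κ K F) (hκ : 0 < κ) (A : Matrix m ι ℂ) : hs (A * K) ≤ κ ^ 2 * hs A :=
  hs_mul_bdd_le hκ h.subK (h.addK hκ.le) h.posK.1 A

end PtData

/-- `κR ± S ≥ 0`. -/
lemma lim_hi {κ : ℝ} {K F : Matrix ι ι ℂ} (h : PtData κ K F) (Ψ : Matrix m ι ℂ) :
    (((κ : ℝ) : ℂ) • (Ψ * Ψᴴ) - Ψ * F * Ψᴴ).PosSemidef := by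
  have := h.subF.mul_mul_conjTranspose_same Ψ
  rw [Matrix.mul_sub, Matrix.sub_mul, Matrix.mul_smul, Matrix.smul_mul, Matrix.mul_one] at this
  exact this

lemma lim_lo {κ : ℝ} {K F : Matrix ι ι ℂ} (h : PtData κ K F) (Ψ : Matrix m ι ℂ) :
    (((κ : ℝ) : ℂ) • (Ψ * Ψᴴ) + Ψ * F * Ψᴴ).PosSemidef := by
  have := h.addF.mul_mul_conjTranspose_same Ψ
  rw [Matrix.mul_add, Matrix.add_mul, Matrix.mul_smul, Matrix.smul_mul, Matrix.mul_one] at this
  exact this

lemma lim_herm {κ : ℝ} {K F : Matrix ι ι ℂ} (h : PtData κ K F) (Ψ : Matrix m ι ℂ) :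
    (Ψ * F * Ψᴴ).IsHermitian := by
  rw [Matrix.IsHermitian, Matrix.conjTranspose_mul, Matrix.conjTranspose_mul,
    Matrix.conjTranspose_conjTranspose, h.hermF, Matrix.mul_assoc]

/-- Power bound. -/
lemma hs_mpow_le {R : Matrix m m ℂ} (hR : R.PosSemidef) {q b : ℝ} (hq : 0 ≤ q)
    (hb : rtr R ≤ b) : hs (mpow R q) ≤ Fintype.card m * (b ^ q) ^ 2 := by
  have h1 : hs (mpow R q) = ∑ i, (hR.1.eigenvalues i ^ q) ^ 2 := by
    rw [hs_eq_rtr, mpow_isHermitian R q]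
    have : mpow R q * mpow R q = cfc (fun t : ℝ => (t ^ q) ^ 2) R := by
      rw [mpow, ← cfc_mul']
      congr 1
      funext t
      ring
    rw [this, rtr_cfc hR.1]
  rw [h1, Fintype.card, ← nsmul_eq_mul, ← Finset.sum_const]
  refine Finset.sum_le_sum fun i _ => ?_
  have h2 : hR.1.eigenvalues i ≤ b := by
    refine le_trans ?_ hb
    have h3 : rtr R = ∑ i, hR.1.eigenvalues i := by
      have := rtr_cfc hR.1 (fun t : ℝ => t)
      rw [cfc_self hR.1] at this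
      exact this
    rw [h3]
    exact Finset.single_le_sum (f := fun i => hR.1.eigenvalues i)
      (fun i _ => hR.eigenvalues_nonneg i) (Finset.mem_univ i)
  have h0 := hR.eigenvalues_nonneg i
  have h4 : hR.1.eigenvalues i ^ q ≤ b ^ q := Real.rpow_le_rpow h0 h2 hq
  have h5 : 0 ≤ hR.1.eigenvalues i ^ q := Real.rpow_nonneg h0 q
  exact pow_le_pow_left₀ h5 h4 2

lemma mpow_one_add_rect (Ψ : Matrix m ι ℂ) {r : ℝ} (hr : 0 < r) :
    Ψ * mpow (Ψᴴ * Ψ) r * Ψᴴ = mpow (Ψ * Ψᴴ) (1 + r) := by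
  rw [← mpow_rect, Matrix.mul_assoc, add_comm, mpow_add' (self_conj_posSemidef Ψ) hr one_pos,
    mpow_one (self_conj_posSemidef Ψ).1]

lemma mpow_sub_one_rect (Ψ : Matrix m ι ℂ) {r : ℝ} (hr : 1 < r) :
    Ψᴴ * mpow (Ψ * Ψᴴ) (r - 1) * Ψ = mpow (Ψᴴ * Ψ) r := by
  rw [Matrix.mul_assoc, mpow_rect, ← Matrix.mul_assoc]
  have h := mpow_add' (conj_posSemidef Ψ) (p := 1) (q := r - 1) one_pos (by linarith)
  rw [mpow_one (conj_posSemidef Ψ).1] at h
  rw [← h]
  congr 1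
  ring

/-- Commutator bound `‖[F, P^r]‖² ≤ (8κ²+2) (‖[F,K²]‖² + ‖P^r - (K²-F²)‖²)`. -/
lemma comm_bound {κ : ℝ} (hκ : 0 < κ) {K F X : Matrix ι ι ℂ} (h : PtData κ K F) :
    hs (F * X - X * F) ≤ (8 * κ ^ 2 + 2) *
      (hs (F * (K * K) - K * K * F) + hs (X - (K * K - F * F))) := by
  set J : Matrix ι ι ℂ := K * K - F * F with hJ
  have h1 : F * X - X * F = (F * (X - J) - (X - J) * F) + (F * (K * K) - K * K * F) := by
    rw [hJ]
    noncomm_ring
  have h2 := h.Fmul hκ (X - J)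
  have h3 := h.mulF hκ (X - J)
  have h4 := hs_sub_le (F * (X - J)) ((X - J) * F)
  have h5 := hs_add_le (F * (X - J) - (X - J) * F) (F * (K * K) - K * K * F)
  have h6 := hs_nonneg (F * (K * K) - K * K * F)
  have h7 := hs_nonneg (X - J)
  rw [h1]
  have h8 : 0 ≤ κ ^ 2 := sq_nonneg κ
  nlinarith [mul_nonneg h8 h6]

section estimates

variable {κ B : ℝ} (hκ : 0 < κ) {K F : Matrix ι ι ℂ} (h : PtData κ K F)
  {Ψ Ψ' : Matrix m ι ℂ} (hB : hs Ψ ≤ B)

include hB in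
lemma R_bound : hs (Ψ * Ψᴴ) ≤ B ^ 2 := by
  refine (hs_mul_le _ _).trans ?_
  rw [hs_conjTranspose, ← sq]
  exact pow_le_pow_left₀ (hs_nonneg _) hB 2

include hκ h hB in
lemma S_bound : hs (Ψ * F * Ψᴴ) ≤ κ ^ 2 * B ^ 2 := by
  refine (hs_mul_le _ _).trans ?_
  rw [hs_conjTranspose]
  have h1 := h.mulF hκ Ψ
  have h2 := hs_nonneg Ψ
  calc hs (Ψ * F) * hs Ψ ≤ (κ ^ 2 * hs Ψ) * hs Ψ := by gcongr
    _ ≤ (κ ^ 2 * B) * B := mul_le_mul (mul_le_mul_of_nonneg_left hB (by positivity)) hB h2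
        (mul_nonneg (by positivity) (h2.trans hB))
    _ = κ ^ 2 * B ^ 2 := by ring

include hκ h hB in
lemma Q_bound : hs (Ψ * (F * F) * Ψᴴ) ≤ κ ^ 4 * B ^ 2 := by
  refine (hs_mul_le _ _).trans ?_
  rw [hs_conjTranspose, ← Matrix.mul_assoc]
  have h1 := h.mulF hκ Ψ
  have h1' := h.mulF hκ (Ψ * F)
  have h2 := hs_nonneg Ψ
  have h3 : hs (Ψ * F * F) ≤ κ ^ 4 * hs Ψ := by
    calc hs (Ψ * F * F) ≤ κ ^ 2 * (κ ^ 2 * hs Ψ) := h1'.trans (by gcongr)
      _ = κ ^ 4 * hs Ψ := by ring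
  calc hs (Ψ * F * F) * hs Ψ ≤ (κ ^ 4 * hs Ψ) * hs Ψ := by gcongr
    _ ≤ (κ ^ 4 * B) * B := mul_le_mul (mul_le_mul_of_nonneg_left hB (by positivity)) hB h2
        (mul_nonneg (by positivity) (h2.trans hB))
    _ = κ ^ 4 * B ^ 2 := by ring

include hB in
/-- `R' - 2S = ΔΨᴴ + ΨΔᴴ`. -/
lemma err_R (hF : F.IsHermitian) : hs (Ψ' * Ψᴴ + Ψ * Ψ'ᴴ - (2 : ℂ) • (Ψ * F * Ψᴴ)) ≤
    4 * B * hs (Ψ' - Ψ * F) := by
  have e : Ψ' * Ψᴴ + Ψ * Ψ'ᴴ - (2 : ℂ) • (Ψ * F * Ψᴴ) =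
      (Ψ' - Ψ * F) * Ψᴴ + Ψ * (Ψ' - Ψ * F)ᴴ := by
    rw [Matrix.conjTranspose_sub, Matrix.conjTranspose_mul, hF, two_smul]
    simp only [Matrix.sub_mul, Matrix.mul_sub, Matrix.mul_assoc]
    abel
  rw [e]
  have h1 := hs_mul_le (Ψ' - Ψ * F) Ψᴴ
  have h2 := hs_mul_le Ψ (Ψ' - Ψ * F)ᴴ
  rw [hs_conjTranspose] at h1 h2
  have h3 := hs_add_le ((Ψ' - Ψ * F) * Ψᴴ) (Ψ * (Ψ' - Ψ * F)ᴴ)
  have h4 := hs_nonneg (Ψ' - Ψ * F)
  have h5 := mul_le_mul_of_nonneg_left hB h4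
  nlinarith

include hκ h hB in
/-- `S' - 2Q + rR^{1+r} = ΔFΨᴴ + ΨFΔᴴ + Ψ(J - P^r)Ψᴴ`. -/
lemma err_S {r : ℝ} (hr : 0 < r) (hB0 : 0 ≤ B) :
    hs (Ψ' * F * Ψᴴ + Ψ * (K * K - F * F - (1 + r) • mpow (Ψᴴ * Ψ) r) * Ψᴴ + Ψ * F * Ψ'ᴴ -
      ((2 : ℂ) • (Ψ * (F * F) * Ψᴴ) - (r : ℂ) • mpow (Ψ * Ψᴴ) (1 + r))) ≤
    (8 * κ ^ 2 * B + 2 * B ^ 2) *
      (hs (Ψ' - Ψ * F) + hs (mpow (Ψᴴ * Ψ) r - (K * K - F * F))) := by
  set P : Matrix ι ι ℂ := mpow (Ψᴴ * Ψ) r with hP
  have e : Ψ' * F * Ψᴴ + Ψ * (K * K - F * F - (1 + r) • P) * Ψᴴ + Ψ * F * Ψ'ᴴ -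
      ((2 : ℂ) • (Ψ * (F * F) * Ψᴴ) - (r : ℂ) • mpow (Ψ * Ψᴴ) (1 + r)) =
      ((Ψ' - Ψ * F) * F * Ψᴴ + Ψ * F * (Ψ' - Ψ * F)ᴴ) - Ψ * (P - (K * K - F * F)) * Ψᴴ := by
    rw [← mpow_one_add_rect Ψ hr, ← hP, Matrix.conjTranspose_sub, Matrix.conjTranspose_mul,
      h.hermF, two_smul, add_smul, one_smul, show ((r : ℂ)) • (Ψ * P * Ψᴴ) = r • (Ψ * P * Ψᴴ) from
        (Complex.coe_smul r _)]
    simp only [Matrix.sub_mul, Matrix.mul_sub, Matrix.mul_assoc, Matrix.mul_add, Matrix.add_mul,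
      Matrix.mul_smul, Matrix.smul_mul]
    abel
  rw [e]
  have h1 : hs ((Ψ' - Ψ * F) * F * Ψᴴ) ≤ κ ^ 2 * B * hs (Ψ' - Ψ * F) := by
    have a1 := hs_mul_le ((Ψ' - Ψ * F) * F) Ψᴴ
    rw [hs_conjTranspose] at a1
    have a2 := h.mulF hκ (Ψ' - Ψ * F)
    have a3 := hs_nonneg (Ψ' - Ψ * F)
    calc _ ≤ _ := a1
      _ ≤ (κ ^ 2 * hs (Ψ' - Ψ * F)) * B := by
        apply mul_le_mul a2 hB (hs_nonneg _) (by positivity)
      _ = _ := by ring
  have h2 : hs (Ψ * F * (Ψ' - Ψ * F)ᴴ) ≤ κ ^ 2 * B * hs (Ψ' - Ψ * F) := by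
    have a1 := hs_mul_le (Ψ * F) (Ψ' - Ψ * F)ᴴ
    rw [hs_conjTranspose] at a1
    have a2 := h.mulF hκ Ψ
    have a3 := hs_nonneg (Ψ' - Ψ * F)
    calc _ ≤ _ := a1
      _ ≤ (κ ^ 2 * B) * hs (Ψ' - Ψ * F) := by
        refine mul_le_mul_of_nonneg_right (a2.trans ?_) a3
        exact mul_le_mul_of_nonneg_left hB (sq_nonneg κ)
  have h3 : hs (Ψ * (P - (K * K - F * F)) * Ψᴴ) ≤ B ^ 2 * hs (P - (K * K - F * F)) := by
    have a1 := hs_mul_le (Ψ * (P - (K * K - F * F))) Ψᴴ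
    have a2 := hs_mul_le Ψ (P - (K * K - F * F))
    rw [hs_conjTranspose] at a1
    have a3 := hs_nonneg (P - (K * K - F * F))
    calc _ ≤ _ := a1
      _ ≤ (B * hs (P - (K * K - F * F))) * B := by
        refine mul_le_mul (a2.trans ?_) hB (hs_nonneg _) (by positivity)
        exact mul_le_mul_of_nonneg_right hB a3
      _ = _ := by ring
  have h4 := hs_add_le ((Ψ' - Ψ * F) * F * Ψᴴ) (Ψ * F * (Ψ' - Ψ * F)ᴴ)
  have h5 := hs_sub_le ((Ψ' - Ψ * F) * F * Ψᴴ + Ψ * F * (Ψ' - Ψ * F)ᴴ)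
    (Ψ * (P - (K * K - F * F)) * Ψᴴ)
  have h6 := hs_nonneg (Ψ' - Ψ * F)
  have h7 := hs_nonneg (P - (K * K - F * F))
  have h8 : 0 ≤ κ ^ 2 * B := by positivity
  have h9 : 0 ≤ B ^ 2 := by positivity
  nlinarith [mul_nonneg h8 h7, mul_nonneg h9 h6]

include hκ h hB in
/-- `[S, R^r] = Ψ[F,P^r]Ψᴴ`. -/
lemma err_comm {r : ℝ} (hB0 : 0 ≤ B) :
    hs (Ψ * F * Ψᴴ * mpow (Ψ * Ψᴴ) r - mpow (Ψ * Ψᴴ) r * (Ψ * F * Ψᴴ)) ≤
    (B ^ 2 * (8 * κ ^ 2 + 2)) *
      (hs (F * (K * K) - K * K * F) + hs (mpow (Ψᴴ * Ψ) r - (K * K - F * F))) := by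
  set P : Matrix ι ι ℂ := mpow (Ψᴴ * Ψ) r with hP
  have e1 : mpow (Ψ * Ψᴴ) r * Ψ = Ψ * P := mpow_rect Ψ r
  have e2 : Ψᴴ * mpow (Ψ * Ψᴴ) r = P * Ψᴴ := by
    have := congrArg Matrix.conjTranspose e1
    rw [Matrix.conjTranspose_mul, Matrix.conjTranspose_mul, mpow_isHermitian, hP,
      mpow_isHermitian] at this
    exact this
  have e : Ψ * F * Ψᴴ * mpow (Ψ * Ψᴴ) r - mpow (Ψ * Ψᴴ) r * (Ψ * F * Ψᴴ) =
      Ψ * (F * P - P * F) * Ψᴴ := by
    have a1 : Ψ * F * Ψᴴ * mpow (Ψ * Ψᴴ) r = Ψ * F * (P * Ψᴴ) := by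
      rw [← e2]; simp only [Matrix.mul_assoc]
    have a2 : mpow (Ψ * Ψᴴ) r * (Ψ * F * Ψᴴ) = (Ψ * P) * F * Ψᴴ := by
      rw [← e1]; simp only [Matrix.mul_assoc]
    rw [a1, a2]
    simp only [Matrix.sub_mul, Matrix.mul_sub, Matrix.mul_assoc]
  rw [e]
  have h1 := comm_bound hκ h (X := P)
  have a1 := hs_mul_le (Ψ * (F * P - P * F)) Ψᴴ
  have a2 := hs_mul_le Ψ (F * P - P * F)
  rw [hs_conjTranspose] at a1
  have a3 := hs_nonneg (F * P - P * F)
  calc _ ≤ _ := a1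
    _ ≤ (B * hs (F * P - P * F)) * B := by
      refine mul_le_mul (a2.trans ?_) hB (hs_nonneg _) (by positivity)
      exact mul_le_mul_of_nonneg_right hB a3
    _ = B ^ 2 * hs (F * P - P * F) := by ring
    _ ≤ B ^ 2 * _ := mul_le_mul_of_nonneg_left h1 (by positivity)
    _ = _ := by ring

include hκ h hB in
/-- `R^rQ - SR^{r-1}S = Ψ[P^r,F]FΨᴴ`. -/
lemma err_Q {r : ℝ} (hr : 1 < r) (hB0 : 0 ≤ B) :
    hs (mpow (Ψ * Ψᴴ) r * (Ψ * (F * F) * Ψᴴ) -
      Ψ * F * Ψᴴ * mpow (Ψ * Ψᴴ) (r - 1) * (Ψ * F * Ψᴴ)) ≤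
    (B ^ 2 * κ ^ 2 * (8 * κ ^ 2 + 2)) *
      (hs (F * (K * K) - K * K * F) + hs (mpow (Ψᴴ * Ψ) r - (K * K - F * F))) := by
  set P : Matrix ι ι ℂ := mpow (Ψᴴ * Ψ) r with hP
  have e1 : mpow (Ψ * Ψᴴ) r * Ψ = Ψ * P := mpow_rect Ψ r
  have e3 : Ψᴴ * mpow (Ψ * Ψᴴ) (r - 1) * Ψ = P := mpow_sub_one_rect Ψ hr
  have e : mpow (Ψ * Ψᴴ) r * (Ψ * (F * F) * Ψᴴ) -
      Ψ * F * Ψᴴ * mpow (Ψ * Ψᴴ) (r - 1) * (Ψ * F * Ψᴴ) =
      -(Ψ * (F * P - P * F) * F * Ψᴴ) := by
    have a1 : mpow (Ψ * Ψᴴ) r * (Ψ * (F * F) * Ψᴴ) = (Ψ * P) * (F * F) * Ψᴴ := by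
      rw [← e1]; simp only [Matrix.mul_assoc]
    have a2 : Ψ * F * Ψᴴ * mpow (Ψ * Ψᴴ) (r - 1) * (Ψ * F * Ψᴴ) = Ψ * F * P * F * Ψᴴ := by
      rw [← e3]; simp only [Matrix.mul_assoc]
    rw [a1, a2]
    simp only [Matrix.sub_mul, Matrix.mul_sub, Matrix.mul_assoc]
    abel
  rw [e, hs_neg]
  have h1 := comm_bound hκ h (X := P)
  have a1 := hs_mul_le (Ψ * (F * P - P * F) * F) Ψᴴ
  have a2 := hs_mul_le Ψ (F * P - P * F)
  have a2' := h.mulF hκ (Ψ * (F * P - P * F))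
  rw [hs_conjTranspose] at a1
  have a3 := hs_nonneg (F * P - P * F)
  calc _ ≤ _ := a1
    _ ≤ (κ ^ 2 * (B * hs (F * P - P * F))) * B := by
      refine mul_le_mul (a2'.trans ?_) hB (hs_nonneg _) (by positivity)
      refine mul_le_mul_of_nonneg_left (a2.trans ?_) (sq_nonneg κ)
      exact mul_le_mul_of_nonneg_right hB a3
    _ = B ^ 2 * κ ^ 2 * hs (F * P - P * F) := by ring
    _ ≤ B ^ 2 * κ ^ 2 * _ := mul_le_mul_of_nonneg_left h1 (by positivity)
    _ = _ := by ring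

include hB in
lemma dR_bound : hs (Ψ' * Ψᴴ + Ψ * Ψ'ᴴ) ≤ 4 * B * hs Ψ' := by
  have h1 := hs_mul_le Ψ' Ψᴴ
  have h2 := hs_mul_le Ψ Ψ'ᴴ
  rw [hs_conjTranspose] at h1 h2
  have h3 := hs_add_le (Ψ' * Ψᴴ) (Ψ * Ψ'ᴴ)
  have h4 := hs_nonneg Ψ'
  have h5 := mul_le_mul_of_nonneg_left hB h4
  nlinarith

include hκ h hB in
lemma dS_bound {r : ℝ} (hr : 0 < r) (hB0 : 0 ≤ B) :
    hs (Ψ' * F * Ψᴴ + Ψ * (K * K - F * F - (1 + r) • mpow (Ψᴴ * Ψ) r) * Ψᴴ + Ψ * F * Ψ'ᴴ) ≤
    (16 * κ ^ 2 * B) * hs Ψ' + (32 * κ ^ 4 * B ^ 2 +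
      8 * (1 + r) ^ 2 * (Fintype.card m * (B ^ (1 + r)) ^ 2)) := by
  set P : Matrix ι ι ℂ := mpow (Ψᴴ * Ψ) r with hP
  have hΨ0 := hs_nonneg Ψ
  have hΨ'0 := hs_nonneg Ψ'
  have b1 : hs (Ψ' * F * Ψᴴ) ≤ κ ^ 2 * B * hs Ψ' := by
    have a1 := hs_mul_le (Ψ' * F) Ψᴴ
    rw [hs_conjTranspose] at a1
    have a2 := h.mulF hκ Ψ'
    calc _ ≤ _ := a1
      _ ≤ (κ ^ 2 * hs Ψ') * B := mul_le_mul a2 hB (hs_nonneg _) (by positivity)
      _ = _ := by ring
  have b2 : hs (Ψ * F * Ψ'ᴴ) ≤ κ ^ 2 * B * hs Ψ' := by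
    have a1 := hs_mul_le (Ψ * F) Ψ'ᴴ
    rw [hs_conjTranspose] at a1
    have a2 := h.mulF hκ Ψ
    calc _ ≤ _ := a1
      _ ≤ (κ ^ 2 * B) * hs Ψ' := by
        refine mul_le_mul_of_nonneg_right (a2.trans ?_) hΨ'0
        exact mul_le_mul_of_nonneg_left hB (sq_nonneg κ)
  have b3 : hs (Ψ * (K * K) * Ψᴴ) ≤ κ ^ 4 * B ^ 2 := by
    refine (hs_mul_le _ _).trans ?_
    rw [hs_conjTranspose, ← Matrix.mul_assoc]
    have a1 := h.mulK hκ Ψ
    have a1' := h.mulK hκ (Ψ * K)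
    have a3 : hs (Ψ * K * K) ≤ κ ^ 4 * hs Ψ := by
      calc hs (Ψ * K * K) ≤ κ ^ 2 * (κ ^ 2 * hs Ψ) := a1'.trans (by gcongr)
        _ = κ ^ 4 * hs Ψ := by ring
    calc hs (Ψ * K * K) * hs Ψ ≤ (κ ^ 4 * hs Ψ) * hs Ψ := by gcongr
      _ ≤ (κ ^ 4 * B) * B := by gcongr
      _ = κ ^ 4 * B ^ 2 := by ring
  have b4 : hs (Ψ * (F * F) * Ψᴴ) ≤ κ ^ 4 * B ^ 2 := Q_bound hκ h hB
  have b5 : hs (Ψ * P * Ψᴴ) ≤ Fintype.card m * (B ^ (1 + r)) ^ 2 := by
    rw [hP, mpow_one_add_rect Ψ hr]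
    refine hs_mpow_le (self_conj_posSemidef Ψ) (by linarith) ?_
    rw [← hs_eq_rtr']
    exact hB
  have e : Ψ * (K * K - F * F - (1 + r) • P) * Ψᴴ =
      (Ψ * (K * K) * Ψᴴ - Ψ * (F * F) * Ψᴴ) - (1 + r) • (Ψ * P * Ψᴴ) := by
    simp only [Matrix.sub_mul, Matrix.mul_sub, Matrix.mul_smul, Matrix.smul_mul]
  have c1 := hs_sub_le (Ψ * (K * K) * Ψᴴ) (Ψ * (F * F) * Ψᴴ)
  have c2 := hs_sub_le (Ψ * (K * K) * Ψᴴ - Ψ * (F * F) * Ψᴴ) ((1 + r) • (Ψ * P * Ψᴴ))
  rw [hs_smul] at c2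
  have c3 := hs_add_le (Ψ' * F * Ψᴴ) (Ψ * (K * K - F * F - (1 + r) • P) * Ψᴴ)
  have c4 := hs_add_le (Ψ' * F * Ψᴴ + Ψ * (K * K - F * F - (1 + r) • P) * Ψᴴ) (Ψ * F * Ψ'ᴴ)
  rw [e] at c3 c4 ⊢
  have c5 := mul_le_mul_of_nonneg_left b5 (sq_nonneg (1 + r))
  have c6 : 0 ≤ κ ^ 2 * B * hs Ψ' := by positivity
  linarith

include hκ h hB in
lemma dQ_bound {r : ℝ} (hr : 0 < r) (hB0 : 0 ≤ B) :
    hs (Ψ' * (F * F) * Ψᴴ + Ψ * ((K * K - F * F - (1 + r) • mpow (Ψᴴ * Ψ) r) * F +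
      F * (K * K - F * F - (1 + r) • mpow (Ψᴴ * Ψ) r)) * Ψᴴ + Ψ * (F * F) * Ψ'ᴴ) ≤
    (8 * κ ^ 4 * B) * hs Ψ' + (64 * κ ^ 6 * B ^ 2 +
      16 * (1 + r) ^ 2 * (κ ^ 2 * B ^ 2 * (Fintype.card m * (B ^ r) ^ 2))) := by
  set P : Matrix ι ι ℂ := mpow (Ψᴴ * Ψ) r with hP
  have hPh : Pᴴ = P := mpow_isHermitian _ _
  have hKh : Kᴴ = K := h.posK.1
  have hFh : Fᴴ = F := h.hermF
  have hΨ0 := hs_nonneg Ψ
  have hΨ'0 := hs_nonneg Ψ'
  set X : Matrix m m ℂ := Ψ' * (F * F) * Ψᴴ with hX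
  set Y : Matrix m m ℂ := Ψ * ((K * K - F * F - (1 + r) • P) * F) * Ψᴴ with hY
  have hXh : Xᴴ = Ψ * (F * F) * Ψ'ᴴ := by
    rw [hX]
    simp only [Matrix.conjTranspose_mul, Matrix.conjTranspose_conjTranspose, hFh,
      Matrix.mul_assoc]
  have hYh : Yᴴ = Ψ * (F * (K * K - F * F - (1 + r) • P)) * Ψᴴ := by
    rw [hY]
    simp only [Matrix.conjTranspose_mul, Matrix.conjTranspose_conjTranspose, hFh,
      Matrix.conjTranspose_sub, Matrix.conjTranspose_smul, hKh, hPh, star_trivial,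
      Matrix.mul_assoc]
  have e0 : Ψ' * (F * F) * Ψᴴ + Ψ * ((K * K - F * F - (1 + r) • P) * F +
      F * (K * K - F * F - (1 + r) • P)) * Ψᴴ + Ψ * (F * F) * Ψ'ᴴ = (X + Xᴴ) + (Y + Yᴴ) := by
    rw [hXh, hYh, hX, hY, Matrix.mul_add, Matrix.add_mul]
    abel
  rw [e0]
  have bX : hs X ≤ κ ^ 4 * B * hs Ψ' := by
    rw [hX]
    have a1 := hs_mul_le (Ψ' * (F * F)) Ψᴴ
    rw [hs_conjTranspose] at a1
    have a2 : hs (Ψ' * (F * F)) ≤ κ ^ 4 * hs Ψ' := by
      rw [← Matrix.mul_assoc]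
      calc hs (Ψ' * F * F) ≤ κ ^ 2 * (κ ^ 2 * hs Ψ') :=
            (h.mulF hκ (Ψ' * F)).trans (by have := h.mulF hκ Ψ'; gcongr)
        _ = κ ^ 4 * hs Ψ' := by ring
    calc _ ≤ _ := a1
      _ ≤ (κ ^ 4 * hs Ψ') * B := mul_le_mul a2 hB (hs_nonneg _) (by positivity)
      _ = _ := by ring
  have y1 : hs (Ψ * (K * K * F) * Ψᴴ) ≤ κ ^ 6 * B ^ 2 := by
    refine (hs_mul_le _ _).trans ?_
    rw [hs_conjTranspose, ← Matrix.mul_assoc, ← Matrix.mul_assoc]
    have a3 : hs (Ψ * K * K * F) ≤ κ ^ 6 * hs Ψ := by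
      calc hs (Ψ * K * K * F) ≤ κ ^ 2 * (κ ^ 2 * (κ ^ 2 * hs Ψ)) := by
            refine (h.mulF hκ _).trans ?_
            have a1' := h.mulK hκ (Ψ * K)
            have a1 := h.mulK hκ Ψ
            have : hs (Ψ * K * K) ≤ κ ^ 2 * (κ ^ 2 * hs Ψ) := a1'.trans (by gcongr)
            gcongr
        _ = κ ^ 6 * hs Ψ := by ring
    calc hs (Ψ * K * K * F) * hs Ψ ≤ (κ ^ 6 * hs Ψ) * hs Ψ := by gcongr
      _ ≤ (κ ^ 6 * B) * B := mul_le_mul (mul_le_mul_of_nonneg_left hB (by positivity)) hB hΨ0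
          (mul_nonneg (by positivity) hB0)
      _ = κ ^ 6 * B ^ 2 := by ring
  have y2 : hs (Ψ * (F * F * F) * Ψᴴ) ≤ κ ^ 6 * B ^ 2 := by
    refine (hs_mul_le _ _).trans ?_
    rw [hs_conjTranspose, ← Matrix.mul_assoc, ← Matrix.mul_assoc]
    have a3 : hs (Ψ * F * F * F) ≤ κ ^ 6 * hs Ψ := by
      calc hs (Ψ * F * F * F) ≤ κ ^ 2 * (κ ^ 2 * (κ ^ 2 * hs Ψ)) := by
            refine (h.mulF hκ _).trans ?_
            have a1' := h.mulF hκ (Ψ * F)
            have a1 := h.mulF hκ Ψ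
            have : hs (Ψ * F * F) ≤ κ ^ 2 * (κ ^ 2 * hs Ψ) := a1'.trans (by gcongr)
            gcongr
        _ = κ ^ 6 * hs Ψ := by ring
    calc hs (Ψ * F * F * F) * hs Ψ ≤ (κ ^ 6 * hs Ψ) * hs Ψ := by gcongr
      _ ≤ (κ ^ 6 * B) * B := mul_le_mul (mul_le_mul_of_nonneg_left hB (by positivity)) hB hΨ0
          (mul_nonneg (by positivity) hB0)
      _ = κ ^ 6 * B ^ 2 := by ring
  have y3 : hs (Ψ * (P * F) * Ψᴴ) ≤ κ ^ 2 * B ^ 2 * (Fintype.card m * (B ^ r) ^ 2) := by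
    have e1 : mpow (Ψ * Ψᴴ) r * Ψ = Ψ * P := mpow_rect Ψ r
    have e2 : Ψ * (P * F) * Ψᴴ = mpow (Ψ * Ψᴴ) r * (Ψ * F * Ψᴴ) := by
      rw [← Matrix.mul_assoc, ← e1]
      simp only [Matrix.mul_assoc]
    rw [e2]
    refine (hs_mul_le _ _).trans ?_
    have a1 := hs_mpow_le (self_conj_posSemidef Ψ) hr.le
      (show rtr (Ψ * Ψᴴ) ≤ B by rw [← hs_eq_rtr']; exact hB)
    have a2 := S_bound hκ h hB
    calc _ ≤ (Fintype.card m * (B ^ r) ^ 2) * (κ ^ 2 * B ^ 2) :=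
          mul_le_mul a1 a2 (hs_nonneg _) (by positivity)
      _ = _ := by ring
  have eY : Y = (Ψ * (K * K * F) * Ψᴴ - Ψ * (F * F * F) * Ψᴴ) -
      (1 + r) • (Ψ * (P * F) * Ψᴴ) := by
    rw [hY]
    simp only [Matrix.sub_mul, Matrix.mul_sub, Matrix.mul_smul, Matrix.smul_mul]
  have c1 := hs_sub_le (Ψ * (K * K * F) * Ψᴴ) (Ψ * (F * F * F) * Ψᴴ)
  have c2 := hs_sub_le (Ψ * (K * K * F) * Ψᴴ - Ψ * (F * F * F) * Ψᴴ)
    ((1 + r) • (Ψ * (P * F) * Ψᴴ))
  rw [hs_smul, ← eY] at c2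
  have c3 := hs_add_le X Xᴴ
  have c4 := hs_add_le Y Yᴴ
  have c5 := hs_add_le (X + Xᴴ) (Y + Yᴴ)
  rw [hs_conjTranspose] at c3 c4
  have c6 := mul_le_mul_of_nonneg_left y3 (sq_nonneg (1 + r))
  linarith

end estimates

end Crest.Agent.R332.Lim
end

-- ▼ part R332/LimFam
section

/-! # Row 332: from near-extremal families to the limit system -/

set_option autoImplicit false
set_option linter.unusedSectionVars false

namespace Crest.Agent.R332.Lim

open Matrix Filter Topology MeasureTheory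
open scoped ComplexOrder

section deriv

variable {p q s : Type*} [Fintype p] [Fintype q] [Fintype s]

/-- Entrywise derivative of a matrix path. -/
def MDeriv (A : ℝ → Matrix p q ℂ) (A' : Matrix p q ℂ) (x : ℝ) : Prop :=
  ∀ i j, HasDerivAt (fun y => A y i j) (A' i j) x

lemma MDeriv.mul {A : ℝ → Matrix p q ℂ} {B : ℝ → Matrix q s ℂ} {A' : Matrix p q ℂ}
    {B' : Matrix q s ℂ} {x : ℝ} (hA : MDeriv A A' x) (hB : MDeriv B B' x) :
    MDeriv (fun y => A y * B y) (A' * B x + A x * B') x := by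
  intro i j
  simp only [Matrix.mul_apply, Matrix.add_apply, ← Finset.sum_add_distrib]
  exact HasDerivAt.fun_sum fun l _ => (hA i l).mul (hB l j)

lemma MDeriv.conjTranspose {A : ℝ → Matrix p q ℂ} {A' : Matrix p q ℂ} {x : ℝ}
    (hA : MDeriv A A' x) : MDeriv (fun y => (A y)ᴴ) A'ᴴ x := by
  intro i j
  simp only [Matrix.conjTranspose_apply]
  exact (hA j i).star

lemma MDeriv.continuousAt {A : ℝ → Matrix p q ℂ} {A' : ℝ → Matrix p q ℂ}
    (hA : ∀ x, MDeriv A (A' x) x) : Continuous A := by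
  refine continuous_matrix fun i j => ?_
  exact continuous_iff_continuousAt.2 fun x => (hA x i j).continuousAt

end deriv

lemma ftc_sub_le {u u' v : ℝ → ℂ} (hu : ∀ x, HasDerivAt u (u' x) x) (hu' : Continuous u')
    (hv : Continuous v) {g : ℝ → ℝ} (hg0 : ∀ x, 0 ≤ g x) (hgi : Integrable g) {C : ℝ}
    (hle : ∀ x, ‖u' x - v x‖ ≤ C * Real.sqrt (g x)) {x y : ℝ} (hxy : x ≤ y) :
    ‖u y - u x - ∫ t in x..y, v t‖ ≤ C * ∫ t in x..y, Real.sqrt (g t) := by
  have h1 : ∫ t in x..y, u' t = u y - u x :=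
    intervalIntegral.integral_eq_sub_of_hasDerivAt (fun t _ => hu t) (hu'.intervalIntegrable _ _)
  rw [← h1, ← intervalIntegral.integral_sub (hu'.intervalIntegrable _ _)
    (hv.intervalIntegrable _ _), ← intervalIntegral.integral_const_mul]
  refine intervalIntegral.norm_integral_le_of_norm_le hxy
    (Eventually.of_forall fun t _ => hle t) ?_
  exact (integral_sqrt_le hg0 hgi hxy one_pos).1.const_mul C

lemma ftc_holder {u u' : ℝ → ℂ} (hu : ∀ x, HasDerivAt u (u' x) x) (hu' : Continuous u')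
    {h : ℝ → ℝ} (hh0 : ∀ x, 0 ≤ h x) (hhi : Integrable h) {A D : ℝ} (hA : 0 ≤ A)
    (hD : ∫ x, h x ≤ D) (hle : ∀ x, ‖u' x‖ ≤ A * (1 + Real.sqrt (h x))) (x y : ℝ) :
    ‖u x - u y‖ ≤ A * (1 + D) * (Real.sqrt |x - y| + |x - y|) := by
  wlog hxy : x ≤ y generalizing x y with H
  · rw [norm_sub_rev, abs_sub_comm]
    exact H y x (not_le.1 hxy).le
  have hD0 : 0 ≤ D := (integral_nonneg hh0).trans hD
  rcases hxy.eq_or_lt with h0 | hlt
  · subst h0
    simp
  have habs : |x - y| = y - x := by rw [abs_sub_comm, abs_of_nonneg (by linarith)]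
  rw [habs]
  set d : ℝ := y - x with hd
  have hd0 : 0 < d := by linarith
  have hsd : 0 < Real.sqrt d := Real.sqrt_pos.2 hd0
  have h1 : ∫ t in x..y, u' t = u y - u x :=
    intervalIntegral.integral_eq_sub_of_hasDerivAt (fun t _ => hu t) (hu'.intervalIntegrable _ _)
  obtain ⟨hi, hle2⟩ := integral_sqrt_le hh0 hhi hxy (t := (Real.sqrt d)⁻¹) (by positivity)
  have h2 : ‖∫ t in x..y, u' t‖ ≤ ∫ t in x..y, A * (1 + Real.sqrt (h t)) :=
    intervalIntegral.norm_integral_le_of_norm_le hxy (Eventually.of_forall fun t _ => hle t)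
      ((intervalIntegrable_const.add hi).const_mul A)
  rw [norm_sub_rev, ← h1]
  refine h2.trans ?_
  rw [intervalIntegral.integral_const_mul, intervalIntegral.integral_add intervalIntegrable_const
    hi, intervalIntegral.integral_const, smul_eq_mul, mul_one, mul_assoc]
  refine mul_le_mul_of_nonneg_left ?_ hA
  have e1 : (Real.sqrt d)⁻¹ * (y - x) = Real.sqrt d := by
    rw [← hd]
    nth_rewrite 2 [← Real.mul_self_sqrt hd0.le]
    field_simp
  have e2 : (∫ x, h x) / (4 * (Real.sqrt d)⁻¹) ≤ D * Real.sqrt d := by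
    rw [div_le_iff₀ (by positivity)]
    have : D * Real.sqrt d * (4 * (Real.sqrt d)⁻¹) = 4 * D := by field_simp
    rw [this]
    linarith
  rw [e1] at hle2
  have h3 := hle2.trans (add_le_add_right e2 _)
  nlinarith [mul_nonneg hD0 hd0.le, mul_nonneg hD0 hsd.le]

end Crest.Agent.R332.Lim
end

-- ▼ part R332/LimSup
section

/-! # Row 332: sup bound for a family, extension of the Riccati path -/

set_option autoImplicit false
set_option linter.unusedSectionVars false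

namespace Crest.Agent.R332.Lim

open Matrix Filter Topology MeasureTheory Set
open scoped ComplexOrder

variable {m ι : Type*} [Fintype m] [DecidableEq m] [Fintype ι] [DecidableEq ι]

lemma mpow_zero_matrix {q : ℝ} (hq : 0 < q) : mpow (0 : Matrix m m ℂ) q = 0 := by
  rw [mpow_eq_mul Matrix.PosSemidef.zero hq, cfc_mul', cfc_self Matrix.isHermitian_zero,
    Matrix.mul_zero]

/-- `(Σ ρ_i)^{1+r} ≤ M^{1+r} Σ ρ_i^{1+r}`. -/
lemma rtr_rpow_le {R : Matrix m m ℂ} (hR : R.PosSemidef) {q : ℝ} (hq : 0 < q) :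
    rtr R ^ q ≤ (Fintype.card m : ℝ) ^ q * trp R q := by
  have h1 : rtr R = ∑ i, hR.1.eigenvalues i := by
    have := rtr_cfc hR.1 (fun t : ℝ => t)
    rw [cfc_self hR.1] at this
    exact this
  have h2 : trp R q = ∑ i, hR.1.eigenvalues i ^ q := rtr_cfc hR.1 _
  have h0 : ∀ i, 0 ≤ hR.1.eigenvalues i := hR.eigenvalues_nonneg
  have h3 : 0 ≤ ∑ i, hR.1.eigenvalues i ^ q :=
    Finset.sum_nonneg fun i _ => Real.rpow_nonneg (h0 i) q
  set T : ℝ := (∑ i, hR.1.eigenvalues i ^ q) ^ (1 / q) with hT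
  have hT0 : 0 ≤ T := Real.rpow_nonneg h3 _
  have h4 : ∀ i, hR.1.eigenvalues i ≤ T := by
    intro i
    have h5 : hR.1.eigenvalues i ^ q ≤ ∑ i, hR.1.eigenvalues i ^ q :=
      Finset.single_le_sum (f := fun i => hR.1.eigenvalues i ^ q)
        (fun i _ => Real.rpow_nonneg (h0 i) q) (Finset.mem_univ i)
    have h6 := Real.rpow_le_rpow (Real.rpow_nonneg (h0 i) q) h5 (by positivity : 0 ≤ 1 / q)
    rwa [← Real.rpow_mul (h0 i), mul_one_div_cancel hq.ne', Real.rpow_one] at h6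
  have h5 : rtr R ≤ Fintype.card m * T := by
    rw [h1, Fintype.card, ← nsmul_eq_mul, ← Finset.sum_const]
    exact Finset.sum_le_sum fun i _ => h4 i
  have h6 : 0 ≤ rtr R := by rw [h1]; exact Finset.sum_nonneg fun i _ => h0 i
  calc rtr R ^ q ≤ (Fintype.card m * T) ^ q := Real.rpow_le_rpow h6 h5 hq.le
    _ = (Fintype.card m : ℝ) ^ q * T ^ q := Real.mul_rpow (Nat.cast_nonneg _) hT0
    _ = (Fintype.card m : ℝ) ^ q * trp R q := by
        rw [hT, ← Real.rpow_mul h3, one_div_mul_cancel hq.ne', Real.rpow_one, h2]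

lemma continuous_hs {p q : Type*} [Fintype p] [Fintype q] {A : ℝ → Matrix p q ℂ}
    (hA : Continuous A) : Continuous fun x => hs (A x) := by
  unfold hs
  exact continuous_finsetSum _ fun i _ => continuous_finsetSum _ fun j _ =>
    ((hA.matrix_elem i j).norm.pow 2)

lemma deriv_zero_of_supp {Ψ Ψ' : ℝ → Matrix m ι ℂ} {L : ℝ}
    (dΨ : ∀ x i a, HasDerivAt (fun y => Ψ y i a) (Ψ' x i a) x)
    (supp : ∀ x, x ∉ Icc (-L) L → Ψ x = 0) : ∀ x, x ∉ Icc (-L) L → Ψ' x = 0 := by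
  intro x hx
  ext i a
  have h1 : (fun y => Ψ y i a) =ᶠ[𝓝 x] fun _ => (0 : ℂ) := by
    have : (Icc (-L) L)ᶜ ∈ 𝓝 x := isClosed_Icc.isOpen_compl.mem_nhds hx
    filter_upwards [this] with y hy
    rw [supp y hy]
    rfl
  have h2 : HasDerivAt (fun y => Ψ y i a) 0 x := (hasDerivAt_const x (0 : ℂ)).congr_of_eventuallyEq h1
  exact (dΨ x i a).unique h2

lemma continuous_of_entries {p q : Type*} [Fintype p] [Fintype q] {A : ℝ → Matrix p q ℂ}
    {A' : ℝ → Matrix p q ℂ} (h : ∀ x i a, HasDerivAt (fun y => A y i a) (A' x i a) x) :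
    Continuous A :=
  MDeriv.continuousAt (A' := A') fun x => h x

lemma integrable_of_supp {f : ℝ → ℝ} (hf : Continuous f) {L : ℝ}
    (h : ∀ x, x ∉ Icc (-L) L → f x = 0) : Integrable f :=
  hf.integrable_of_hasCompactSupport (HasCompactSupport.intro isCompact_Icc h)

/-- Power of the sup bound. -/
theorem sup_hs_rpow_le {Ψ Ψ' : ℝ → Matrix m ι ℂ} {L : ℝ}
    (dΨ : ∀ x i a, HasDerivAt (fun y => Ψ y i a) (Ψ' x i a) x) (cΨ' : Continuous Ψ')
    (supp : ∀ x, x ∉ Icc (-L) L → Ψ x = 0) {r D : ℝ} (hr : 0 < r)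
    (bd : ∫ x, hs (Ψ' x) ≤ D) (bR : ∫ x, trp (Ψ x * (Ψ x)ᴴ) (1 + r) ≤ D) (x : ℝ) :
    hs (Ψ x) ^ (1 + r / 2) ≤ (1 + r / 2) * ((Fintype.card m : ℝ) ^ (1 + r) * D + D) := by
  set s : ℝ := 1 + r / 2 with hs_def
  have hs1 : 1 ≤ s := by rw [hs_def]; linarith
  have cΨ : Continuous Ψ := continuous_of_entries dΨ
  have supp' := deriv_zero_of_supp dΨ supp
  have hc1 : Continuous fun x => hs (Ψ' x) := continuous_hs cΨ'
  have hi1 : Integrable fun x => hs (Ψ' x) := integrable_of_supp hc1 fun x hx => by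
    rw [supp' x hx, hs_zero]
  have hRc : Continuous fun x => Ψ x * (Ψ x)ᴴ := cΨ.matrix_mul cΨ.matrix_conjTranspose
  have hc2 : Continuous fun x => trp (Ψ x * (Ψ x)ᴴ) (1 + r) :=
    continuous_trp hRc (fun x => (self_conj_posSemidef (Ψ x)).1) (by linarith)
  have hi2 : Integrable fun x => trp (Ψ x * (Ψ x)ᴴ) (1 + r) := integrable_of_supp hc2
    fun x hx => by
      rw [supp x hx, Matrix.zero_mul, trp, mpow_zero_matrix (by linarith), rtr_zero]
  -- the derivative of `hs Ψ`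
  set u' : ℝ → ℝ := fun x => ∑ i, ∑ a, 2 * inner ℝ (Ψ x i a) (Ψ' x i a) with hu'
  have hu : ∀ x, HasDerivAt (fun y => hs (Ψ y)) (u' x) x := by
    intro x
    unfold hs
    exact HasDerivAt.fun_sum fun i _ => HasDerivAt.fun_sum fun a _ => (dΨ x i a).norm_sq
  have hu'c : Continuous u' := by
    refine continuous_finsetSum _ fun i _ => continuous_finsetSum _ fun a _ => ?_
    exact continuous_const.mul ((cΨ.matrix_elem i a).inner (cΨ'.matrix_elem i a))
  have hcu : Continuous fun x => hs (Ψ x) := continuous_hs cΨ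
  have hU : ∀ x, HasDerivAt (fun y => hs (Ψ y) ^ s) (u' x * s * hs (Ψ x) ^ (s - 1)) x :=
    fun x => (hu x).rpow_const (Or.inr hs1)
  have hU'c : Continuous fun x => u' x * s * hs (Ψ x) ^ (s - 1) :=
    (hu'c.mul continuous_const).mul (hcu.rpow_const fun x => Or.inr (by linarith))
  have hle : ∀ x, u' x * s * hs (Ψ x) ^ (s - 1) ≤
      s * ((Fintype.card m : ℝ) ^ (1 + r) * trp (Ψ x * (Ψ x)ᴴ) (1 + r) + hs (Ψ' x)) := by
    intro x
    have h0 := hs_nonneg (Ψ x)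
    have e1 : s - 1 = r / 2 := by rw [hs_def]; ring
    rw [e1]
    set w : ℝ := hs (Ψ x) ^ (r / 2) with hw
    have hw0 : 0 ≤ w := Real.rpow_nonneg h0 _
    have hww : w ^ 2 = hs (Ψ x) ^ r := by
      rw [hw, ← Real.rpow_natCast, ← Real.rpow_mul h0]
      congr 1
      push_cast
      ring
    have h1 : u' x * w ≤ ∑ i, ∑ a, (w ^ 2 * ‖Ψ x i a‖ ^ 2 + ‖Ψ' x i a‖ ^ 2) := by
      rw [hu', Finset.sum_mul]
      refine Finset.sum_le_sum fun i _ => ?_
      rw [Finset.sum_mul]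
      refine Finset.sum_le_sum fun a _ => ?_
      have h2 := real_inner_le_norm (Ψ x i a) (Ψ' x i a)
      have h3 := mul_le_mul_of_nonneg_right h2 hw0
      nlinarith [sq_nonneg (w * ‖Ψ x i a‖ - ‖Ψ' x i a‖)]
    have h2 : ∑ i, ∑ a, (w ^ 2 * ‖Ψ x i a‖ ^ 2 + ‖Ψ' x i a‖ ^ 2) =
        hs (Ψ x) ^ (1 + r) + hs (Ψ' x) := by
      simp only [Finset.sum_add_distrib, ← Finset.mul_sum]
      rw [hww, Real.rpow_add_of_nonneg h0 zero_le_one hr.le, Real.rpow_one]
      unfold hs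
      ring
    have h3 : hs (Ψ x) ^ (1 + r) ≤ (Fintype.card m : ℝ) ^ (1 + r) *
        trp (Ψ x * (Ψ x)ᴴ) (1 + r) := by
      rw [hs_eq_rtr']
      exact rtr_rpow_le (self_conj_posSemidef (Ψ x)) (by linarith)
    calc u' x * s * w = s * (u' x * w) := by ring
      _ ≤ s * (hs (Ψ x) ^ (1 + r) + hs (Ψ' x)) := by
          rw [← h2]
          exact mul_le_mul_of_nonneg_left h1 (by linarith)
      _ ≤ _ := by
          apply mul_le_mul_of_nonneg_left _ (by linarith)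
          linarith
  have hRHS : Integrable fun x => s * ((Fintype.card m : ℝ) ^ (1 + r) *
      trp (Ψ x * (Ψ x)ᴴ) (1 + r) + hs (Ψ' x)) := ((hi2.const_mul _).add hi1).const_mul _
  have hRHS0 : ∀ x, 0 ≤ s * ((Fintype.card m : ℝ) ^ (1 + r) *
      trp (Ψ x * (Ψ x)ᴴ) (1 + r) + hs (Ψ' x)) := by
    intro x
    have h1 : 0 ≤ trp (Ψ x * (Ψ x)ᴴ) (1 + r) :=
      rtr_nonneg_of_posSemidef (mpow_posSemidef (self_conj_posSemidef _) _)
    have h2 := hs_nonneg (Ψ' x)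
    have : 0 ≤ s := by linarith
    positivity
  set a : ℝ := min x (-L - 1) with ha
  have hax : a ≤ x := min_le_left _ _
  have haL : a ∉ Icc (-L) L := by
    intro h
    have := h.1
    have h2 : a ≤ -L - 1 := min_le_right _ _
    linarith
  have hFTC : ∫ t in a..x, u' t * s * hs (Ψ t) ^ (s - 1) = hs (Ψ x) ^ s - hs (Ψ a) ^ s :=
    intervalIntegral.integral_eq_sub_of_hasDerivAt (fun t _ => hU t)
      (hU'c.intervalIntegrable _ _)
  have hUa : hs (Ψ a) ^ s = 0 := by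
    rw [supp a haL, hs_zero, Real.zero_rpow (by linarith)]
  rw [hUa, sub_zero] at hFTC
  rw [← hFTC]
  calc ∫ t in a..x, u' t * s * hs (Ψ t) ^ (s - 1)
      ≤ ∫ t in a..x, s * ((Fintype.card m : ℝ) ^ (1 + r) *
        trp (Ψ t * (Ψ t)ᴴ) (1 + r) + hs (Ψ' t)) :=
        intervalIntegral.integral_mono_on hax (hU'c.intervalIntegrable _ _)
          hRHS.intervalIntegrable fun t _ => hle t
    _ ≤ ∫ t, s * ((Fintype.card m : ℝ) ^ (1 + r) *
        trp (Ψ t * (Ψ t)ᴴ) (1 + r) + hs (Ψ' t)) := by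
        rw [intervalIntegral.integral_of_le hax]
        exact setIntegral_le_integral hRHS (Eventually.of_forall hRHS0)
    _ = s * ((Fintype.card m : ℝ) ^ (1 + r) * (∫ t, trp (Ψ t * (Ψ t)ᴴ) (1 + r)) +
        ∫ t, hs (Ψ' t)) := by
        rw [integral_const_mul, integral_add (hi2.const_mul _) hi1, integral_const_mul]
    _ ≤ _ := by
        apply mul_le_mul_of_nonneg_left _ (by linarith)
        gcongr

/-- The sup bound. -/
noncomputable def supB (M r D : ℝ) : ℝ :=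
  ((1 + r / 2) * (M ^ (1 + r) * D + D)) ^ (1 / (1 + r / 2))

theorem sup_hs_le {Ψ Ψ' : ℝ → Matrix m ι ℂ} {L : ℝ}
    (dΨ : ∀ x i a, HasDerivAt (fun y => Ψ y i a) (Ψ' x i a) x) (cΨ' : Continuous Ψ')
    (supp : ∀ x, x ∉ Icc (-L) L → Ψ x = 0) {r D : ℝ} (hr : 0 < r)
    (bd : ∫ x, hs (Ψ' x) ≤ D) (bR : ∫ x, trp (Ψ x * (Ψ x)ᴴ) (1 + r) ≤ D) (x : ℝ) :
    hs (Ψ x) ≤ supB (Fintype.card m) r D := by
  have h := sup_hs_rpow_le dΨ cΨ' supp hr bd bR x
  have hs1 : 0 < 1 + r / 2 := by linarith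
  have h0 := hs_nonneg (Ψ x)
  have h2 := Real.rpow_le_rpow (Real.rpow_nonneg h0 _) h (by positivity : 0 ≤ 1 / (1 + r / 2))
  rwa [← Real.rpow_mul h0, mul_one_div_cancel hs1.ne', Real.rpow_one] at h2

end Crest.Agent.R332.Lim
end

-- ▼ part R332/LimNear

/-! # Row 332: near-extremal families, the limit theorem -/

set_option autoImplicit false
set_option linter.unusedSectionVars false

namespace Crest.Agent.R332.Lim

open Matrix Filter Topology MeasureTheory Set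
open scoped ComplexOrder

variable {m : Type*} [Fintype m] [DecidableEq m]

/-- Data of a near-extremal family for the potential `W` (`r = 1/α`). -/
structure NearData {ι : Type*} [Fintype ι] [DecidableEq ι] (α κ D ε : ℝ)
    (W : ℝ → Matrix m m ℂ) (L : ℝ) (Ψ Ψ' : ℝ → Matrix m ι ℂ) (K : Matrix ι ι ℂ)
    (F : ℝ → Matrix ι ι ℂ) : Prop where
  L_pos : 0 < L
  dΨ : ∀ x i a, HasDerivAt (fun y => Ψ y i a) (Ψ' x i a) x
  cΨ' : Continuous Ψ'
  supp : ∀ x, x ∉ Icc (-L) L → Ψ x = 0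
  F_left : F (-L) = K
  F_right : F L = -K
  dF : ∀ x ∈ Icc (-L) L, HasDerivWithinAt F
    (K * K - F x * F x - (1 + 1 / α) • mpow ((Ψ x)ᴴ * Ψ x) (1 / α)) (Icc (-L) L) x
  sub : ∀ x ∈ Icc (-L) L, (K - F x).PosSemidef
  add : ∀ x ∈ Icc (-L) L, (K + F x).PosSemidef
  bdd : (((κ : ℝ) : ℂ) • (1 : Matrix ι ι ℂ) - K).PosSemidef
  d1i : Integrable fun x => (α / (1 + α)) ^ α / (1 + α) * trp (W x) (1 + α) -
    rtr (W x * (Ψ x * (Ψ x)ᴴ)) + trp (Ψ x * (Ψ x)ᴴ) (1 + 1 / α)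
  d1 : ∫ x, ((α / (1 + α)) ^ α / (1 + α) * trp (W x) (1 + α) -
    rtr (W x * (Ψ x * (Ψ x)ᴴ)) + trp (Ψ x * (Ψ x)ᴴ) (1 + 1 / α)) ≤ ε
  d2 : ∫ x in (-L)..L, hs (Ψ' x - Ψ x * F x) ≤ ε
  d3 : ∫ x in (-L)..L, (hs (F x * (K * K) - K * K * F x) +
    hs (mpow ((Ψ x)ᴴ * Ψ x) (1 / α) - (K * K - F x * F x))) ≤ ε
  bd : ∫ x, hs (Ψ' x) ≤ D
  bR : ∫ x, trp (Ψ x * (Ψ x)ᴴ) (1 + 1 / α) ≤ D

/-- Clamp to `[-L, L]`. -/
noncomputable def clampL (L x : ℝ) : ℝ := max (-L) (min L x)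

lemma clampL_mem {L : ℝ} (hL : 0 < L) (x : ℝ) : clampL L x ∈ Icc (-L) L :=
  ⟨le_max_left _ _, max_le (by linarith) (min_le_left _ _)⟩

lemma clampL_of_mem {L x : ℝ} (hx : x ∈ Icc (-L) L) : clampL L x = x := by
  rw [clampL, min_eq_right hx.2, max_eq_right hx.1]

lemma clampL_of_ge {L x : ℝ} (hL : 0 < L) (hx : L ≤ x) : clampL L x = L := by
  rw [clampL, min_eq_left hx, max_eq_right (by linarith)]

lemma clampL_of_le {L x : ℝ} (hx : x ≤ -L) : clampL L x = -L := by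
  rw [clampL, max_eq_left]
  exact (min_le_right _ _).trans hx

/-- Gluing constants on both sides of a `C¹` function whose end derivatives vanish. -/
lemma clamp_hasDerivAt {f : ℝ → ℂ} {f' : ℝ → ℂ} {L : ℝ} (hL : 0 < L)
    (h : ∀ x ∈ Icc (-L) L, HasDerivWithinAt f (f' x) (Icc (-L) L) x)
    (h1 : f' (-L) = 0) (h2 : f' L = 0) (h3 : ∀ x, x ∉ Icc (-L) L → f' x = 0) (x : ℝ) :
    HasDerivAt (fun y => f (clampL L y)) (f' x) x := by
  have hright : ∀ x, L ≤ x → HasDerivWithinAt (fun y => f (clampL L y)) 0 (Ici L) x := by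
    intro x hx
    refine (hasDerivWithinAt_const x (Ici L) (f L)).congr (fun y hy => ?_) ?_
    · rw [clampL_of_ge hL hy]
    · rw [clampL_of_ge hL hx]
  have hleft : ∀ x, x ≤ -L → HasDerivWithinAt (fun y => f (clampL L y)) 0 (Iic (-L)) x := by
    intro x hx
    refine (hasDerivWithinAt_const x (Iic (-L)) (f (-L))).congr (fun y hy => ?_) ?_
    · rw [clampL_of_le hy]
    · rw [clampL_of_le hx]
  have hmid : ∀ x ∈ Icc (-L) L, HasDerivWithinAt (fun y => f (clampL L y)) (f' x)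
      (Icc (-L) L) x := by
    intro x hx
    refine (h x hx).congr (fun y hy => ?_) ?_
    · rw [clampL_of_mem hy]
    · rw [clampL_of_mem hx]
  rcases lt_trichotomy x (-L) with hx | hx | hx
  · rw [h3 x fun hh => absurd hh.1 (not_le.2 hx)]
    exact (hleft x hx.le).hasDerivAt (Iic_mem_nhds hx)
  · subst hx
    rw [h1]
    have a1 := hleft (-L) le_rfl
    have a2 := hmid (-L) ⟨le_rfl, by linarith⟩
    rw [h1] at a2
    have a3 := a1.union a2
    refine a3.hasDerivAt ?_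
    filter_upwards [Iio_mem_nhds (show -L < L by linarith)] with y hy
    rcases le_total y (-L) with h' | h'
    · exact Or.inl h'
    · exact Or.inr ⟨h', le_of_lt hy⟩
  · rcases lt_trichotomy x L with hx2 | hx2 | hx2
    · exact (hmid x ⟨hx.le, hx2.le⟩).hasDerivAt (Icc_mem_nhds hx hx2)
    · subst hx2
      rw [h2]
      have a1 := hright x le_rfl
      have a2 := hmid x ⟨hx.le, le_rfl⟩
      rw [h2] at a2
      have a3 := a2.union a1
      refine a3.hasDerivAt ?_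
      filter_upwards [Ioi_mem_nhds hx] with y hy
      rcases le_total y x with h' | h'
      · exact Or.inl ⟨le_of_lt hy, h'⟩
      · exact Or.inr h'
    · rw [h3 x fun hh => absurd hh.2 (not_le.2 hx2)]
      exact (hright x hx2.le).hasDerivAt (Ici_mem_nhds hx2)

namespace NearData

variable {ι : Type*} [Fintype ι] [DecidableEq ι] {α κ D ε : ℝ}
    {W : ℝ → Matrix m m ℂ} {L : ℝ} {Ψ Ψ' : ℝ → Matrix m ι ℂ} {K : Matrix ι ι ℂ}
    {F : ℝ → Matrix ι ι ℂ}

lemma cΨ (nd : NearData α κ D ε W L Ψ Ψ' K F) : Continuous Ψ := continuous_of_entries nd.dΨ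

lemma supp' (nd : NearData α κ D ε W L Ψ Ψ' K F) : ∀ x, x ∉ Icc (-L) L → Ψ' x = 0 :=
  deriv_zero_of_supp nd.dΨ nd.supp

lemma Ψ_right (nd : NearData α κ D ε W L Ψ Ψ' K F) : Ψ L = 0 := by
  have h1 : Tendsto Ψ (𝓝[>] L) (𝓝 (Ψ L)) := (nd.cΨ.tendsto L).mono_left nhdsWithin_le_nhds
  have h2 : Tendsto Ψ (𝓝[>] L) (𝓝 0) := by
    refine tendsto_const_nhds.congr' ?_
    filter_upwards [self_mem_nhdsWithin] with y hy
    exact (nd.supp y fun h => absurd h.2 (not_le.2 hy)).symm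
  exact tendsto_nhds_unique h1 h2

lemma Ψ_left (nd : NearData α κ D ε W L Ψ Ψ' K F) : Ψ (-L) = 0 := by
  have h1 : Tendsto Ψ (𝓝[<] (-L)) (𝓝 (Ψ (-L))) :=
    (nd.cΨ.tendsto (-L)).mono_left nhdsWithin_le_nhds
  have h2 : Tendsto Ψ (𝓝[<] (-L)) (𝓝 0) := by
    refine tendsto_const_nhds.congr' ?_
    filter_upwards [self_mem_nhdsWithin] with y hy
    exact (nd.supp y fun h => absurd h.1 (not_le.2 hy)).symm
  exact tendsto_nhds_unique h1 h2

/-- The extended Riccati path. -/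
noncomputable def Fe (L : ℝ) (F : ℝ → Matrix ι ι ℂ) (x : ℝ) : Matrix ι ι ℂ := F (clampL L x)

lemma Fe_of_mem {x : ℝ} (hx : x ∈ Icc (-L) L) : Fe L F x = F x := by
  rw [Fe, clampL_of_mem hx]

lemma Fe_sq (nd : NearData α κ D ε W L Ψ Ψ' K F) {x : ℝ} (hx : x ∉ Icc (-L) L) :
    Fe L F x = K ∨ Fe L F x = -K := by
  rcases lt_or_ge x (-L) with h | h
  · left
    rw [Fe, clampL_of_le h.le, nd.F_left]
  · right
    have : L ≤ x := by
      by_contra hlt
      exact hx ⟨h, (not_le.1 hlt).le⟩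
    rw [Fe, clampL_of_ge nd.L_pos this, nd.F_right]

/-- The derivative of the extended path. -/
lemma dFe (hα : 0 < α) (nd : NearData α κ D ε W L Ψ Ψ' K F) (x : ℝ) :
    MDeriv (Fe L F) (K * K - Fe L F x * Fe L F x -
      (1 + 1 / α) • mpow ((Ψ x)ᴴ * Ψ x) (1 / α)) x := by
  have hr : 0 < 1 / α := by positivity
  have hz : ∀ y, Ψ y = 0 → (F (clampL L y) = K ∨ F (clampL L y) = -K) →
      K * K - Fe L F y * Fe L F y - (1 + 1 / α) • mpow ((Ψ y)ᴴ * Ψ y) (1 / α) = 0 := by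
    intro y hy hK
    rw [hy, Matrix.mul_zero, mpow_zero_matrix hr, smul_zero, sub_zero]
    rcases hK with h | h
    · rw [Fe, h, sub_self]
    · rw [Fe, h, neg_mul_neg, sub_self]
  intro i j
  refine clamp_hasDerivAt (f := fun y => F y i j)
    (f' := fun x => (K * K - Fe L F x * Fe L F x -
      (1 + 1 / α) • mpow ((Ψ x)ᴴ * Ψ x) (1 / α)) i j) nd.L_pos ?_ ?_ ?_ ?_ x
  · intro y hy
    have h1 := nd.dF y hy
    rw [← Fe_of_mem (F := F) hy] at h1
    exact (hasDerivWithinAt_pi.1 ((hasDerivWithinAt_pi.1 h1) i)) j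
  · show (K * K - Fe L F (-L) * Fe L F (-L) -
      (1 + 1 / α) • mpow ((Ψ (-L))ᴴ * Ψ (-L)) (1 / α)) i j = 0
    rw [hz (-L) nd.Ψ_left (Or.inl (by rw [clampL_of_le le_rfl, nd.F_left]))]
    rfl
  · show (K * K - Fe L F L * Fe L F L -
      (1 + 1 / α) • mpow ((Ψ L)ᴴ * Ψ L) (1 / α)) i j = 0
    rw [hz L nd.Ψ_right (Or.inr (by rw [clampL_of_ge nd.L_pos le_rfl, nd.F_right]))]
    rfl
  · intro y hy
    show (K * K - Fe L F y * Fe L F y -
      (1 + 1 / α) • mpow ((Ψ y)ᴴ * Ψ y) (1 / α)) i j = 0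
    rw [hz y (nd.supp y hy) (nd.Fe_sq hy)]
    rfl

lemma cFe (hα : 0 < α) (nd : NearData α κ D ε W L Ψ Ψ' K F) : Continuous (Fe L F) :=
  continuous_of_entries fun x => nd.dFe hα x

lemma pt (nd : NearData α κ D ε W L Ψ Ψ' K F) (x : ℝ) : PtData κ K (Fe L F x) :=
  ⟨nd.sub _ (clampL_mem nd.L_pos x), nd.add _ (clampL_mem nd.L_pos x), nd.bdd⟩

/-- The total deficit density. -/
noncomputable def dens (α : ℝ) (W : ℝ → Matrix m m ℂ) (L : ℝ) (Ψ Ψ' : ℝ → Matrix m ι ℂ)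
    (K : Matrix ι ι ℂ) (F : ℝ → Matrix ι ι ℂ) (x : ℝ) : ℝ :=
  ((α / (1 + α)) ^ α / (1 + α) * trp (W x) (1 + α) -
    rtr (W x * (Ψ x * (Ψ x)ᴴ)) + trp (Ψ x * (Ψ x)ᴴ) (1 + 1 / α)) +
  hs (Ψ' x - Ψ x * Fe L F x) + (hs (Fe L F x * (K * K) - K * K * Fe L F x) +
    hs (mpow ((Ψ x)ᴴ * Ψ x) (1 / α) - (K * K - Fe L F x * Fe L F x)))

lemma integral_of_supp {f f₀ : ℝ → ℝ} (hL : 0 < L) (h : ∀ x, x ∉ Icc (-L) L → f x = 0)
    (h' : ∀ x ∈ Icc (-L) L, f x = f₀ x) : ∫ x, f x = ∫ x in (-L)..L, f₀ x := by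
  rw [intervalIntegral.integral_of_le (by linarith), ← integral_Icc_eq_integral_Ioc,
    ← setIntegral_eq_integral_of_forall_compl_eq_zero h]
  exact setIntegral_congr_fun measurableSet_Icc h'

lemma cP (nd : NearData α κ D ε W L Ψ Ψ' K F) (hα : 0 < α) :
    Continuous fun x => mpow ((Ψ x)ᴴ * Ψ x) (1 / α) :=
  continuous_mpow (nd.cΨ.matrix_conjTranspose.matrix_mul nd.cΨ)
    (fun x => (conj_posSemidef (Ψ x)).1) (by positivity)

lemma dens_integral (hα : 0 < α) (nd : NearData α κ D ε W L Ψ Ψ' K F) :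
    Integrable (dens α W L Ψ Ψ' K F) ∧ ∫ x, dens α W L Ψ Ψ' K F x ≤ 3 * ε := by
  have hr : 0 < 1 / α := by positivity
  have c2 : Continuous fun x => hs (Ψ' x - Ψ x * Fe L F x) :=
    continuous_hs (nd.cΨ'.sub (nd.cΨ.matrix_mul (nd.cFe hα)))
  have c3 : Continuous fun x => hs (Fe L F x * (K * K) - K * K * Fe L F x) +
      hs (mpow ((Ψ x)ᴴ * Ψ x) (1 / α) - (K * K - Fe L F x * Fe L F x)) := by
    refine (continuous_hs ?_).add (continuous_hs ?_)
    · exact ((nd.cFe hα).matrix_mul continuous_const).sub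
        (continuous_const.matrix_mul (nd.cFe hα))
    · exact (nd.cP hα).sub (continuous_const.sub ((nd.cFe hα).matrix_mul (nd.cFe hα)))
  have s2 : ∀ x, x ∉ Icc (-L) L → hs (Ψ' x - Ψ x * Fe L F x) = 0 := by
    intro x hx
    rw [nd.supp' x hx, nd.supp x hx, Matrix.zero_mul, sub_zero, hs_zero]
  have s3 : ∀ x, x ∉ Icc (-L) L → hs (Fe L F x * (K * K) - K * K * Fe L F x) +
      hs (mpow ((Ψ x)ᴴ * Ψ x) (1 / α) - (K * K - Fe L F x * Fe L F x)) = 0 := by
    intro x hx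
    rw [nd.supp x hx, Matrix.mul_zero, mpow_zero_matrix hr]
    rcases nd.Fe_sq hx with h | h
    · rw [h, Matrix.mul_assoc, sub_self, sub_self, sub_zero, hs_zero, add_zero]
    · rw [h, neg_mul_neg, Matrix.neg_mul, Matrix.mul_neg, Matrix.mul_assoc, sub_self, sub_self,
        sub_zero, hs_zero, add_zero]
  have i2 := integrable_of_supp c2 s2
  have i3 := integrable_of_supp c3 s3
  have e2 : ∫ x, hs (Ψ' x - Ψ x * Fe L F x) = ∫ x in (-L)..L, hs (Ψ' x - Ψ x * F x) :=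
    integral_of_supp nd.L_pos s2 fun x hx => by rw [Fe_of_mem hx]
  have e3 : ∫ x, (hs (Fe L F x * (K * K) - K * K * Fe L F x) +
      hs (mpow ((Ψ x)ᴴ * Ψ x) (1 / α) - (K * K - Fe L F x * Fe L F x))) =
      ∫ x in (-L)..L, (hs (F x * (K * K) - K * K * F x) +
    hs (mpow ((Ψ x)ᴴ * Ψ x) (1 / α) - (K * K - F x * F x))) :=
    integral_of_supp nd.L_pos s3 fun x hx => by rw [Fe_of_mem hx]
  refine ⟨(nd.d1i.add i2).add i3, ?_⟩
  unfold dens
  have a1 := integral_add (nd.d1i.add i2) i3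
  have a2 := integral_add nd.d1i i2
  simp only [Pi.add_apply] at a1 a2
  rw [a1, a2, e2, e3]
  have := nd.d1
  have := nd.d2
  have := nd.d3
  linarith

end NearData

lemma sqrt_lin_le {a b h : ℝ} (ha : 0 ≤ a) (hb : 0 ≤ b) (hh : 0 ≤ h) :
    Real.sqrt (a * h + b) ≤ (Real.sqrt a + Real.sqrt b) * (1 + Real.sqrt h) := by
  rw [Real.sqrt_le_left (by positivity)]
  have h1 := Real.sq_sqrt ha
  have h2 := Real.sq_sqrt hb
  have h3 := Real.sq_sqrt hh
  have p1 := Real.sqrt_nonneg a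
  have p2 := Real.sqrt_nonneg b
  have p3 := Real.sqrt_nonneg h
  set x := Real.sqrt a
  set y := Real.sqrt b
  set z := Real.sqrt h
  have e : a * h + b = (x * z) ^ 2 + y ^ 2 := by rw [mul_pow, h1, h2, h3]
  rw [e]
  have q1 : 0 ≤ x * z := mul_nonneg p1 p3
  have q2 : 0 ≤ y * z := mul_nonneg p2 p3
  have q3 : (x + y) * (1 + z) = x * z + y + (x + y * z) := by ring
  rw [q3]
  have q4 : 0 ≤ x + y * z := by positivity
  have q5 : 0 ≤ x * z + y := by positivity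
  nlinarith [mul_nonneg q1 p2, mul_nonneg q4 q5, sq_nonneg (x + y * z)]

/-- **Limit theorem.**  If for every `ε > 0` there is a near-extremal family with deficits `≤ ε`
(and bounds uniform in `ε`), then the exact `m × m` system has a solution with
`W = (1+r) R^r` a.e. -/
theorem limit_of_near {α κ D : ℝ} (hα : 0 < α) (hα1 : α < 1) (hκ : 0 < κ)
    {W : ℝ → Matrix m m ℂ} (hWp : ∀ x, (W x).PosSemidef)
    (H : ∀ ε : ℝ, 0 < ε → ∃ (ι : Type) (_ : Fintype ι) (_ : DecidableEq ι) (L : ℝ)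
      (Ψ Ψ' : ℝ → Matrix m ι ℂ) (K : Matrix ι ι ℂ) (F : ℝ → Matrix ι ι ℂ),
      NearData α κ D ε W L Ψ Ψ' K F) :
    ∃ R S Q : ℝ → Matrix m m ℂ,
      (∀ x, (R x).PosSemidef) ∧ (∀ x, (S x).IsHermitian) ∧
      Continuous R ∧ Continuous S ∧ Continuous Q ∧
      (∀ x i j, HasDerivAt (fun y => R y i j) (2 * S x i j) x) ∧
      (∀ x i j, HasDerivAt (fun y => S y i j)
        (2 * Q x i j - ((1 / α : ℝ) : ℂ) * mpow (R x) (1 + 1 / α) i j) x) ∧
      (∀ x, S x * R x = R x * S x) ∧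
      (∀ x, mpow (R x) (1 / α) * Q x = S x * mpow (R x) (1 / α - 1) * S x) ∧
      (∀ x, (((κ : ℝ) : ℂ) • R x + S x).PosSemidef) ∧
      (∀ x, (((κ : ℝ) : ℂ) • R x - S x).PosSemidef) ∧
      (∀ᵐ x : ℝ, W x = (1 + 1 / α) • mpow (R x) (1 / α)) := by
  have H' : ∀ k : ℕ, ∃ (ι : Type) (_ : Fintype ι) (_ : DecidableEq ι) (L : ℝ)
      (Ψ Ψ' : ℝ → Matrix m ι ℂ) (K : Matrix ι ι ℂ) (F : ℝ → Matrix ι ι ℂ),
      NearData α κ D (1 / ((k : ℝ) + 1)) W L Ψ Ψ' K F := fun k => H _ (by positivity)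
  choose ι _i1 _i2 L Ψ Ψ' K F nd using H'
  set r : ℝ := 1 / α with hr
  have hr1 : 1 < r := by rw [hr, lt_div_iff₀ hα]; linarith
  have hr0 : 0 < r := by linarith
  set M : ℝ := (Fintype.card m : ℝ) with hM
  have hM0 : 0 ≤ M := Nat.cast_nonneg _
  set B : ℝ := supB M r D with hB
  have hΨB : ∀ k x, hs (Ψ k x) ≤ B := fun k x =>
    sup_hs_le (nd k).dΨ (nd k).cΨ' (nd k).supp hr0 (nd k).bd (nd k).bR x
  have hB0 : 0 ≤ B := (hs_nonneg (Ψ 0 0)).trans (hΨB 0 0)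
  have hD0 : 0 ≤ D := (integral_nonneg fun x => hs_nonneg (Ψ' 0 x)).trans (nd 0).bd
  have hΨ'i : ∀ k, Integrable fun x => hs (Ψ' k x) := fun k =>
    integrable_of_supp (continuous_hs (nd k).cΨ') fun x hx => by
      rw [(nd k).supp' x hx, hs_zero]
  -- notation
  set Fx : ∀ k, ℝ → Matrix (ι k) (ι k) ℂ := fun k => NearData.Fe (L k) (F k) with hFx
  have cF : ∀ k, Continuous (Fx k) := fun k => (nd k).cFe hα
  have cΨ : ∀ k, Continuous (Ψ k) := fun k => (nd k).cΨ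
  have cP : ∀ k, Continuous fun x => mpow ((Ψ k x)ᴴ * Ψ k x) r := fun k => (nd k).cP hα
  have pt : ∀ k x, PtData κ (K k) (Fx k x) := fun k x => (nd k).pt x
  set R : ℕ → ℝ → Matrix m m ℂ := fun k x => Ψ k x * (Ψ k x)ᴴ with hR
  set S : ℕ → ℝ → Matrix m m ℂ := fun k x => Ψ k x * Fx k x * (Ψ k x)ᴴ with hS
  set Q : ℕ → ℝ → Matrix m m ℂ := fun k x => Ψ k x * (Fx k x * Fx k x) * (Ψ k x)ᴴ with hQ
  set F' : ∀ k, ℝ → Matrix (ι k) (ι k) ℂ := fun k x =>
    K k * K k - Fx k x * Fx k x - (1 + r) • mpow ((Ψ k x)ᴴ * Ψ k x) r with hF'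
  set dR : ℕ → ℝ → Matrix m m ℂ := fun k x => Ψ' k x * (Ψ k x)ᴴ + Ψ k x * (Ψ' k x)ᴴ with hdR
  set dS : ℕ → ℝ → Matrix m m ℂ := fun k x =>
    Ψ' k x * Fx k x * (Ψ k x)ᴴ + Ψ k x * F' k x * (Ψ k x)ᴴ + Ψ k x * Fx k x * (Ψ' k x)ᴴ with hdS
  set dQ : ℕ → ℝ → Matrix m m ℂ := fun k x =>
    Ψ' k x * (Fx k x * Fx k x) * (Ψ k x)ᴴ +
    Ψ k x * (F' k x * Fx k x + Fx k x * F' k x) * (Ψ k x)ᴴ +
    Ψ k x * (Fx k x * Fx k x) * (Ψ' k x)ᴴ with hdQ
  have cF' : ∀ k, Continuous (F' k) := fun k =>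
    (continuous_const.sub ((cF k).matrix_mul (cF k))).sub ((cP k).fun_const_smul (1 + r))
  have cR : ∀ k, Continuous (R k) := fun k => (cΨ k).matrix_mul (cΨ k).matrix_conjTranspose
  have cS : ∀ k, Continuous (S k) := fun k =>
    ((cΨ k).matrix_mul (cF k)).matrix_mul (cΨ k).matrix_conjTranspose
  have cQ : ∀ k, Continuous (Q k) := fun k =>
    ((cΨ k).matrix_mul ((cF k).matrix_mul (cF k))).matrix_mul (cΨ k).matrix_conjTranspose
  have cdR : ∀ k, Continuous (dR k) := fun k =>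
    ((nd k).cΨ'.matrix_mul (cΨ k).matrix_conjTranspose).add
      ((cΨ k).matrix_mul (nd k).cΨ'.matrix_conjTranspose)
  have cdS : ∀ k, Continuous (dS k) := fun k =>
    (((((nd k).cΨ'.matrix_mul (cF k)).matrix_mul (cΨ k).matrix_conjTranspose)).add
      (((cΨ k).matrix_mul (cF' k)).matrix_mul (cΨ k).matrix_conjTranspose)).add
      (((cΨ k).matrix_mul (cF k)).matrix_mul (nd k).cΨ'.matrix_conjTranspose)
  have cdQ : ∀ k, Continuous (dQ k) := fun k =>
    ((((nd k).cΨ'.matrix_mul ((cF k).matrix_mul (cF k))).matrix_mul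
      (cΨ k).matrix_conjTranspose).add
      (((cΨ k).matrix_mul (((cF' k).matrix_mul (cF k)).add ((cF k).matrix_mul (cF' k)))).matrix_mul
        (cΨ k).matrix_conjTranspose)).add
      (((cΨ k).matrix_mul ((cF k).matrix_mul (cF k))).matrix_mul
        (nd k).cΨ'.matrix_conjTranspose)
  have DΨ : ∀ k x, MDeriv (Ψ k) (Ψ' k x) x := fun k x => (nd k).dΨ x
  have DF : ∀ k x, MDeriv (Fx k) (F' k x) x := fun k x => (nd k).dFe hα x
  have DR : ∀ k x, MDeriv (R k) (dR k x) x := fun k x => (DΨ k x).mul (DΨ k x).conjTranspose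
  have DS : ∀ k x, MDeriv (S k) (dS k x) x := by
    intro k x
    have h1 := ((DΨ k x).mul (DF k x)).mul (DΨ k x).conjTranspose
    rw [Matrix.add_mul] at h1
    exact h1
  have DQ : ∀ k x, MDeriv (Q k) (dQ k x) x := by
    intro k x
    have h1 := ((DΨ k x).mul ((DF k x).mul (DF k x))).mul (DΨ k x).conjTranspose
    rw [Matrix.add_mul] at h1
    exact h1
  -- the density
  set g : ℕ → ℝ → ℝ := fun k => NearData.dens α W (L k) (Ψ k) (Ψ' k) (K k) (F k) with hg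
  have hyoung : ∀ k x, 0 ≤ (α / (1 + α)) ^ α / (1 + α) * trp (W x) (1 + α) -
      rtr (W x * (Ψ k x * (Ψ k x)ᴴ)) + trp (Ψ k x * (Ψ k x)ᴴ) (1 + 1 / α) := fun k x =>
    matrix_young hα (hWp x) (self_conj_posSemidef _)
  have g1 : ∀ k x, (α / (1 + α)) ^ α / (1 + α) * trp (W x) (1 + α) -
      rtr (W x * R k x) + trp (R k x) (1 + r) ≤ g k x := by
    intro k x
    simp only [hg, NearData.dens]
    have a1 := hs_nonneg (Ψ' k x - Ψ k x * NearData.Fe (L k) (F k) x)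
    have a2 := hs_nonneg (NearData.Fe (L k) (F k) x * (K k * K k) -
      K k * K k * NearData.Fe (L k) (F k) x)
    have a3 := hs_nonneg (mpow ((Ψ k x)ᴴ * Ψ k x) (1 / α) -
      (K k * K k - NearData.Fe (L k) (F k) x * NearData.Fe (L k) (F k) x))
    linarith
  have g2 : ∀ k x, hs (Ψ' k x - Ψ k x * Fx k x) + hs (mpow ((Ψ k x)ᴴ * Ψ k x) r -
      (K k * K k - Fx k x * Fx k x)) ≤ g k x := by
    intro k x
    simp only [hg, NearData.dens]
    have a2 := hs_nonneg (NearData.Fe (L k) (F k) x * (K k * K k) -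
      K k * K k * NearData.Fe (L k) (F k) x)
    have := hyoung k x
    linarith
  have g3 : ∀ k x, hs (Fx k x * (K k * K k) - K k * K k * Fx k x) +
      hs (mpow ((Ψ k x)ᴴ * Ψ k x) r - (K k * K k - Fx k x * Fx k x)) ≤ g k x := by
    intro k x
    simp only [hg, NearData.dens]
    have a1 := hs_nonneg (Ψ' k x - Ψ k x * NearData.Fe (L k) (F k) x)
    have := hyoung k x
    linarith
  have g2' : ∀ k x, hs (Ψ' k x - Ψ k x * Fx k x) ≤ g k x := by
    intro k x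
    have a3 := hs_nonneg (mpow ((Ψ k x)ᴴ * Ψ k x) r - (K k * K k - Fx k x * Fx k x))
    have := g2 k x
    linarith
  have hg0 : ∀ k x, 0 ≤ g k x := fun k x => (hyoung k x).trans (g1 k x)
  have hgi : ∀ k, Integrable (g k) := fun k => ((nd k).dens_integral hα).1
  have hglim : Tendsto (fun k => ∫ x, g k x) atTop (𝓝 0) := by
    have h1 : Tendsto (fun k : ℕ => 3 * (1 / ((k : ℝ) + 1))) atTop (𝓝 (3 * 0)) :=
      tendsto_one_div_add_atTop_nhds_zero_nat.const_mul 3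
    rw [mul_zero] at h1
    exact squeeze_zero (fun k => integral_nonneg (hg0 k))
      (fun k => ((nd k).dens_integral hα).2) h1
  -- constants
  set cRb : ℝ := B with hcRb
  set cSb : ℝ := κ * B with hcSb
  set cQb : ℝ := κ ^ 2 * B with hcQb
  set cPb : ℝ := Real.sqrt (M * (B ^ (1 + r)) ^ 2) with hcPb
  set aS : ℝ := 16 * κ ^ 2 * B with haS
  set bS : ℝ := 32 * κ ^ 4 * B ^ 2 + 8 * (1 + r) ^ 2 * (M * (B ^ (1 + r)) ^ 2) with hbS
  set aQ : ℝ := 8 * κ ^ 4 * B with haQ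
  set bQ : ℝ := 64 * κ ^ 6 * B ^ 2 + 16 * (1 + r) ^ 2 * (κ ^ 2 * B ^ 2 * (M * (B ^ r) ^ 2))
    with hbQ
  set AR : ℝ := (Real.sqrt (4 * B) + Real.sqrt 0) * (1 + D) with hAR
  set AS : ℝ := (Real.sqrt aS + Real.sqrt bS) * (1 + D) with hAS
  set AQ : ℝ := (Real.sqrt aQ + Real.sqrt bQ) * (1 + D) with hAQ
  set E1 : ℝ := Real.sqrt (4 * B) with hE1
  set E2 : ℝ := Real.sqrt (8 * κ ^ 2 * B + 2 * B ^ 2) with hE2
  set E3 : ℝ := Real.sqrt (B ^ 2 * (8 * κ ^ 2 + 2)) with hE3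
  set E4 : ℝ := Real.sqrt (B ^ 2 * κ ^ 2 * (8 * κ ^ 2 + 2)) with hE4
  have n1 : 0 ≤ cRb := hB0
  have n2 : 0 ≤ cSb := by positivity
  have n3 : 0 ≤ cQb := by positivity
  have n4 : 0 ≤ cPb := Real.sqrt_nonneg _
  have n5 : 0 ≤ aS := by positivity
  have n6 : 0 ≤ bS := by positivity
  have n7 : 0 ≤ aQ := by positivity
  have n8 : 0 ≤ bQ := by positivity
  have n9 : 0 ≤ AR := by positivity
  have n10 : 0 ≤ AS := by positivity
  have n11 : 0 ≤ AQ := by positivity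
  have n12 : 0 ≤ E1 := Real.sqrt_nonneg _
  have n13 : 0 ≤ E2 := Real.sqrt_nonneg _
  have n14 : 0 ≤ E3 := Real.sqrt_nonneg _
  have n15 : 0 ≤ E4 := Real.sqrt_nonneg _
  set C : ℝ := cRb + cSb + cQb + cPb + AR + AS + AQ + E1 + E2 + E3 + E4 with hC
  have hC0 : 0 ≤ C := by positivity
  -- helper bounds
  have ent : ∀ (A : Matrix m m ℂ) (b : ℝ), hs A ≤ b → ∀ i j, ‖A i j‖ ≤ Real.sqrt b :=
    fun A b h i j => (hs_entry' A i j).trans (Real.sqrt_le_sqrt h)
  have bRk : ∀ k x i j, ‖R k x i j‖ ≤ C := by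
    intro k x i j
    have h1 := ent _ _ (R_bound (hΨB k x)) i j
    rw [Real.sqrt_sq hB0] at h1
    have : cRb ≤ C := by rw [hC]; linarith
    exact h1.trans this
  have bSk : ∀ k x i j, ‖S k x i j‖ ≤ C := by
    intro k x i j
    have h1 := ent _ _ (S_bound hκ (pt k x) (hΨB k x)) i j
    rw [← mul_pow, Real.sqrt_sq (by positivity)] at h1
    have : cSb ≤ C := by rw [hC]; linarith
    exact h1.trans this
  have bQk : ∀ k x i j, ‖Q k x i j‖ ≤ C := by
    intro k x i j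
    have h1 := ent _ _ (Q_bound hκ (pt k x) (hΨB k x)) i j
    rw [show κ ^ 4 * B ^ 2 = (κ ^ 2 * B) ^ 2 by ring, Real.sqrt_sq (by positivity)] at h1
    have : cQb ≤ C := by rw [hC]; linarith
    exact h1.trans this
  have bPk : ∀ k x i j, ‖mpow (R k x) (1 + r) i j‖ ≤ C := by
    intro k x i j
    have h0 : rtr (R k x) ≤ B := by
      rw [hR, ← hs_eq_rtr']; exact hΨB k x
    have h1 := ent _ _ (hs_mpow_le (q := 1 + r) (self_conj_posSemidef (Ψ k x)) (by linarith) h0) i j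
    have : cPb ≤ C := by rw [hC]; linarith
    exact h1.trans this
  have hol : ∀ (A A' : ℕ → ℝ → Matrix m m ℂ) (a b c : ℝ), 0 ≤ a → 0 ≤ b →
      (Real.sqrt a + Real.sqrt b) * (1 + D) ≤ c → (∀ k x, MDeriv (A k) (A' k x) x) →
      (∀ k, Continuous (A' k)) → (∀ k x, hs (A' k x) ≤ a * hs (Ψ' k x) + b) →
      ∀ k x y i j, ‖A k x i j - A k y i j‖ ≤ c * (Real.sqrt |x - y| + |x - y|) := by
    intro A A' a b c ha hb hc hA hA' hle k x y i j
    have h1 := ftc_holder (u := fun t => A k t i j) (u' := fun t => A' k t i j)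
      (fun t => hA k t i j) ((hA' k).matrix_elem i j) (h := fun t => hs (Ψ' k t))
      (fun t => hs_nonneg _) (hΨ'i k) (A := Real.sqrt a + Real.sqrt b) (D := D) (by positivity)
      (nd k).bd (fun t => (ent _ _ (hle k t) i j).trans (sqrt_lin_le ha hb (hs_nonneg _))) x y
    refine h1.trans ?_
    exact mul_le_mul_of_nonneg_right hc (by positivity)
  refine lim_system (α := α) (r := r) (κ := κ) (C := C) hα hr hr1 hC0 hWp R S Q g hg0 hgi hglim
    (fun k x => self_conj_posSemidef _) (fun k x => lim_herm (pt k x) _) cR cS cQ bRk bSk bQk bPk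
    ?_ ?_ ?_ ?_ ?_ ?_ ?_ (fun k x => lim_lo (pt k x) _) (fun k x => lim_hi (pt k x) _) g1
  · refine hol R dR (4 * B) 0 C (by positivity) le_rfl (by rw [← hAR, hC]; linarith) DR cdR ?_
    intro k x
    rw [add_zero]
    exact dR_bound (hΨB k x)
  · refine hol S dS aS bS C n5 n6 (by rw [← hAS, hC]; linarith) DS cdS ?_
    intro k x
    exact dS_bound hκ (pt k x) (hΨB k x) hr0 hB0
  · refine hol Q dQ aQ bQ C n7 n8 (by rw [← hAQ, hC]; linarith) DQ cdQ ?_
    intro k x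
    exact dQ_bound hκ (pt k x) (hΨB k x) hr0 hB0
  · intro k x y hxy i j
    refine ftc_sub_le (u := fun t => R k t i j) (u' := fun t => dR k t i j)
      (v := fun t => 2 * S k t i j) (fun t => DR k t i j) ((cdR k).matrix_elem i j)
      (continuous_const.mul ((cS k).matrix_elem i j)) (hg0 k) (hgi k) (C := C) (fun t => ?_) hxy
    have h1 := err_R (Ψ' := Ψ' k t) (F := Fx k t) (hΨB k t) (pt k t).hermF
    have h2 := ent _ _ (h1.trans (mul_le_mul_of_nonneg_left (g2' k t)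
      (by positivity : 0 ≤ 4 * B))) i j
    rw [Real.sqrt_mul (by positivity)] at h2
    have h3 : (dR k t - (2 : ℂ) • S k t) i j = dR k t i j - 2 * S k t i j := by
      simp [Matrix.sub_apply, Matrix.smul_apply]
    rw [← h3]
    refine h2.trans (mul_le_mul_of_nonneg_right ?_ (Real.sqrt_nonneg _))
    rw [← hE1, hC]; linarith
  · intro k x y hxy i j
    have cRp : Continuous fun t => mpow (R k t) (1 + r) :=
      continuous_mpow (cR k) (fun t => (self_conj_posSemidef (Ψ k t)).1) (by linarith)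
    refine ftc_sub_le (u := fun t => S k t i j) (u' := fun t => dS k t i j)
      (v := fun t => 2 * Q k t i j - (r : ℂ) * mpow (R k t) (1 + r) i j)
      (fun t => DS k t i j) ((cdS k).matrix_elem i j)
      ((continuous_const.mul ((cQ k).matrix_elem i j)).sub
        (continuous_const.mul (cRp.matrix_elem i j))) (hg0 k) (hgi k) (C := C) (fun t => ?_) hxy
    have h1 := err_S (Ψ' := Ψ' k t) hκ (pt k t) (hΨB k t) hr0 hB0
    have h2 := ent _ _ (h1.trans (mul_le_mul_of_nonneg_left (g2 k t)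
      (by positivity : 0 ≤ 8 * κ ^ 2 * B + 2 * B ^ 2))) i j
    rw [Real.sqrt_mul (by positivity)] at h2
    have h3 : (dS k t - ((2 : ℂ) • Q k t - (r : ℂ) • mpow (R k t) (1 + r))) i j =
        dS k t i j - (2 * Q k t i j - (r : ℂ) * mpow (R k t) (1 + r) i j) := by
      simp [Matrix.sub_apply, Matrix.smul_apply]
    rw [← h3]
    refine h2.trans (mul_le_mul_of_nonneg_right ?_ (Real.sqrt_nonneg _))
    rw [← hE2, hC]; linarith
  · intro k x i j
    have h1 := err_comm hκ (pt k x) (hΨB k x) (r := r) hB0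
    have h2 := ent _ _ (h1.trans (mul_le_mul_of_nonneg_left (g3 k x)
      (by positivity : 0 ≤ B ^ 2 * (8 * κ ^ 2 + 2)))) i j
    rw [Real.sqrt_mul (by positivity)] at h2
    refine h2.trans (mul_le_mul_of_nonneg_right ?_ (Real.sqrt_nonneg _))
    rw [← hE3, hC]; linarith
  · intro k x i j
    have h1 := err_Q hκ (pt k x) (hΨB k x) hr1 hB0
    have h2 := ent _ _ (h1.trans (mul_le_mul_of_nonneg_left (g3 k x)
      (by positivity : 0 ≤ B ^ 2 * κ ^ 2 * (8 * κ ^ 2 + 2)))) i j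
    rw [Real.sqrt_mul (by positivity)] at h2
    refine h2.trans (mul_le_mul_of_nonneg_right ?_ (Real.sqrt_nonneg _))
    rw [← hE4, hC]; linarith

end Crest.Agent.R332.Lim
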