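import Crest.Agent.R332.CoerIMain
import Crest.Agent.R332.ChanMain
import Crest.Agent.R332.ChanFinal
import Crest.Agent.R332.ChanRot
import Crest.Agent.R332.ChanScalar
import Crest.Agent.R332.AsmCore
import Crest.Agent.R332.FamId
import Crest.Agent.R332.LimNear
import Crest.Agent.R332.AsmFull
import Mathlib
import Crest.Agent.R332.TrBasic
import Crest.Prelude.Def_LiebThirring
import Crest.Agent.R332.BetaInt

-- ▼ part R332/CoerIK
section

/-! # Row 332, module (F1): coercivity in the variables `K`, `s`, `Z` -/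

set_option autoImplicit false
set_option linter.unusedSectionVars false

namespace Crest.Agent.R332.CoerI

open Matrix MeasureTheory Set
open scoped ComplexOrder Interval

variable {n : Type*} [Fintype n] [DecidableEq n]

open Chan

lemma conj_dg_mul {U : Matrix n n ℂ} (hU : Uᴴ * U = 1) (a b : n → ℝ) :
    (U * dg a * Uᴴ) * (U * dg b * Uᴴ) = U * dg (fun i => a i * b i) * Uᴴ := by
  have e : (U * dg a * Uᴴ) * (U * dg b * Uᴴ) = U * (dg a * (Uᴴ * U) * dg b) * Uᴴ := by
    noncomm_ring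
  rw [e, hU, Matrix.mul_one, dg_mul_dg]

lemma conj_dg_posSemidef {a : n → ℝ} (ha : ∀ i, 0 ≤ a i) (U : Matrix n n ℂ) :
    (U * dg a * Uᴴ).PosSemidef := by
  apply Matrix.PosSemidef.mul_mul_conjTranspose_same
  apply Matrix.PosSemidef.diagonal
  intro i
  show (0 : ℂ) ≤ ((a i : ℝ) : ℂ)
  exact_mod_cast ha i

lemma conj_dg_isHermitian (a : n → ℝ) (U : Matrix n n ℂ) :
    (U * dg a * Uᴴ).IsHermitian := by
  unfold Matrix.IsHermitian
  rw [Matrix.conjTranspose_mul, Matrix.conjTranspose_mul, Matrix.conjTranspose_conjTranspose,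
    dg_conjTranspose, Matrix.mul_assoc]

lemma conj_dg_add (a b : n → ℝ) (U : Matrix n n ℂ) :
    U * dg a * Uᴴ + U * dg b * Uᴴ = U * dg (fun i => a i + b i) * Uᴴ := by
  rw [← Matrix.add_mul, ← Matrix.mul_add]
  congr 2
  simp only [dg, Matrix.diagonal_add]
  congr 1; ext i; push_cast; rfl

lemma conj_dg_sub (a b : n → ℝ) (U : Matrix n n ℂ) :
    U * dg a * Uᴴ - U * dg b * Uᴴ = U * dg (fun i => a i - b i) * Uᴴ := by
  rw [← Matrix.sub_mul, ← Matrix.mul_sub]
  congr 2
  simp only [dg, Matrix.diagonal_sub]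
  congr 1; ext i; push_cast; rfl

lemma conj_dg_const {U : Matrix n n ℂ} (hU : U * Uᴴ = 1) (c : ℝ) :
    U * dg (fun _ => c) * Uᴴ = c • (1 : Matrix n n ℂ) := by
  have : dg (fun _ : n => c) = c • (1 : Matrix n n ℂ) := by
    ext i j
    by_cases hij : i = j
    · subst hij; simp [dg]
    · simp [dg, hij]
  rw [this, Matrix.mul_smul, Matrix.mul_one, Matrix.smul_mul, hU]

/-- the gap `√(k²+s) - k ≥ s/(2√(κ²+s₁))` -/
lemma sqrt_gap {k κ s s0 s1 : ℝ} (hk : 0 ≤ k) (hκ : k ≤ κ) (h0 : 0 < s0) (hs0 : s0 ≤ s)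
    (hs1 : s ≤ s1) : s0 / (2 * Real.sqrt (κ ^ 2 + s1)) ≤ Real.sqrt (k ^ 2 + s) - k := by
  have hs : 0 < s := lt_of_lt_of_le h0 hs0
  have h1 : Real.sqrt (k ^ 2 + s) ≤ Real.sqrt (κ ^ 2 + s1) :=
    Real.sqrt_le_sqrt (by nlinarith)
  have h2 : 0 < Real.sqrt (k ^ 2 + s) := Real.sqrt_pos.mpr (by positivity)
  have h3 : Real.sqrt (k ^ 2 + s) ^ 2 = k ^ 2 + s := Real.sq_sqrt (by positivity)
  have h4 : k ≤ Real.sqrt (k ^ 2 + s) := Real.le_sqrt_of_sq_le (by linarith)
  rw [div_le_iff₀ (by linarith)]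
  nlinarith

/-- The coercivity constant. -/
noncomputable def coerC (κ ζ s0 s1 : ℝ) : ℝ :=
  192 * (Real.sqrt (κ ^ 2 + s1)) ^ 6 +
  64 * (Real.sqrt (κ ^ 2 + s1)) ^ 4 *
    (1 + (s1 + ζ) / (s0 / (2 * Real.sqrt (κ ^ 2 + s1))) ^ 2) +
  6144 * (Real.sqrt (κ ^ 2 + s1)) ^ 10 / (s0 / (2 * Real.sqrt (κ ^ 2 + s1))) ^ 6

lemma coerC_pos {κ ζ s0 s1 : ℝ} (hζ : 0 ≤ ζ) (h0 : 0 < s0) (h1 : s0 ≤ s1) :
    0 < coerC κ ζ s0 s1 := by
  have hs1 : 0 < s1 := lt_of_lt_of_le h0 h1
  have h2 : 0 < Real.sqrt (κ ^ 2 + s1) := Real.sqrt_pos.mpr (by positivity)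
  unfold coerC
  positivity

lemma bd_of_K {U F : Matrix n n ℂ} {k : n → ℝ} {κ s0 s1 s : ℝ} (hU : U * Uᴴ = 1)
    (hk : ∀ i, 0 ≤ k i) (hκ : ∀ i, k i ≤ κ) (h0 : 0 < s0) (hs0 : s0 ≤ s) (hs1 : s ≤ s1)
    (hF : F.IsHermitian) (hF1 : (U * dg k * Uᴴ - F).PosSemidef)
    (hF2 : (U * dg k * Uᴴ + F).PosSemidef) :
    Bd (U * dg (fun i => Real.sqrt (k i ^ 2 + s)) * Uᴴ) F (s0 / (2 * Real.sqrt (κ ^ 2 + s1)))
      (Real.sqrt (κ ^ 2 + s1)) := by
  have hs : 0 < s := lt_of_lt_of_le h0 hs0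
  have hs1p : 0 < s1 := lt_of_lt_of_le hs hs1
  have h2 : 0 < Real.sqrt (κ ^ 2 + s1) := Real.sqrt_pos.mpr (by positivity)
  have key : ∀ i, 0 ≤ Real.sqrt (k i ^ 2 + s) - k i - s0 / (2 * Real.sqrt (κ ^ 2 + s1)) :=
    fun i => by
      have := sqrt_gap (hk i) (hκ i) h0 hs0 hs1
      linarith
  refine ⟨by positivity, h2, conj_dg_isHermitian _ _, hF, ?_, ?_, ?_⟩
  · have e := (conj_dg_posSemidef key U).add hF1
    convert e using 1
    rw [← conj_dg_sub, ← conj_dg_sub, conj_dg_const hU]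
    abel
  · have e := (conj_dg_posSemidef key U).add hF2
    convert e using 1
    rw [← conj_dg_sub, ← conj_dg_sub, conj_dg_const hU]
    abel
  · rw [← conj_dg_const hU, conj_dg_sub]
    refine conj_dg_posSemidef (fun i => ?_) U
    have h3 : Real.sqrt (k i ^ 2 + s) ≤ Real.sqrt (κ ^ 2 + s1) :=
      Real.sqrt_le_sqrt (by nlinarith [hk i, hκ i])
    linarith

/-- **Coercivity (module F1), pointwise in `x` and `s`.** -/
theorem coer_K {U F Z : Matrix n n ℂ} {k : n → ℝ} {κ ζ s0 s1 s : ℝ} (hU : U * Uᴴ = 1)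
    (hk : ∀ i, 0 ≤ k i) (hκ : ∀ i, k i ≤ κ) (hζ : 0 ≤ ζ) (h0 : 0 < s0) (hs0 : s0 ≤ s)
    (hs1 : s ≤ s1)
    (hF : F.IsHermitian) (hF1 : (U * dg k * Uᴴ - F).PosSemidef)
    (hF2 : (U * dg k * Uᴴ + F).PosSemidef) (hZ : Z.PosSemidef)
    (hZζ : (ζ • (1 : Matrix n n ℂ) - Z).PosSemidef) :
    hs (F * ((U * dg k * Uᴴ) * (U * dg k * Uᴴ)) - (U * dg k * Uᴴ) * (U * dg k * Uᴴ) * F) +
      hs (Z - ((U * dg k * Uᴴ) * (U * dg k * Uᴴ) - F * F)) ≤
    coerC κ ζ s0 s1 * (def1 (U * dg (fun i => Real.sqrt (k i ^ 2 + s)) * Uᴴ) F +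
      def3 (U * dg (fun i => Real.sqrt (k i ^ 2 + s)) * Uᴴ) F ((s : ℂ) • 1 + Z)) := by
  have hs : 0 < s := lt_of_lt_of_le h0 hs0
  have hs1p : 0 < s1 := lt_of_lt_of_le hs hs1
  have hb := bd_of_K hU hk hκ h0 hs0 hs1 hF hF1 hF2
  have hUU : Uᴴ * U = 1 := mul_eq_one_comm.1 hU
  set K := U * dg k * Uᴴ with hK
  set M := U * dg (fun i => Real.sqrt (k i ^ 2 + s)) * Uᴴ with hM
  have hsm : ((s : ℂ) • (1 : Matrix n n ℂ)) = s • (1 : Matrix n n ℂ) := by
    ext i j; simp
  have hMM : M * M = K * K + s • (1 : Matrix n n ℂ) := by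
    rw [hM, hK, conj_dg_mul hUU, conj_dg_mul hUU, ← conj_dg_const hU, conj_dg_add]
    congr 3
    ext i
    rw [Real.mul_self_sqrt (by positivity)]
    ring
  have hX : ((s : ℂ) • (1 : Matrix n n ℂ) + Z).PosDef := by
    rw [hsm]
    exact (PosDef.one.smul hs).add_posSemidef hZ
  have hXξ : ((s1 + ζ) • (1 : Matrix n n ℂ) - ((s : ℂ) • (1 : Matrix n n ℂ) + Z)).PosSemidef := by
    rw [hsm]
    have e := (PosSemidef.one (n := n) (R := ℂ)).smul (show (0:ℝ) ≤ s1 - s by linarith)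
    convert e.add hZζ using 1
    rw [sub_smul, add_smul]
    abel
  have c1 := hb.coer_comm
  have c2 := hb.coer_main hX (by linarith : 0 ≤ s1 + ζ) hXξ
  have e1 : F * (M * M) - M * M * F = F * (K * K) - K * K * F := by
    rw [hMM, Matrix.mul_add, Matrix.add_mul, Matrix.mul_smul, Matrix.smul_mul, Matrix.mul_one,
      Matrix.one_mul]
    abel
  have e2 : (s : ℂ) • (1 : Matrix n n ℂ) + Z - (M * M - F * F) = Z - (K * K - F * F) := by
    rw [hMM, hsm]; abel
  rw [e1] at c1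
  rw [e2] at c2
  have p1 : 0 ≤ def1 M F := def1_nonneg M F
  have p3 : 0 ≤ def3 M F ((s : ℂ) • (1 : Matrix n n ℂ) + Z) := hb.def3_nonneg hX
  have hμ : 0 < Real.sqrt (κ ^ 2 + s1) := Real.sqrt_pos.mpr (by positivity)
  have q1 : 0 ≤ 192 * (Real.sqrt (κ ^ 2 + s1)) ^ 6 := by positivity
  have q2 : 0 ≤ 64 * (Real.sqrt (κ ^ 2 + s1)) ^ 4 *
    (1 + (s1 + ζ) / (s0 / (2 * Real.sqrt (κ ^ 2 + s1))) ^ 2) := by positivity
  have q3 : 0 ≤ 6144 * (Real.sqrt (κ ^ 2 + s1)) ^ 10 /
    (s0 / (2 * Real.sqrt (κ ^ 2 + s1))) ^ 6 := by positivity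
  unfold coerC
  nlinarith [mul_nonneg q1 p3, mul_nonneg q2 p1, mul_nonneg q3 p3]

end Crest.Agent.R332.CoerI
end

-- ▼ part R332/CoerIInt
section

/-! # Row 332, module (F1): integrated coercivity -/

set_option autoImplicit false
set_option linter.unusedSectionVars false

namespace Crest.Agent.R332.CoerI

open Matrix MeasureTheory Set
open scoped ComplexOrder Interval

variable {n : Type*} [Fintype n] [DecidableEq n]

open Chan

/-- `‖[F,K²]‖₂² + ‖Z - (K²-F²)‖₂²`. -/
noncomputable def defect (K F Z : Matrix n n ℂ) : ℝ :=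
  hs (F * (K * K) - K * K * F) + hs (Z - (K * K - F * F))

lemma defect_nonneg (K F Z : Matrix n n ℂ) : 0 ≤ defect K F Z :=
  add_nonneg (hs_nonneg _) (hs_nonneg _)

/-- the `s`-integrand of the channel deficit -/
noncomputable def chanDef (U : Matrix n n ℂ) (k : n → ℝ) (al : ℝ) (F Z : Matrix n n ℂ) (s : ℝ) : ℝ :=
  s ^ al * (def1 (U * dg (fun i => Real.sqrt (k i ^ 2 + s)) * Uᴴ) F +
      (1 + 1 / al) * def3 (U * dg (fun i => Real.sqrt (k i ^ 2 + s)) * Uᴴ) F ((s : ℂ) • 1 + Z))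

lemma defect_le_chanDef {U F Z : Matrix n n ℂ} {k : n → ℝ} {κ ζ s0 s1 s al : ℝ} (hal : 0 < al)
    (hU : U * Uᴴ = 1)
    (hk : ∀ i, 0 ≤ k i) (hκ : ∀ i, k i ≤ κ) (hζ : 0 ≤ ζ) (h0 : 0 < s0) (hs0 : s0 ≤ s)
    (hs1 : s ≤ s1)
    (hF : F.IsHermitian) (hF1 : (U * dg k * Uᴴ - F).PosSemidef)
    (hF2 : (U * dg k * Uᴴ + F).PosSemidef) (hZ : Z.PosSemidef)
    (hZζ : (ζ • (1 : Matrix n n ℂ) - Z).PosSemidef) :
    s0 ^ al / coerC κ ζ s0 s1 * defect (U * dg k * Uᴴ) F Z ≤ chanDef U k al F Z s := by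
  have h := coer_K hU hk hκ hζ h0 hs0 hs1 hF hF1 hF2 hZ hZζ
  have hs : 0 < s := lt_of_lt_of_le h0 hs0
  have hC : 0 < coerC κ ζ s0 s1 := coerC_pos hζ h0 (hs0.trans hs1)
  have hb := bd_of_K hU hk hκ h0 hs0 hs1 hF hF1 hF2
  have hX : ((s : ℂ) • (1 : Matrix n n ℂ) + Z).PosDef := by
    have hsm : ((s : ℂ) • (1 : Matrix n n ℂ)) = s • (1 : Matrix n n ℂ) := by
      ext i j; simp
    rw [hsm]
    exact (PosDef.one.smul hs).add_posSemidef hZ
  have p1 := def1_nonneg (U * dg (fun i => Real.sqrt (k i ^ 2 + s)) * Uᴴ) F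
  have p3 := hb.def3_nonneg hX
  have h2 : s0 ^ al ≤ s ^ al := Real.rpow_le_rpow h0.le hs0 hal.le
  have h3 : 0 < s0 ^ al := Real.rpow_pos_of_pos h0 al
  set D1 := def1 (U * dg (fun i => Real.sqrt (k i ^ 2 + s)) * Uᴴ) F
  set D3 := def3 (U * dg (fun i => Real.sqrt (k i ^ 2 + s)) * Uᴴ) F ((s : ℂ) • 1 + Z)
  have h4 : defect (U * dg k * Uᴴ) F Z ≤ coerC κ ζ s0 s1 * (D1 + D3) := h
  calc s0 ^ al / coerC κ ζ s0 s1 * defect (U * dg k * Uᴴ) F Z
      ≤ s0 ^ al / coerC κ ζ s0 s1 * (coerC κ ζ s0 s1 * (D1 + D3)) :=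
        mul_le_mul_of_nonneg_left h4 (by positivity)
    _ = s0 ^ al * (D1 + D3) := by field_simp
    _ ≤ s ^ al * (D1 + (1 + 1 / al) * D3) := by
        refine mul_le_mul h2 ?_ (by linarith) (by positivity)
        have : 0 ≤ 1 / al * D3 := by positivity
        linarith
    _ = _ := rfl

/-- **Integrated coercivity**: the channel deficit controls
`∫ (‖[F,K²]‖₂² + ‖Z - (K²-F²)‖₂²)`. -/
theorem coer_int {U : Matrix n n ℂ} {F Z : ℝ → Matrix n n ℂ} {k : n → ℝ} {κ ζ s0 s1 al L : ℝ}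
    (hal : 0 < al) (hU : U * Uᴴ = 1)
    (hk : ∀ i, 0 ≤ k i) (hκ : ∀ i, k i ≤ κ) (hζ : 0 ≤ ζ) (h0 : 0 < s0) (hs01 : s0 < s1)
    (hL : 0 ≤ L)
    (hF : ∀ x ∈ Icc (-L) L, (F x).IsHermitian)
    (hF1 : ∀ x ∈ Icc (-L) L, (U * dg k * Uᴴ - F x).PosSemidef)
    (hF2 : ∀ x ∈ Icc (-L) L, (U * dg k * Uᴴ + F x).PosSemidef)
    (hZ : ∀ x ∈ Icc (-L) L, (Z x).PosSemidef)
    (hZζ : ∀ x ∈ Icc (-L) L, (ζ • (1 : Matrix n n ℂ) - Z x).PosSemidef)
    (hi1 : IntervalIntegrable (fun x => defect (U * dg k * Uᴴ) (F x) (Z x)) volume (-L) L)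
    (hi2 : ∀ x ∈ Icc (-L) L, IntervalIntegrable (chanDef U k al (F x) (Z x)) volume s0 s1)
    (hi3 : IntervalIntegrable (fun x => ∫ s in s0..s1, chanDef U k al (F x) (Z x) s)
      volume (-L) L) :
    ∫ x in (-L)..L, defect (U * dg k * Uᴴ) (F x) (Z x) ≤
      coerC κ ζ s0 s1 / (s0 ^ al * (s1 - s0)) *
        ∫ x in (-L)..L, ∫ s in s0..s1, chanDef U k al (F x) (Z x) s := by
  have hC : 0 < coerC κ ζ s0 s1 := coerC_pos hζ h0 hs01.le
  have h3 : 0 < s0 ^ al := Real.rpow_pos_of_pos h0 al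
  have h4 : 0 < s1 - s0 := by linarith
  rw [← intervalIntegral.integral_const_mul]
  apply intervalIntegral.integral_mono_on (by linarith) hi1 (hi3.const_mul _)
  intro x hx
  have h5 : (∫ s in s0..s1, s0 ^ al / coerC κ ζ s0 s1 * defect (U * dg k * Uᴴ) (F x) (Z x)) ≤
      ∫ s in s0..s1, chanDef U k al (F x) (Z x) s := by
    apply intervalIntegral.integral_mono_on hs01.le intervalIntegrable_const (hi2 x hx)
    intro s hs
    exact defect_le_chanDef hal hU hk hκ hζ h0 hs.1 hs.2 (hF x hx) (hF1 x hx) (hF2 x hx)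
      (hZ x hx) (hZζ x hx)
  rw [intervalIntegral.integral_const, smul_eq_mul] at h5
  calc defect (U * dg k * Uᴴ) (F x) (Z x)
      = coerC κ ζ s0 s1 / (s0 ^ al * (s1 - s0)) * ((s1 - s0) *
        (s0 ^ al / coerC κ ζ s0 s1 * defect (U * dg k * Uᴴ) (F x) (Z x))) := by
        field_simp
    _ ≤ _ := mul_le_mul_of_nonneg_left h5 (by positivity)

end Crest.Agent.R332.CoerI
end

-- ▼ part R332/CoerIPath
section

/-! # Row 332, module (F1): integrated coercivity along a path -/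

set_option autoImplicit false
set_option linter.unusedSectionVars false

namespace Crest.Agent.R332.CoerI

open Matrix MeasureTheory Set
open scoped ComplexOrder Interval

variable {n : Type*} [Fintype n] [DecidableEq n]

open Chan

/-- the `s`-integrand of the channel deficit, diagonal `K` -/
noncomputable def pathDef (k : n → ℝ) (al : ℝ) (F Z : Matrix n n ℂ) (s : ℝ) : ℝ :=
  s ^ al * (def1 (Ms k s) F + (1 + 1 / al) * def3 (Ms k s) F ((s : ℂ) • 1 + Z))

lemma chanDef_one (k : n → ℝ) (al : ℝ) (F Z : Matrix n n ℂ) (s : ℝ) :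
    chanDef 1 k al F Z s = pathDef k al F Z s := by
  unfold chanDef pathDef Ms
  simp only [Matrix.one_mul, Matrix.conjTranspose_one, Matrix.mul_one]

lemma continuousOn_hs {X : Type*} [TopologicalSpace X] {A : X → Matrix n n ℂ} {P : Set X}
    (hA : ContinuousOn A P) : ContinuousOn (fun p => hs (A p)) P := by
  simp only [hs]
  have h : ∀ i j, Continuous fun B : Matrix n n ℂ => B i j := fun i j =>
    continuous_id.matrix_elem i j
  exact continuousOn_finsetSum _ fun i _ => continuousOn_finsetSum _ fun j _ =>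
      Complex.continuous_normSq.comp_continuousOn ((h i j).comp_continuousOn hA)

lemma continuousOn_defect {X : Type*} [TopologicalSpace X] {K : Matrix n n ℂ}
    {F Z : X → Matrix n n ℂ} {P : Set X} (hF : ContinuousOn F P) (hZ : ContinuousOn Z P) :
    ContinuousOn (fun p => defect K (F p) (Z p)) P := by
  unfold defect
  refine (continuousOn_hs ?_).add (continuousOn_hs ?_)
  · exact (hF.mul continuousOn_const).sub (continuousOn_const.mul hF)
  · exact hZ.sub (continuousOn_const.sub (hF.mul hF))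

lemma continuousOn_pathDef {α L s0 s1 : ℝ} {k : n → ℝ} {F Z : ℝ → Matrix n n ℂ}
    (hα : 0 < α) (h : Path α L k F Z) (h0 : 0 < s0) :
    ContinuousOn (fun p : ℝ × ℝ => pathDef k α (F p.1) (Z p.1) p.2)
      (Icc (-L) L ×ˢ Icc s0 s1) := by
  unfold pathDef
  have hF : ContinuousOn (fun p : ℝ × ℝ => F p.1) (Icc (-L) L ×ˢ Icc s0 s1) :=
    h.hFc.comp continuous_fst.continuousOn fun q hq => hq.1
  have hZ : ContinuousOn (fun p : ℝ × ℝ => Z p.1) (Icc (-L) L ×ˢ Icc s0 s1) :=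
    h.hZc.comp continuous_fst.continuousOn fun q hq => hq.1
  have hS : ContinuousOn (fun p : ℝ × ℝ => p.2) (Icc (-L) L ×ˢ Icc s0 s1) :=
    continuous_snd.continuousOn
  have hpt : ∀ p ∈ Icc (-L) L ×ˢ Icc s0 s1, Pt k (F p.1) := fun p hp => h.hpt p.1 hp.1
  have hs : ∀ p ∈ Icc (-L) L ×ˢ Icc s0 s1, 0 < p.2 := fun p hp =>
    lt_of_lt_of_le h0 hp.2.1
  refine ContinuousOn.mul ?_ ((continuousOn_def1 hF hS hpt hs).add
    (continuousOn_const.mul (continuousOn_def3 hF hS (continuousOn_sZ hZ hS) ?_ hpt hs)))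
  · exact hS.rpow_const fun p hp => Or.inl (hs p hp).ne'
  · exact fun p hp => posDef_smul_add (hs p hp) (h.hZp p.1 hp.1)

/-- **Integrated coercivity along a path (diagonal `K = dg k`).** -/
theorem coer_path {α L s0 s1 κ ζ : ℝ} {k : n → ℝ} {F Z : ℝ → Matrix n n ℂ}
    (hα : 0 < α) (h : Path α L k F Z) (h0 : 0 < s0) (h01 : s0 < s1)
    (hk : ∀ i, 0 ≤ k i) (hκ : ∀ i, k i ≤ κ) (hζ : 0 ≤ ζ)
    (hZζ : ∀ x ∈ Icc (-L) L, (ζ • (1 : Matrix n n ℂ) - Z x).PosSemidef) :
    ∫ x in (-L)..L, defect (dg k) (F x) (Z x) ≤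
      coerC κ ζ s0 s1 / (s0 ^ α * (s1 - s0)) *
        ∫ x in (-L)..L, ∫ s in s0..s1, pathDef k α (F x) (Z x) s := by
  have hL := h.hL
  have e : (1 : Matrix n n ℂ) * dg k * (1 : Matrix n n ℂ)ᴴ = dg k := by
    simp only [Matrix.one_mul, Matrix.conjTranspose_one, Matrix.mul_one]
  have hc := continuousOn_pathDef (s1 := s1) hα h h0
  have key := coer_int (U := (1 : Matrix n n ℂ)) (F := F) (Z := Z) (k := k) (κ := κ) (ζ := ζ)
    (s0 := s0) (s1 := s1) (al := α) (L := L) hα (by simp) hk hκ hζ h0 h01 hL.le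
    (fun x hx => (h.hpt x hx).herm) (fun x hx => by rw [e]; exact (h.hpt x hx).sub)
    (fun x hx => by rw [e]; exact (h.hpt x hx).add) h.hZp hZζ ?_ ?_ ?_
  · simp only [chanDef_one, e] at key
    exact key
  · rw [e]
    apply ContinuousOn.intervalIntegrable
    rw [uIcc_of_le (by linarith)]
    exact continuousOn_defect h.hFc h.hZc
  · intro x hx
    apply ContinuousOn.intervalIntegrable
    rw [uIcc_of_le h01.le]
    have h2 : (chanDef (1 : Matrix n n ℂ) k α (F x) (Z x)) = pathDef k α (F x) (Z x) := by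
      ext s; exact chanDef_one _ _ _ _ _
    rw [h2]
    exact hc.comp (f := fun s : ℝ => (x, s)) (by fun_prop) fun s hs => ⟨hx, hs⟩
  · apply ContinuousOn.intervalIntegrable
    rw [uIcc_of_le (by linarith)]
    simp only [chanDef_one]
    exact continuousOn_param h01.le hc

end Crest.Agent.R332.CoerI
end

-- ▼ part R332/CoerIFinal
section

/-! # Row 332, module (F1): the N-channel theorem with a coercive deficit -/

set_option autoImplicit false
set_option linter.unusedSectionVars false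

namespace Crest.Agent.R332.CoerI

open Matrix MeasureTheory Set
open scoped ComplexOrder Interval

variable {n : Type*} [Fintype n] [DecidableEq n]

open Chan

/-- the coefficient in front of the coercive deficit -/
noncomputable def coefD (α κ ζ : ℝ) : ℝ := (Real.sin (Real.pi * α) / Real.pi) / coerC κ ζ 1 2

lemma coefD_pos {α κ ζ : ℝ} (hα : 0 < α) (hα1 : α < 1) (hζ : 0 ≤ ζ) : 0 < coefD α κ ζ := by
  unfold coefD
  refine div_pos (div_pos (Real.sin_pos_of_pos_of_lt_pi ?_ ?_) Real.pi_pos)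
    (coerC_pos hζ (by norm_num) (by norm_num))
  · have := Real.pi_pos; positivity
  · have := Real.pi_pos; nlinarith

/-- **N-channel theorem with coercive deficit** (diagonal `K`). -/
theorem channel_defect {α L κ ζ : ℝ} {k : n → ℝ} {F Z : ℝ → Matrix n n ℂ}
    (h : Path α L k F Z) (hα : 0 < α) (hα1 : α < 1) (hk : ∀ i, 0 < k i)
    (hS1 : ScalUpper α) (hS2 : ScalEndp α)
    (hInt : IntervalIntegrable (fun x => R332.rtr (cfc (fun t : ℝ => t ^ (1 + α)) (Z x)))
      volume (-L) L)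
    (hκ : ∀ i, k i ≤ κ) (hζ : 0 ≤ ζ)
    (hZζ : ∀ x ∈ Icc (-L) L, (ζ • (1 : Matrix n n ℂ) - Z x).PosSemidef) :
    (∑ i, k i ^ (1 + 2 * α)) * (∫ t in (-1 : ℝ)..1, (1 - t ^ 2) ^ α) +
      coefD α κ ζ * (∫ x in (-L)..L, defect (dg k) (F x) (Z x)) ≤
      (1 / α) * ∫ x in (-L)..L, R332.rtr (cfc (fun t : ℝ => t ^ (1 + α)) (Z x)) := by
  have h1 := channel h hα hα1 hk hS1 hS2 hInt (t0 := 1) (t1 := 2) (by norm_num) (by norm_num)
  have h2 := coer_path (s0 := 1) (s1 := 2) hα h (by norm_num) (by norm_num) (fun i => (hk i).le)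
    hκ hζ hZζ
  have hC : 0 < coerC κ ζ 1 2 := coerC_pos hζ (by norm_num) (by norm_num)
  have hs : 0 < Real.sin (Real.pi * α) / Real.pi := by
    refine div_pos (Real.sin_pos_of_pos_of_lt_pi ?_ ?_) Real.pi_pos
    · have := Real.pi_pos; positivity
    · have := Real.pi_pos; nlinarith
  have e : (∫ x in (-L)..L, ∫ s in (1:ℝ)..2, pathDef k α (F x) (Z x) s) =
      ∫ x in (-L)..L, ∫ s in (1:ℝ)..2, s ^ α * dfc α k (F x) (Z x) s := rfl
  rw [e, Real.one_rpow, one_mul, show (2:ℝ) - 1 = 1 by norm_num, div_one] at h2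
  have h3 : coefD α κ ζ * (∫ x in (-L)..L, defect (dg k) (F x) (Z x)) ≤
      (Real.sin (Real.pi * α) / Real.pi) *
        (∫ x in (-L)..L, ∫ s in (1:ℝ)..2, s ^ α * dfc α k (F x) (Z x) s) := by
    unfold coefD
    rw [div_mul_eq_mul_div, div_le_iff₀ hC]
    calc (Real.sin (Real.pi * α) / Real.pi) * (∫ x in (-L)..L, defect (dg k) (F x) (Z x))
        ≤ (Real.sin (Real.pi * α) / Real.pi) * (coerC κ ζ 1 2 *
          ∫ x in (-L)..L, ∫ s in (1:ℝ)..2, s ^ α * dfc α k (F x) (Z x) s) :=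
          mul_le_mul_of_nonneg_left h2 hs.le
      _ = _ := by ring
  exact le_trans (by linarith) h1

lemma hs_conj {U : Matrix n n ℂ} (hU : U * Uᴴ = 1) (A : Matrix n n ℂ) :
    hs (Uᴴ * A * U) = hs A := by
  rw [hs_eq_rtr, hs_eq_rtr]
  have e : Uᴴ * A * U * (Uᴴ * A * U)ᴴ = Uᴴ * (A * (U * Uᴴ) * Aᴴ * U) := by
    rw [Matrix.conjTranspose_mul, Matrix.conjTranspose_mul, Matrix.conjTranspose_conjTranspose]
    simp only [Matrix.mul_assoc]
  rw [e, hU, Matrix.mul_one, rtr_mul_comm, Matrix.mul_assoc, hU, Matrix.mul_one]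

/-- unitary invariance of the defect -/
lemma defect_conj {U : Matrix n n ℂ} (hU : U * Uᴴ = 1) (K F Z : Matrix n n ℂ) :
    defect (Uᴴ * K * U) (Uᴴ * F * U) (Uᴴ * Z * U) = defect K F Z := by
  unfold defect
  have c : ∀ A B : Matrix n n ℂ, (Uᴴ * A * U) * (Uᴴ * B * U) = Uᴴ * (A * B) * U := by
    intro A B
    calc (Uᴴ * A * U) * (Uᴴ * B * U) = Uᴴ * (A * (U * Uᴴ) * B) * U := by
          simp only [Matrix.mul_assoc]
      _ = _ := by rw [hU, Matrix.mul_one]
  simp only [c, ← Matrix.mul_sub, ← Matrix.sub_mul, hs_conj hU]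

end Crest.Agent.R332.CoerI
end

-- ▼ part R332/CoerIRot
section

/-! # Row 332, module (F1): the N-channel theorem with a coercive deficit, general `K` -/

set_option autoImplicit false
set_option linter.unusedSectionVars false

namespace Crest.Agent.R332.CoerI

open Matrix MeasureTheory Set
open scoped ComplexOrder Interval
open Crest.MathPhysics.LiebThirring

variable {ι : Type*} [Fintype ι] [DecidableEq ι]

lemma scalUpper {α : ℝ} (hα : 0 < α) (hα1 : α < 1) : Chan.ScalUpper α :=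
  fun _ _ _ hy hs0 h => scal_upper hα hα1 hy hs0 h

lemma scalEndp {α : ℝ} (hα : 0 < α) (hα1 : α < 1) : Chan.ScalEndp α :=
  fun _ hk => scal_endp hα hα1 hk

lemma dg_entry_nonneg {k : ι → ℝ} (h : (Chan.dg k).PosSemidef) (i : ι) : 0 ≤ k i := by
  have := h.diag_nonneg (i := i)
  rw [Chan.dg, Matrix.diagonal_apply_eq] at this
  exact_mod_cast this

/-- **N-channel theorem with coercive deficit** for general positive definite `K`. -/
theorem gpath_channel_defect {α L κ ζ : ℝ} {K : Matrix ι ι ℂ} {P F : ℝ → Matrix ι ι ℂ}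
    (h : GPath α L K P F) (hα : 0 < α) (hα1 : α < 1) (hK : K.PosDef)
    (hκ : (κ • (1 : Matrix ι ι ℂ) - K).PosSemidef) (hζ : 0 ≤ ζ)
    (hPζ : ∀ x ∈ Icc (-L) L, (ζ • (1 : Matrix ι ι ℂ) - mpow (P x) (1 / α)).PosSemidef) :
    betaC α * trp K (1 + 2 * α) +
      coefD α κ ζ * (∫ x in (-L)..L, defect K (F x) (mpow (P x) (1 / α))) ≤
      (1 / α) * ∫ x in (-L)..L, trp (P x) (1 + 1 / α) := by
  obtain ⟨U, k, h1, h2, h3, h4⟩ := exists_diag hK.isHermitian
  have hp := h.toPath hα h1 h2 h3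
  have hL := h.hL
  have hUd : IsUnit U := ⟨⟨U, Uᴴ, h2, h1⟩, rfl⟩
  have hk : ∀ i, 0 < k i := by
    intro i
    have h5 : (cj U K).PosDef := by
      unfold cj
      have := (Matrix.IsUnit.posDef_star_left_conjugate_iff hUd (x := K)).2 hK
      rwa [Matrix.star_eq_conjTranspose] at this
    rw [h3] at h5
    exact Chan.posDef_dg_iff.1 h5 i
  have hkκ : ∀ i, k i ≤ κ := by
    intro i
    have h5 := cj_posSemidef (U := U) hκ
    rw [cj_sub, cj_rsmul, cj_one h1, h3] at h5
    have h6 : (κ • (1 : Matrix ι ι ℂ) - Chan.dg k) = Chan.dg (fun i => κ - k i) := by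
      ext a b
      by_cases hab : a = b
      · subst hab; simp [Chan.dg]
      · simp [Chan.dg, hab]
    rw [h6] at h5
    have := dg_entry_nonneg h5 i
    linarith
  have hZζ : ∀ x ∈ Icc (-L) L,
      (ζ • (1 : Matrix ι ι ℂ) - cj U (mpow (P x) (1 / α))).PosSemidef := by
    intro x hx
    have h5 := cj_posSemidef (U := U) (hPζ x hx)
    rwa [cj_sub, cj_rsmul, cj_one h1] at h5
  have htr : ∀ x ∈ Icc (-L) L, rtr (cfc (fun t : ℝ => t ^ (1 + α)) (cj U (mpow (P x) (1 / α)))) =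
      trp (P x) (1 + 1 / α) := by
    intro x hx
    have e1 : rtr (cfc (fun t : ℝ => t ^ (1 + α)) (cj U (mpow (P x) (1 / α)))) =
        trp (cj U (mpow (P x) (1 / α))) (1 + α) := rfl
    rw [e1, trp_cj h1 h2 (mpow_isHermitian _ _), trp, mpow_mpow (h.hPp x hx), trp]
    congr 2
    field_simp
    ring
  have hcont : ContinuousOn (fun x => trp (P x) (1 + 1 / α)) (Icc (-L) L) := by
    have := continuousOn_mpow h.hPc (fun x hx => (h.hPp x hx).1) (q := 1 + 1 / α) (by positivity)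
    exact Chan.continuous_rtr.comp_continuousOn this
  have hInt : IntervalIntegrable (fun x => R332.rtr (cfc (fun t : ℝ => t ^ (1 + α))
      (cj U (mpow (P x) (1 / α))))) volume (-L) L := by
    apply ContinuousOn.intervalIntegrable
    rw [uIcc_of_le (by linarith)]
    exact hcont.congr fun x hx => htr x hx
  have key := channel_defect hp hα hα1 hk (scalUpper hα hα1) (scalEndp hα hα1) hInt hkκ hζ hZζ
  have e2 : (∫ x in (-L)..L, R332.rtr (cfc (fun t : ℝ => t ^ (1 + α))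
      (cj U (mpow (P x) (1 / α))))) = ∫ x in (-L)..L, trp (P x) (1 + 1 / α) := by
    apply intervalIntegral.integral_congr
    intro x hx
    rw [uIcc_of_le (by linarith)] at hx
    exact htr x hx
  have e3 : (∫ x in (-L)..L, defect (Chan.dg k) (cj U (F x)) (cj U (mpow (P x) (1 / α)))) =
      ∫ x in (-L)..L, defect K (F x) (mpow (P x) (1 / α)) := by
    apply intervalIntegral.integral_congr
    intro x _
    show defect (Chan.dg k) (cj U (F x)) (cj U (mpow (P x) (1 / α))) = _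
    rw [← h3]
    exact defect_conj h2 _ _ _
  rw [e2, e3] at key
  have e4 : (∑ i, k i ^ (1 + 2 * α)) = trp K (1 + 2 * α) :=
    (trp_eq_sum_cj hK.isHermitian h1 h2 h3 _).symm
  rw [e4] at key
  rw [betaC]
  linarith

/-- **N-channel theorem** for general positive definite `K` (deficit dropped). -/
theorem gpath_channel {α L : ℝ} {K : Matrix ι ι ℂ} {P F : ℝ → Matrix ι ι ℂ}
    (h : GPath α L K P F) (hα : 0 < α) (hα1 : α < 1) (hK : K.PosDef) :
    betaC α * trp K (1 + 2 * α) ≤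
      (1 / α) * ∫ x in (-L)..L, trp (P x) (1 + 1 / α) := by
  obtain ⟨U, k, h1, h2, h3, h4⟩ := exists_diag hK.isHermitian
  have hp := h.toPath hα h1 h2 h3
  have hL := h.hL
  have hUd : IsUnit U := ⟨⟨U, Uᴴ, h2, h1⟩, rfl⟩
  have hk : ∀ i, 0 < k i := by
    intro i
    have h5 : (cj U K).PosDef := by
      unfold cj
      have := (Matrix.IsUnit.posDef_star_left_conjugate_iff hUd (x := K)).2 hK
      rwa [Matrix.star_eq_conjTranspose] at this
    rw [h3] at h5
    exact Chan.posDef_dg_iff.1 h5 i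
  have htr : ∀ x ∈ Icc (-L) L, rtr (cfc (fun t : ℝ => t ^ (1 + α)) (cj U (mpow (P x) (1 / α)))) =
      trp (P x) (1 + 1 / α) := by
    intro x hx
    have e1 : rtr (cfc (fun t : ℝ => t ^ (1 + α)) (cj U (mpow (P x) (1 / α)))) =
        trp (cj U (mpow (P x) (1 / α))) (1 + α) := rfl
    rw [e1, trp_cj h1 h2 (mpow_isHermitian _ _), trp, mpow_mpow (h.hPp x hx), trp]
    congr 2
    field_simp
    ring
  have hcont : ContinuousOn (fun x => trp (P x) (1 + 1 / α)) (Icc (-L) L) := by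
    have := continuousOn_mpow h.hPc (fun x hx => (h.hPp x hx).1) (q := 1 + 1 / α) (by positivity)
    exact Chan.continuous_rtr.comp_continuousOn this
  have hInt : IntervalIntegrable (fun x => R332.rtr (cfc (fun t : ℝ => t ^ (1 + α))
      (cj U (mpow (P x) (1 / α))))) volume (-L) L := by
    apply ContinuousOn.intervalIntegrable
    rw [uIcc_of_le (by linarith)]
    exact hcont.congr fun x hx => htr x hx
  have key := Chan.channel hp hα hα1 hk (scalUpper hα hα1) (scalEndp hα hα1) hInt (t0 := 1) (t1 := 1)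
    (by norm_num) le_rfl
  have e2 : (∫ x in (-L)..L, R332.rtr (cfc (fun t : ℝ => t ^ (1 + α))
      (cj U (mpow (P x) (1 / α))))) = ∫ x in (-L)..L, trp (P x) (1 + 1 / α) := by
    apply intervalIntegral.integral_congr
    intro x hx
    rw [uIcc_of_le (by linarith)] at hx
    exact htr x hx
  simp only [intervalIntegral.integral_same, intervalIntegral.integral_zero] at key
  have key' : (∑ i, k i ^ (1 + 2 * α)) * (∫ t in (-1 : ℝ)..1, (1 - t ^ 2) ^ α) ≤
      (1 / α) * ∫ x in (-L)..L, R332.rtr (cfc (fun t : ℝ => t ^ (1 + α))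
      (cj U (mpow (P x) (1 / α)))) := by
    have k2 := key
    rw [mul_zero, add_zero] at k2
    exact k2
  rw [e2] at key'
  have e4 : (∑ i, k i ^ (1 + 2 * α)) = trp K (1 + 2 * α) :=
    (trp_eq_sum_cj hK.isHermitian h1 h2 h3 _).symm
  rw [e4] at key'
  rw [betaC]
  linarith

/-- `GPath` from the assembly data. -/
lemma gpath_of_fullData {m : ℕ} {W : ℝ → Matrix (Fin m) (Fin m) ℂ} {ι : Type} [Fintype ι]
    [DecidableEq ι] {S : Red m W ι} {α : ℝ} {C K : Matrix ι ι ℂ} {F : ℝ → Matrix ι ι ℂ}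
    (h : FullData S α C K F) : GPath α S.L K (S.P C) F where
  hL := S.L_pos
  hPc := (S.P_cont C).continuousOn
  hPp := fun x _ => S.P_pos C x
  herm := h.path.herm
  sub := h.sub
  add := h.add
  deriv := h.path.deriv
  h0 := h.h0
  h1 := h.h1

/-- `hchan` of `final_of`. -/
theorem fullData_channel {m : ℕ} {W : ℝ → Matrix (Fin m) (Fin m) ℂ} {ι : Type} [Fintype ι]
    [DecidableEq ι] {S : Red m W ι} {α : ℝ} {C K : Matrix ι ι ℂ} {F : ℝ → Matrix ι ι ℂ}
    (h : FullData S α C K F) (hα : 0 < α) (hα1 : α < 1) :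
    betaC α * trp K (1 + 2 * α) ≤ (1 / α) * ∫ x in (-S.L)..S.L, trp (S.P C x) (1 + 1 / α) :=
  gpath_channel (gpath_of_fullData h) hα hα1 h.hK

/-- channel inequality with coercive deficit for the assembly data -/
theorem fullData_channel_defect {m : ℕ} {W : ℝ → Matrix (Fin m) (Fin m) ℂ} {ι : Type} [Fintype ι]
    [DecidableEq ι] {S : Red m W ι} {α κ ζ : ℝ} {C K : Matrix ι ι ℂ} {F : ℝ → Matrix ι ι ℂ}
    (h : FullData S α C K F) (hα : 0 < α) (hα1 : α < 1)
    (hκ : (κ • (1 : Matrix ι ι ℂ) - K).PosSemidef) (hζ : 0 ≤ ζ)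
    (hPζ : ∀ x ∈ Icc (-S.L) S.L,
      (ζ • (1 : Matrix ι ι ℂ) - mpow (S.P C x) (1 / α)).PosSemidef) :
    betaC α * trp K (1 + 2 * α) +
      coefD α κ ζ * (∫ x in (-S.L)..S.L, defect K (F x) (mpow (S.P C x) (1 / α))) ≤
      (1 / α) * ∫ x in (-S.L)..S.L, trp (S.P C x) (1 + 1 / α) :=
  gpath_channel_defect (gpath_of_fullData h) hα hα1 h.hK hκ hζ hPζ

end Crest.Agent.R332.CoerI
end

-- ▼ part R332/Bnd
section

/-! # Row 332: a priori bounds for near optimal families

`∫ tr R^{1+r}`, `∫ |Ψ'|²` and `K ≤ κ` from the Young defect. -/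

set_option autoImplicit false
set_option linter.unusedSectionVars false

namespace Crest.Agent.R332

open Matrix Unitary MeasureTheory Set
open scoped ComplexOrder Topology ContDiff
open Crest.MathPhysics.LiebThirring

section alg

variable {n : Type*} [Fintype n] [DecidableEq n]

/-- Matrix Young inequality at `2 W`. -/
lemma matrix_young2 {α : ℝ} (hα : 0 < α) {W R : Matrix n n ℂ} (hW : W.PosSemidef)
    (hR : R.PosSemidef) :
    0 ≤ (α / (1 + α)) ^ α / (1 + α) * 2 ^ (1 + α) * trp W (1 + α) - 2 * rtr (W * R)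
      + trp R (1 + 1 / α) := by
  set c : ℝ := (α / (1 + α)) ^ α / (1 + α)
  have h := klein (κ := Fin 3) Finset.univ hW.1 hR.1
    ![fun w => (c * 2 ^ (1 + α)) * w ^ (1 + α), fun w => -2 * w, fun _ => 1]
    ![fun _ => 1, fun x => x, fun x => x ^ (1 + 1 / α)] (by
      intro i j
      rw [Fin.sum_univ_three]
      simp only [Matrix.cons_val_zero, Matrix.cons_val_one, Matrix.cons_val]
      have hw := hW.eigenvalues_nonneg i
      have := scalar_young hα (w := 2 * hW.1.eigenvalues i) (by positivity)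
        (hR.eigenvalues_nonneg j)
      rw [Real.mul_rpow (by norm_num) hw] at this
      simp only [mul_one, one_mul, neg_mul]
      linarith)
  rw [Fin.sum_univ_three] at h
  simp only [Matrix.cons_val_zero, Matrix.cons_val_one, Matrix.cons_val] at h
  rw [cfc_one' hW.1, cfc_one' hR.1, Matrix.mul_one, Matrix.one_mul] at h
  have e1 : cfc (fun w : ℝ => (c * 2 ^ (1 + α)) * w ^ (1 + α)) W
      = (c * 2 ^ (1 + α)) • mpow W (1 + α) := by
    rw [mpow, ← cfc_const_mul (c * 2 ^ (1 + α)) (fun w : ℝ => w ^ (1 + α)) W (contOn_spec _)]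
  have e2 : cfc (fun w : ℝ => -2 * w) W = (-2 : ℝ) • W := by
    rw [cfc_const_mul (-2 : ℝ) (fun w : ℝ => w) W (contOn_spec _), cfc_self hW.1]
  have e3 : cfc (fun x : ℝ => x) R = R := cfc_self hR.1
  rw [e1, e2, e3, rtr_smul, Matrix.smul_mul, rtr_smul] at h
  simp only [trp, mpow] at h ⊢
  linarith

/-- `f(λ_i) ≤ c` for all eigenvalues gives `f(A) ≤ c`. -/
lemma cfc_le_of_eig {A : Matrix n n ℂ} (hA : A.IsHermitian) {f : ℝ → ℝ} {c : ℝ}
    (h : ∀ i, f (hA.eigenvalues i) ≤ c) : ((c : ℂ) • (1 : Matrix n n ℂ) - cfc f A).PosSemidef := by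
  have e : (c : ℂ) • (1 : Matrix n n ℂ) - cfc f A = cfc (fun t => c - f t) A := by
    rw [cfc_sub (fun _ : ℝ => c) f A (contOn_spec _) (contOn_spec _)]
    congr 1
    have h1 : cfc (fun _ : ℝ => c) A = c • (1 : Matrix n n ℂ) := by
      have h2 : cfc (fun _ : ℝ => c) A = algebraMap ℝ (Matrix n n ℂ) c := cfc_const c A hA
      rw [h2, Algebra.algebraMap_eq_smul_one]
    rw [h1]
    ext i j
    simp
  rw [e]
  exact cfc_posSemidef hA fun i => by have := h i; linarith

/-- eigenvalue bound from the trace of a power -/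
lemma eig_le_of_trp_le {K : Matrix n n ℂ} (hK : K.PosSemidef) {q X : ℝ} (hq : 0 < q)
    (hX : trp K q ≤ X) (i : n) : hK.1.eigenvalues i ≤ X ^ (1 / q) := by
  have h1 : trp K q = ∑ i, (hK.1.eigenvalues i) ^ q := by
    rw [trp, mpow, rtr_cfc hK.1]
  have h0 : ∀ j, 0 ≤ (hK.1.eigenvalues j) ^ q := fun j =>
    Real.rpow_nonneg (hK.eigenvalues_nonneg j) q
  have h2 : (hK.1.eigenvalues i) ^ q ≤ X := by
    refine le_trans ?_ hX
    rw [h1]
    exact Finset.single_le_sum (f := fun j => (hK.1.eigenvalues j) ^ q) (fun j _ => h0 j)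
      (Finset.mem_univ i)
  have h3 := Real.rpow_le_rpow (h0 i) h2 (by positivity : 0 ≤ 1 / q)
  rwa [← Real.rpow_mul (hK.eigenvalues_nonneg i), mul_one_div_cancel hq.ne', Real.rpow_one] at h3

/-- **bound for `K`** -/
theorem le_kap_of_trp_le {K : Matrix n n ℂ} (hK : K.PosSemidef) {q X : ℝ} (hq : 0 < q)
    (hX : trp K q ≤ X) : (((X ^ (1 / q) : ℝ) : ℂ) • (1 : Matrix n n ℂ) - K).PosSemidef := by
  have h := cfc_le_of_eig hK.1 (f := fun t : ℝ => t) (c := X ^ (1 / q))
    (fun i => eig_le_of_trp_le hK hq hX i)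
  rwa [cfc_self hK.1] at h

/-- eigenvalue bound from the trace -/
lemma eig_le_rtr {P : Matrix n n ℂ} (hP : P.PosSemidef) (i : n) :
    hP.1.eigenvalues i ≤ rtr P := by
  have h1 : rtr P = ∑ i, hP.1.eigenvalues i := by
    have := rtr_cfc hP.1 (fun t : ℝ => t)
    rwa [cfc_self hP.1] at this
  rw [h1]
  exact Finset.single_le_sum (f := fun j => hP.1.eigenvalues j)
    (fun j _ => hP.eigenvalues_nonneg j) (Finset.mem_univ i)

/-- **bound for `P^r`** -/
theorem mpow_le_of_rtr_le {P : Matrix n n ℂ} (hP : P.PosSemidef) {r B : ℝ} (hr : 0 ≤ r)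
    (hB : rtr P ≤ B) : (((B ^ r : ℝ) : ℂ) • (1 : Matrix n n ℂ) - mpow P r).PosSemidef :=
  cfc_le_of_eig hP.1 fun i => Real.rpow_le_rpow (hP.eigenvalues_nonneg i)
    ((eig_le_rtr hP i).trans hB) hr

end alg

variable {m : ℕ} {W : ℝ → Matrix (Fin m) (Fin m) ℂ} {ι : Type} [Fintype ι] [DecidableEq ι]

namespace Red

variable (S : Red m W ι)

/-- pointwise bound of `tr R^{1+r}` by the Young defect -/
lemma trp_R_le_yd {α : ℝ} (hα : 0 < α) (hWp : ∀ x, (W x).PosSemidef) (C : Matrix ι ι ℂ) (x : ℝ) :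
    trp (S.R C x) (1 + 1 / α) ≤ 2 * S.yd α C x +
      2 * ((α / (1 + α)) ^ α / (1 + α)) * (2 ^ α - 1) * trp (W x) (1 + α) := by
  have h := matrix_young2 hα (hWp x) (S.R_pos C x)
  rw [Real.rpow_add (by norm_num : (0:ℝ) < 2), Real.rpow_one] at h
  unfold yd
  set c : ℝ := (α / (1 + α)) ^ α / (1 + α)
  nlinarith [h]

lemma integrable_yd {α : ℝ} (hα : 0 < α) {C : Matrix ι ι ℂ} (hC : C.IsHermitian)
    (hWi : Integrable fun x => trp (W x) (1 + α)) : Integrable fun x => S.yd α C x := by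
  unfold yd
  exact ((hWi.const_mul _).sub (S.integrable_kin hC)).add
    (S.integrable_trp_R C (by positivity))

/-- **(bR)** -/
theorem integral_trp_R_le {α : ℝ} (hα : 0 < α) (hWp : ∀ x, (W x).PosSemidef)
    {C : Matrix ι ι ℂ} (hC : C.IsHermitian)
    (hWi : Integrable fun x => trp (W x) (1 + α)) :
    ∫ x, trp (S.R C x) (1 + 1 / α) ≤ 2 * (∫ x, S.yd α C x) +
      2 * ((α / (1 + α)) ^ α / (1 + α)) * (2 ^ α - 1) * ∫ x, trp (W x) (1 + α) := by
  have h1 := S.integrable_yd hα hC hWi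
  rw [← integral_const_mul, ← integral_const_mul, ← integral_add (h1.const_mul _)
    (hWi.const_mul _)]
  exact integral_mono (S.integrable_trp_R C (by positivity))
    ((h1.const_mul _).add (hWi.const_mul _)) fun x => S.trp_R_le_yd hα hWp C x

lemma rtr_CCE_nonneg {C : Matrix ι ι ℂ} (hC : C.IsHermitian) : 0 ≤ rtr (C * C * S.E) := by
  have hE : S.E.PosSemidef := by
    unfold E
    refine Matrix.PosSemidef.diagonal fun i => ?_
    have := (S.e_pos i).le
    simpa using this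
  have h1 : (C * S.E * Cᴴ).PosSemidef := hE.mul_mul_conjTranspose_same C
  have h2 : rtr (C * C * S.E) = rtr (C * S.E * Cᴴ) := by
    rw [hC.eq, Matrix.mul_assoc, rtr_mul_comm, Matrix.mul_assoc]
  rw [h2, rtr_eq_sum h1.1]
  exact Finset.sum_nonneg fun i _ => h1.eigenvalues_nonneg i

/-- **(bd)** -/
theorem integral_DΨ_le {α : ℝ} (hα : 0 < α) (hWp : ∀ x, (W x).PosSemidef)
    {C : Matrix ι ι ℂ} (hC : C.IsHermitian)
    (hWi : Integrable fun x => trp (W x) (1 + α)) :
    ∫ x, rtr ((S.DΨ C x)ᴴ * S.DΨ C x) ≤ (α / (1 + α)) ^ α / (1 + α) * (∫ x, trp (W x) (1 + α))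
      + ∫ x, trp (S.R C x) (1 + 1 / α) := by
  have h1 := S.integral_kin hC
  rw [integral_sub (S.integrable_kin2 C) (S.integrable_kin hC)] at h1
  have h2 := S.rtr_CCE_nonneg hC
  have h3 : 0 ≤ ∫ x, S.yd α C x := integral_nonneg fun x => S.yd_nonneg hα hWp C x
  have h4 : ∫ x, S.yd α C x = (α / (1 + α)) ^ α / (1 + α) * (∫ x, trp (W x) (1 + α)) -
      (∫ x, rtr (W x * S.R C x)) + ∫ x, trp (S.R C x) (1 + 1 / α) := by
    simp only [yd]
    have i1 : Integrable (fun x => (α / (1 + α)) ^ α / (1 + α) * trp (W x) (1 + α)) :=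
      hWi.const_mul _
    have i2 : Integrable (fun x => (α / (1 + α)) ^ α / (1 + α) * trp (W x) (1 + α) -
        rtr (W x * S.R C x)) := i1.sub (S.integrable_kin hC)
    rw [integral_add i2 (S.integrable_trp_R C (by positivity)),
      integral_sub i1 (S.integrable_kin hC), integral_const_mul]
  linarith

/-- the total mass of `tr P^{1+r}` on the interval is that of `tr R^{1+r}` -/
lemma integral_trp_P_eq {q : ℝ} (hq : 0 < q) (C : Matrix ι ι ℂ) :
    ∫ x in (-S.L)..S.L, trp (S.P C x) q = ∫ x, trp (S.R C x) q := by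
  simp only [S.trp_R_eq C hq]
  exact (integral_eq_interval S.L_pos fun x hx => by
    rw [S.P_supp C hx, trp_supp hq]).symm

/-- **(kap)**: `K ≤ κ` from the N-channel inequality. -/
theorem le_kap {α β D : ℝ} (hα : 0 < α) (hβ : 0 < β) {C K : Matrix ι ι ℂ} (hK : K.PosSemidef)
    (hN : β * trp K (1 + 2 * α) ≤ (1 / α) * ∫ x in (-S.L)..S.L, trp (S.P C x) (1 + 1 / α))
    (hD : ∫ x, trp (S.R C x) (1 + 1 / α) ≤ D) :
    ((((D / (α * β)) ^ (1 / (1 + 2 * α)) : ℝ) : ℂ) • (1 : Matrix ι ι ℂ) - K).PosSemidef := by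
  refine le_kap_of_trp_le hK (by positivity) ?_
  rw [S.integral_trp_P_eq (by positivity) C] at hN
  have h1 : β * trp K (1 + 2 * α) ≤ (1 / α) * D :=
    hN.trans (mul_le_mul_of_nonneg_left hD (by positivity))
  rw [le_div_iff₀ (by positivity)]
  have h2 : α * (β * trp K (1 + 2 * α)) ≤ D := by
    have h3 := mul_le_mul_of_nonneg_left h1 hα.le
    rwa [← mul_assoc α (1 / α) D, mul_one_div_cancel hα.ne', one_mul] at h3
  linarith

end Red

end Crest.Agent.R332
end

-- ▼ part R332/GlueNear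
section

/-! # Row 332: near-extremal trial families give `NearData` -/

set_option autoImplicit false
set_option linter.unusedSectionVars false

namespace Crest.Agent.R332.Glue

open Matrix Unitary MeasureTheory Set
open scoped ComplexOrder Topology ContDiff
open Crest.MathPhysics.LiebThirring
open Crest.Agent.R332

lemma hs_lim_eq {a b : Type*} [Fintype a] [Fintype b] [DecidableEq a] [DecidableEq b]
    (A : Matrix a b ℂ) : Lim.hs A = rtr (Aᴴ * A) := Lim.hs_eq_rtr A

lemma hs_coer_eq {a b : Type*} [Fintype a] [Fintype b] [DecidableEq a] [DecidableEq b]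
    (A : Matrix a b ℂ) : CoerI.hs A = Lim.hs A := by
  unfold CoerI.hs Lim.hs
  refine Finset.sum_congr rfl fun i _ => Finset.sum_congr rfl fun j _ => ?_
  rw [Complex.normSq_eq_norm_sq]

lemma real_smul_one_eq {a : Type*} [Fintype a] [DecidableEq a] (k : ℝ) :
    ((k : ℂ) • (1 : Matrix a a ℂ)) = k • (1 : Matrix a a ℂ) := by
  ext i j
  simp [Matrix.smul_apply]

variable {m : ℕ} {W : ℝ → Matrix (Fin m) (Fin m) ℂ} {ι : Type} [Fintype ι] [DecidableEq ι]

/-- The constant `D`. -/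
noncomputable def DD (α w : ℝ) : ℝ :=
  cC α * w + (2 * betaC α + 2 * cC α * (2 ^ α - 1) * w)

/-- The constant `κ`. -/
noncomputable def KK (α w : ℝ) : ℝ := (DD α w / (α * betaC α)) ^ (1 / (1 + 2 * α))

/-- The constant `ζ`. -/
noncomputable def ZZ (m : ℕ) (α w : ℝ) : ℝ :=
  (Lim.supB ((Fintype.card (Fin m) : ℕ) : ℝ) (1 / α) (DD α w)) ^ (1 / α)

lemma two_rpow_sub_one_nonneg {α : ℝ} (hα : 0 < α) : 0 ≤ (2 : ℝ) ^ α - 1 := by
  have := Real.one_le_rpow (show (1 : ℝ) ≤ 2 by norm_num) hα.le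
  linarith

lemma DD_pos {α w : ℝ} (hα : 0 < α) (hw : 0 ≤ w) : 0 < DD α w := by
  have h1 := betaC_pos hα
  have h2 := cC_pos hα
  have h3 := two_rpow_sub_one_nonneg hα
  unfold DD
  positivity

lemma KK_pos {α w : ℝ} (hα : 0 < α) (hw : 0 ≤ w) : 0 < KK α w := by
  have h1 := betaC_pos hα
  have h2 := DD_pos hα hw
  unfold KK
  positivity

theorem nearData_of_fullData {S : Red m W ι} {α : ℝ} {C K : Matrix ι ι ℂ}
    {F : ℝ → Matrix ι ι ℂ} (h : FullData S α C K F) (hα : 0 < α) (hα1 : α < 1)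
    (hWp : ∀ x, (W x).PosSemidef) (hWi : Integrable fun x => trp (W x) (1 + α))
    {δ ε w : ℝ} (hw : w = ∫ x, trp (W x) (1 + α))
    (hδ1 : δ ≤ betaC α) (hδ2 : δ ≤ ε)
    (hδ3 : δ ≤ CoerI.coefD α (KK α w) (ZZ m α w) * ε)
    (hext : cC α * w - betaC α * ∑ i, S.e i ^ (α + 1 / 2) ≤ δ) :
    Lim.NearData α (KK α w) (DD α w) ε W S.L (S.Ψ C) (S.DΨ C) K F := by
  have hβ := betaC_pos hα
  have hc := cC_pos hα
  have hcdef : (α / (1 + α)) ^ α / (1 + α) = cC α := rfl
  have hw0 : 0 ≤ w := by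
    rw [hw]
    exact integral_nonneg fun x => Lim.rtr_nonneg_of_posSemidef (mpow_posSemidef (hWp x) _)
  have h2α := two_rpow_sub_one_nonneg hα
  have hD := DD_pos hα hw0
  have hK0 := KK_pos hα hw0
  have hy0 : 0 ≤ ∫ x, S.yd α C x := integral_nonneg fun x => S.yd_nonneg hα hWp C x
  have hk0 : 0 ≤ ∫ x in (-S.L)..S.L, S.kd C F x :=
    intervalIntegral.integral_nonneg (by linarith [S.L_pos]) fun x _ => S.kd_nonneg C F x
  -- first pass: deficits `≤ δ ≤ β`
  have hchan := CoerI.fullData_channel h hα hα1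
  have hm0 := h.master hα hWi (T := 0) (by simpa using hchan)
  rw [← hw] at hm0
  have hy1 : ∫ x, S.yd α C x ≤ betaC α := by linarith
  have hbR0 := S.integral_trp_R_le hα hWp h.hC hWi
  rw [← hw, hcdef] at hbR0
  have hbR : ∫ x, trp (S.R C x) (1 + 1 / α) ≤ 2 * betaC α + 2 * cC α * (2 ^ α - 1) * w := by
    linarith
  have hbRD : ∫ x, trp (S.R C x) (1 + 1 / α) ≤ DD α w := by
    unfold DD
    have : 0 ≤ cC α * w := by positivity
    linarith
  have hbd0 := S.integral_DΨ_le hα hWp h.hC hWi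
  rw [← hw, hcdef] at hbd0
  have hbd : ∫ x, Lim.hs (S.DΨ C x) ≤ DD α w := by
    simp only [hs_lim_eq]
    unfold DD
    linarith
  have hkap := S.le_kap hα hβ h.hK.posSemidef hchan hbRD
  have hsupp : ∀ x, x ∉ Icc (-S.L) S.L → S.Ψ C x = 0 := by
    intro x hx
    refine S.Ψ_supp C ?_
    rw [Set.mem_Icc, not_and_or, not_le, not_le] at hx
    rcases hx with h | h
    · exact (by linarith [neg_le_abs x] : S.L ≤ |x|)
    · exact h.le.trans (le_abs_self x)
  have hsup : ∀ x, Lim.hs (S.Ψ C x) ≤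
      Lim.supB ((Fintype.card (Fin m) : ℕ) : ℝ) (1 / α) (DD α w) := fun x =>
    Lim.sup_hs_le (S.Ψ_hasDeriv C) (S.DΨ_cont C) hsupp (by positivity) hbd hbRD x
  have hsup0 : 0 ≤ Lim.supB ((Fintype.card (Fin m) : ℕ) : ℝ) (1 / α) (DD α w) :=
    (Lim.hs_nonneg (S.Ψ C 0)).trans (hsup 0)
  have hζ0 : 0 ≤ ZZ m α w := Real.rpow_nonneg hsup0 _
  have hPζ : ∀ x ∈ Icc (-S.L) S.L,
      (ZZ m α w • (1 : Matrix ι ι ℂ) - mpow (S.P C x) (1 / α)).PosSemidef := by
    intro x _
    rw [← real_smul_one_eq]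
    refine mpow_le_of_rtr_le (S.P_pos C x) (by positivity) ?_
    have := hsup x
    rw [hs_lim_eq] at this
    exact this
  have hκ : (KK α w • (1 : Matrix ι ι ℂ) - K).PosSemidef := by
    rw [← real_smul_one_eq]
    exact hkap
  -- second pass: all deficits
  have hchan2 := CoerI.fullData_channel_defect h hα hα1 hκ hζ0 hPζ
  have hm := h.master hα hWi hchan2
  rw [← hw] at hm
  have hcoef := CoerI.coefD_pos (κ := KK α w) (ζ := ZZ m α w) hα hα1 hζ0
  have hd0 : 0 ≤ ∫ x in (-S.L)..S.L, CoerI.defect K (F x) (mpow (S.P C x) (1 / α)) :=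
    intervalIntegral.integral_nonneg (by linarith [S.L_pos]) fun x _ =>
      CoerI.defect_nonneg _ _ _
  have hcd0 : 0 ≤ CoerI.coefD α (KK α w) (ZZ m α w) *
      ∫ x in (-S.L)..S.L, CoerI.defect K (F x) (mpow (S.P C x) (1 / α)) :=
    mul_nonneg hcoef.le hd0
  refine
    { L_pos := S.L_pos
      dΨ := S.Ψ_hasDeriv C
      cΨ' := S.DΨ_cont C
      supp := hsupp
      F_left := h.h0
      F_right := h.h1
      dF := ?_
      sub := h.sub
      add := h.add
      bdd := hkap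
      d1i := S.integrable_yd hα h.hC hWi
      d1 := ?_
      d2 := ?_
      d3 := ?_
      bd := hbd
      bR := hbRD }
  · intro x hx
    exact hasDerivWithinAt_pi.2 fun i => hasDerivWithinAt_pi.2 fun j => h.path.deriv x hx i j
  · have : ∫ x, S.yd α C x ≤ ε := by linarith
    exact this
  · have h1 : ∫ x in (-S.L)..S.L, S.kd C F x ≤ ε := by linarith
    have h2 : ∫ x in (-S.L)..S.L, Lim.hs (S.DΨ C x - S.Ψ C x * F x) =
        ∫ x in (-S.L)..S.L, S.kd C F x := by
      apply intervalIntegral.integral_congr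
      intro x _
      exact hs_lim_eq _
    rw [h2]
    exact h1
  · have h1 : CoerI.coefD α (KK α w) (ZZ m α w) *
      (∫ x in (-S.L)..S.L, CoerI.defect K (F x) (mpow (S.P C x) (1 / α))) ≤
      CoerI.coefD α (KK α w) (ZZ m α w) * ε := by linarith
    have h2 := le_of_mul_le_mul_left h1 hcoef
    have h3 : ∫ x in (-S.L)..S.L, (Lim.hs (F x * (K * K) - K * K * F x) +
        Lim.hs (mpow ((S.Ψ C x)ᴴ * S.Ψ C x) (1 / α) - (K * K - F x * F x))) =
        ∫ x in (-S.L)..S.L, CoerI.defect K (F x) (mpow (S.P C x) (1 / α)) := by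
      apply intervalIntegral.integral_congr
      intro x _
      show _ = CoerI.defect K (F x) (mpow (S.P C x) (1 / α))
      unfold CoerI.defect
      rw [hs_coer_eq, hs_coer_eq]
      rfl
    rw [h3]
    exact h2

end Crest.Agent.R332.Glue
end

-- ▼ part R332/CfcDiag
section

set_option autoImplicit false
open Matrix Polynomial

namespace Crest.Agent.R332

variable {ι : Type*} [Fintype ι] [DecidableEq ι]

/-- spectrum of a unitarily diagonalised matrix -/
lemma spectrum_conj_diagonal_subset (U : Matrix.unitaryGroup ι ℂ) (d : ι → ℝ) :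
    spectrum ℝ ((U : Matrix ι ι ℂ) * Matrix.diagonal (fun i => (d i : ℂ)) * star (U : Matrix ι ι ℂ))
      ⊆ Set.range d := by
  intro t ht
  have h1 : algebraMap ℝ ℂ t ∈ spectrum ℂ ((U : Matrix ι ι ℂ) *
      Matrix.diagonal (fun i => (d i : ℂ)) * star (U : Matrix ι ι ℂ)) := by
    exact spectrum.algebraMap_mem ℂ ht
  rw [Unitary.spectrum_star_right_conjugate, spectrum_diagonal] at h1
  obtain ⟨i, hi⟩ := h1
  refine ⟨i, ?_⟩
  simpa using hi

lemma isHermitian_conj_diagonal (U : Matrix.unitaryGroup ι ℂ) (d : ι → ℝ) :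
    ((U : Matrix ι ι ℂ) * Matrix.diagonal (fun i => (d i : ℂ)) *
      star (U : Matrix ι ι ℂ)).IsHermitian := by
  have : (Matrix.diagonal (fun i => (d i : ℂ))).IsHermitian := by
    apply Matrix.isHermitian_diagonal_of_self_adjoint
    ext i; simp
  exact Matrix.isHermitian_mul_mul_conjTranspose _ this

/-- polynomial functional calculus of a conjugated diagonal matrix -/
lemma aeval_conj_diagonal (U : Matrix.unitaryGroup ι ℂ) (d : ι → ℝ) (q : ℝ[X]) :
    aeval ((U : Matrix ι ι ℂ) * Matrix.diagonal (fun i => (d i : ℂ)) * star (U : Matrix ι ι ℂ)) q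
      = (U : Matrix ι ι ℂ) * Matrix.diagonal (fun i => ((q.eval (d i) : ℝ) : ℂ)) *
        star (U : Matrix ι ι ℂ) := by
  have hU : star (U : Matrix ι ι ℂ) * (U : Matrix ι ι ℂ) = 1 := Unitary.coe_star_mul_self U
  have hU' : (U : Matrix ι ι ℂ) * star (U : Matrix ι ι ℂ) = 1 := Unitary.coe_mul_star_self U
  induction q using Polynomial.induction_on' with
  | add p q hp hq =>
    rw [map_add, hp, hq, ← add_mul, ← mul_add, Matrix.diagonal_add]
    simp
  | monomial n a =>
    rw [aeval_monomial]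
    have key : ∀ n : ℕ, ((U : Matrix ι ι ℂ) * Matrix.diagonal (fun i => (d i : ℂ)) *
        star (U : Matrix ι ι ℂ)) ^ n = (U : Matrix ι ι ℂ) *
        Matrix.diagonal (fun i => ((d i ^ n : ℝ) : ℂ)) * star (U : Matrix ι ι ℂ) := by
      intro n
      induction n with
      | zero => simp [hU', Matrix.diagonal_one]
      | succ n ih =>
        rw [pow_succ, ih]
        calc _ = (U : Matrix ι ι ℂ) * (Matrix.diagonal (fun i => ((d i ^ n : ℝ) : ℂ)) *
              (star (U : Matrix ι ι ℂ) * (U : Matrix ι ι ℂ)) *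
              Matrix.diagonal (fun i => (d i : ℂ))) * star (U : Matrix ι ι ℂ) := by
              simp only [mul_assoc]
          _ = _ := by
              rw [hU, mul_one, Matrix.diagonal_mul_diagonal]
              simp [pow_succ]
    rw [key]
    have : (algebraMap ℝ (Matrix ι ι ℂ)) a = Matrix.diagonal (fun _ => (a : ℂ)) := by
      rw [Matrix.algebraMap_eq_diagonal]; rfl
    rw [this]
    have hcomm : Matrix.diagonal (fun _ => (a : ℂ)) * (U : Matrix ι ι ℂ) =
        (U : Matrix ι ι ℂ) * Matrix.diagonal (fun _ => (a : ℂ)) := by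
      ext i j; simp [mul_comm]
    rw [← mul_assoc, ← mul_assoc, hcomm, mul_assoc (U : Matrix ι ι ℂ), Matrix.diagonal_mul_diagonal]
    simp [Polynomial.eval_monomial]

/-- the functional calculus on a unitarily diagonalised matrix -/
theorem cfc_conj_diagonal (U : Matrix.unitaryGroup ι ℂ) (d : ι → ℝ) (f : ℝ → ℝ) :
    cfc f ((U : Matrix ι ι ℂ) * Matrix.diagonal (fun i => (d i : ℂ)) * star (U : Matrix ι ι ℂ))
      = (U : Matrix ι ι ℂ) * Matrix.diagonal (fun i => ((f (d i) : ℝ) : ℂ)) *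
        star (U : Matrix ι ι ℂ) := by
  classical
  have hA : IsSelfAdjoint ((U : Matrix ι ι ℂ) * Matrix.diagonal (fun i => (d i : ℂ)) *
    star (U : Matrix ι ι ℂ)) := isHermitian_conj_diagonal U d
  let s : Finset ℝ := Finset.univ.image d
  let q : ℝ[X] := Lagrange.interpolate s id f
  have hq : ∀ i, q.eval (d i) = f (d i) := by
    intro i
    have : d i ∈ s := Finset.mem_image_of_mem _ (Finset.mem_univ i)
    exact Lagrange.eval_interpolate_at_node (v := id) f (s := s) (Function.injective_id.injOn) this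
  have h1 : cfc f ((U : Matrix ι ι ℂ) * Matrix.diagonal (fun i => (d i : ℂ)) *
      star (U : Matrix ι ι ℂ)) = cfc q.eval ((U : Matrix ι ι ℂ) *
      Matrix.diagonal (fun i => (d i : ℂ)) * star (U : Matrix ι ι ℂ)) := by
    apply cfc_congr
    intro t ht
    obtain ⟨i, rfl⟩ := spectrum_conj_diagonal_subset U d ht
    exact (hq i).symm
  rw [h1, cfc_polynomial q _ hA, aeval_conj_diagonal]
  simp [hq]

theorem trace_cfc_conj_diagonal (U : Matrix.unitaryGroup ι ℂ) (d : ι → ℝ) (f : ℝ → ℝ) :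
    (Matrix.trace (cfc f ((U : Matrix ι ι ℂ) * Matrix.diagonal (fun i => (d i : ℂ)) *
      star (U : Matrix ι ι ℂ)))).re = ∑ i, f (d i) := by
  rw [cfc_conj_diagonal, Matrix.trace_mul_cycle, Unitary.coe_star_mul_self, one_mul,
    Matrix.trace_diagonal]
  simp

theorem cfc_diagonal (d : ι → ℝ) (f : ℝ → ℝ) :
    cfc f (Matrix.diagonal (fun i => (d i : ℂ))) = Matrix.diagonal (fun i => ((f (d i) : ℝ) : ℂ)) := by
  have := cfc_conj_diagonal (1 : Matrix.unitaryGroup ι ℂ) d f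
  simpa using this

theorem trace_cfc_diagonal (d : ι → ℝ) (f : ℝ → ℝ) :
    (Matrix.trace (cfc f (Matrix.diagonal (fun i => (d i : ℂ))))).re = ∑ i, f (d i) := by
  rw [cfc_diagonal, Matrix.trace_diagonal]; simp

end Crest.Agent.R332
end

-- ▼ part R332/OdeLA
section

/-! # Row 332: linear algebra for the ODE classification (simultaneous diagonalisation,
Hilbert–Schmidt Lipschitz bound for matrix powers, kernels). -/

set_option autoImplicit false
open Matrix
open scoped ComplexOrder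

namespace Crest.Agent.R332.Ode

/-- simultaneous diagonalisation of two commuting Hermitian matrices -/
theorem simul_diag {m : ℕ} (A B : Matrix (Fin m) (Fin m) ℂ) (hA : A.IsHermitian)
    (hB : B.IsHermitian) (hAB : A * B = B * A) :
    ∃ (U : Matrix.unitaryGroup (Fin m) ℂ) (d e : Fin m → ℝ),
      A = (U : Matrix (Fin m) (Fin m) ℂ) * Matrix.diagonal (fun i => (d i : ℂ)) *
        star (U : Matrix (Fin m) (Fin m) ℂ) ∧
      B = (U : Matrix (Fin m) (Fin m) ℂ) * Matrix.diagonal (fun i => (e i : ℂ)) *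
        star (U : Matrix (Fin m) (Fin m) ℂ) := by
  classical
  set TA := Matrix.toEuclideanLin A with hTA
  set TB := Matrix.toEuclideanLin B with hTB
  have sA : TA.IsSymmetric := Matrix.isSymmetric_toEuclideanLin_iff.2 hA
  have sB : TB.IsSymmetric := Matrix.isSymmetric_toEuclideanLin_iff.2 hB
  have hc : Commute TA TB := by
    apply LinearMap.ext
    intro v
    show TA (TB v) = TB (TA v)
    rw [hTA, hTB]
    simp only [Matrix.toLpLin_apply, Matrix.mulVec_mulVec, hAB]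
  let V : ℂ × ℂ → Submodule ℂ (EuclideanSpace ℂ (Fin m)) := fun i =>
    Module.End.eigenspace TA i.2 ⊓ Module.End.eigenspace TB i.1
  have hV : DirectSum.IsInternal V := LinearMap.IsSymmetric.directSum_isInternal_of_commute sA sB hc
  have hV' : OrthogonalFamily ℂ (fun i => V i) fun i => (V i).subtypeₗᵢ :=
    LinearMap.IsSymmetric.orthogonalFamily_eigenspace_inf_eigenspace sA sB
  have hfin : {i | V i ≠ ⊥}.Finite := WellFoundedGT.finite_ne_bot_of_iSupIndep
    hV.submodule_iSupIndep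
  have : Fintype {i // V i ≠ ⊥} := hfin.fintype
  have hW : DirectSum.IsInternal (fun i : {i // V i ≠ ⊥} => V i) := DirectSum.isInternal_ne_bot_iff.2 hV
  have hW' : OrthogonalFamily ℂ (fun i : {i // V i ≠ ⊥} => V i) fun i => (V i).subtypeₗᵢ :=
    hV'.comp Subtype.val_injective
  have hn : Module.finrank ℂ (EuclideanSpace ℂ (Fin m)) = m := finrank_euclideanSpace_fin
  let b := hW.subordinateOrthonormalBasis hn hW'
  let ix := fun a => hW.subordinateOrthonormalBasisIndex hn a hW'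
  have hb : ∀ a, b a ∈ V (ix a) := fun a => hW.subordinateOrthonormalBasis_subordinate hn a hW'
  have hbA : ∀ a, TA (b a) = (ix a).1.2 • b a := fun a =>
    Module.End.mem_eigenspace_iff.1 (Submodule.mem_inf.1 (hb a)).1
  have hbB : ∀ a, TB (b a) = (ix a).1.1 • b a := fun a =>
    Module.End.mem_eigenspace_iff.1 (Submodule.mem_inf.1 (hb a)).2
  have hbn : ∀ a, b a ≠ 0 := fun a => by
    have := b.orthonormal.1 a
    intro h; rw [h, norm_zero] at this; exact zero_ne_one this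
  have hAr : ∀ a, ((ix a).1.2.re : ℂ) = (ix a).1.2 := fun a => by
    have := sA.conj_eigenvalue_eq_self
      (Module.End.hasEigenvalue_of_hasEigenvector
        (Module.End.hasEigenvector_iff.2 ⟨(Submodule.mem_inf.1 (hb a)).1, hbn a⟩))
    exact Complex.conj_eq_iff_re.1 this
  have hBr : ∀ a, ((ix a).1.1.re : ℂ) = (ix a).1.1 := fun a => by
    have := sB.conj_eigenvalue_eq_self
      (Module.End.hasEigenvalue_of_hasEigenvector
        (Module.End.hasEigenvector_iff.2 ⟨(Submodule.mem_inf.1 (hb a)).2, hbn a⟩))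
    exact Complex.conj_eq_iff_re.1 this
  let U0 : Matrix (Fin m) (Fin m) ℂ := Matrix.of fun j k => b k j
  have hU0 : star U0 * U0 = 1 := by
    ext k l
    rw [Matrix.mul_apply, Matrix.one_apply]
    have h1 := orthonormal_iff_ite.1 b.orthonormal k l
    rw [PiLp.inner_apply] at h1
    rw [← h1]
    refine Finset.sum_congr rfl fun j _ => ?_
    simp [U0, Matrix.star_apply, mul_comm]
  have hU0' : U0 * star U0 = 1 := mul_eq_one_comm.1 hU0
  let U : Matrix.unitaryGroup (Fin m) ℂ := ⟨U0, Matrix.mem_unitaryGroup_iff.2 hU0'⟩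
  have key : ∀ (C : Matrix (Fin m) (Fin m) ℂ) (μ : Fin m → ℝ),
      (∀ a, Matrix.toEuclideanLin C (b a) = (μ a : ℂ) • b a) →
      C = U0 * Matrix.diagonal (fun i => (μ i : ℂ)) * star U0 := by
    intro C μ h
    have h1 : C * U0 = U0 * Matrix.diagonal (fun i => (μ i : ℂ)) := by
      ext j k
      rw [Matrix.mul_diagonal, Matrix.mul_apply]
      have h2 := congrArg (fun v : EuclideanSpace ℂ (Fin m) => v j) (h k)
      simp only [Matrix.toLpLin_apply, PiLp.smul_apply, smul_eq_mul] at h2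
      rw [mul_comm (U0 j k)]
      show ∑ i, C j i * b k i = (μ k : ℂ) * b k j
      rw [← h2]
      rfl
    rw [← h1, mul_assoc, hU0', mul_one]
  refine ⟨U, fun a => (ix a).1.2.re, fun a => (ix a).1.1.re, ?_, ?_⟩
  · apply key
    intro a
    rw [hAr a]; exact hbA a
  · apply key
    intro a
    rw [hBr a]; exact hbB a

variable {n : Type*} [Fintype n] [DecidableEq n]

/-- covariance of the functional calculus under unitary conjugation -/
lemma cfc_unitary_conj (V : Matrix.unitaryGroup n ℂ) {A : Matrix n n ℂ} (hA : A.IsHermitian)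
    (f : ℝ → ℝ) :
    cfc f ((V : Matrix n n ℂ) * A * star (V : Matrix n n ℂ)) =
      (V : Matrix n n ℂ) * cfc f A * star (V : Matrix n n ℂ) := by
  have h1 := eq_conj hA
  have h2 : (V : Matrix n n ℂ) * A * star (V : Matrix n n ℂ) =
      ((V * hA.eigenvectorUnitary : Matrix.unitaryGroup n ℂ) : Matrix n n ℂ) *
        diagonal (fun i => ((hA.eigenvalues i : ℝ) : ℂ)) *
        star ((V * hA.eigenvectorUnitary : Matrix.unitaryGroup n ℂ) : Matrix n n ℂ) := by
    conv_lhs => rw [h1]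
    simp only [Matrix.UnitaryGroup.mul_val, star_mul, Matrix.mul_assoc, star_eq_conjTranspose]
  rw [h2, cfc_conj_diagonal, cfc_eq_conj hA]
  simp only [Matrix.UnitaryGroup.mul_val, star_mul, Matrix.mul_assoc, star_eq_conjTranspose]

/-- if `-κR ≤ S ≤ κR` then `ker R ⊆ ker S`. -/
lemma mulVec_eq_zero_of_bound {R S : Matrix n n ℂ} {κ : ℝ} (h1 : (κ • R - S).PosSemidef)
    (h2 : (κ • R + S).PosSemidef) {v : n → ℂ} (hv : R *ᵥ v = 0) : S *ᵥ v = 0 := by
  have e1 : star v ⬝ᵥ ((κ • R - S) *ᵥ v) = -(star v ⬝ᵥ (S *ᵥ v)) := by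
    rw [Matrix.sub_mulVec, Matrix.smul_mulVec, hv]
    simp
  have e2 : star v ⬝ᵥ ((κ • R + S) *ᵥ v) = star v ⬝ᵥ (S *ᵥ v) := by
    rw [Matrix.add_mulVec, Matrix.smul_mulVec, hv]
    simp
  have p1 := h1.dotProduct_mulVec_nonneg v
  have p2 := h2.dotProduct_mulVec_nonneg v
  rw [e1] at p1
  rw [e2] at p2
  have h0 : star v ⬝ᵥ (S *ᵥ v) = 0 := le_antisymm (neg_nonneg.1 p1) p2
  have h3 : (κ • R + S) *ᵥ v = 0 := (h2.dotProduct_mulVec_zero_iff v).1 (by rw [e2, h0])
  rw [Matrix.add_mulVec, Matrix.smul_mulVec, hv] at h3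
  simpa using h3

section frob
open scoped Matrix.Norms.Frobenius

lemma frob_sq (X : Matrix n n ℂ) : ‖X‖ ^ 2 = rtr (Xᴴ * X) := by
  rw [Matrix.frobenius_norm_def, ← Real.rpow_natCast, ← Real.rpow_mul (by positivity)]
  norm_num
  simp only [rtr, Matrix.trace, Matrix.diag_apply, Matrix.mul_apply, Complex.re_sum,
    Matrix.conjTranspose_apply]
  rw [Finset.sum_comm]
  refine Finset.sum_congr rfl fun j _ => Finset.sum_congr rfl fun i _ => ?_
  rw [← Complex.normSq_eq_norm_sq, Complex.normSq_apply]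
  simp

lemma frob_sq_herm {X : Matrix n n ℂ} (hX : X.IsHermitian) : ‖X‖ ^ 2 = rtr (X * X) := by
  rw [frob_sq, hX.eq]

/-- Hilbert–Schmidt Lipschitz bound for the functional calculus. -/
theorem frob_cfc_sub_le {A B : Matrix n n ℂ} (hA : A.IsHermitian) (hB : B.IsHermitian)
    {f : ℝ → ℝ} {L : ℝ} (hL : 0 ≤ L)
    (h : ∀ i j, |f (hA.eigenvalues i) - f (hB.eigenvalues j)| ≤
      L * |hA.eigenvalues i - hB.eigenvalues j|) :
    ‖cfc f A - cfc f B‖ ≤ L * ‖A - B‖ := by
  have hfA : (cfc f A).IsHermitian := cfc_predicate (R := ℝ) (p := IsSelfAdjoint) f A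
  have hfB : (cfc f B).IsHermitian := cfc_predicate (R := ℝ) (p := IsSelfAdjoint) f B
  have hid : ∀ {C : Matrix n n ℂ}, C.IsHermitian → cfc (fun t : ℝ => t) C = C := fun {C} hC =>
    cfc_id' ℝ C hC
  have hone : ∀ {C : Matrix n n ℂ}, C.IsHermitian → cfc (fun _ : ℝ => (1:ℝ)) C = 1 := fun {C} hC =>
    cfc_one ℝ C hC
  let F : Fin 4 → ℝ → ℝ := ![fun t => L ^ 2 * (t * t) - f t * f t, fun _ => 1,
    fun t => -2 * L ^ 2 * t, fun t => 2 * f t]
  let G : Fin 4 → ℝ → ℝ := ![fun _ => 1, fun t => L ^ 2 * (t * t) - f t * f t,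
    fun t => t, fun t => f t]
  have hk := klein (Finset.univ : Finset (Fin 4)) hA hB F G (by
    intro i j
    simp only [Fin.sum_univ_four, F, G, Matrix.cons_val_zero, Matrix.cons_val_one,
      Matrix.cons_val_two, Matrix.cons_val_three, Matrix.head_cons, Matrix.tail_cons, mul_one, one_mul]
    have h1 := h i j
    have h2 : (f (hA.eigenvalues i) - f (hB.eigenvalues j)) ^ 2 ≤
        (L * (hA.eigenvalues i - hB.eigenvalues j)) ^ 2 := by
      rw [← sq_abs, ← sq_abs (L * (hA.eigenvalues i - hB.eigenvalues j)), abs_mul, abs_of_nonneg hL]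
      exact pow_le_pow_left₀ (abs_nonneg _) h1 2
    nlinarith [h2])
  have c1 : ∀ {C : Matrix n n ℂ}, C.IsHermitian → cfc (fun t => L ^ 2 * (t * t) - f t * f t) C =
      (L ^ 2) • (C * C) - cfc f C * cfc f C := by
    intro C hC
    rw [cfc_sub (R := ℝ) _ _ C (contOn_spec _) (contOn_spec _), cfc_const_mul (R := ℝ) _ _ C (contOn_spec _),
      cfc_mul', cfc_mul', hid hC]
  have c2 : cfc (fun t => -2 * L ^ 2 * t) A = (-2 * L ^ 2) • A := by
    rw [cfc_const_mul (R := ℝ) _ _ A (contOn_spec _), hid hA]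
  have c3 : cfc (fun t => 2 * f t) A = (2:ℝ) • cfc f A := by
    rw [cfc_const_mul (R := ℝ) _ _ A (contOn_spec _)]
  simp only [Fin.sum_univ_four, F, G, Matrix.cons_val_zero, Matrix.cons_val_one,
      Matrix.cons_val_two, Matrix.cons_val_three, Matrix.head_cons, Matrix.tail_cons] at hk
  rw [c1 hA, c1 hB, c2, c3, hone hA, hone hB, hid hB] at hk
  simp only [mul_one, one_mul, Matrix.smul_mul, rtr_sub, rtr_smul] at hk
  have hsq : ‖cfc f A - cfc f B‖ ^ 2 ≤ (L * ‖A - B‖) ^ 2 := by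
    rw [mul_pow, frob_sq_herm (hfA.sub hfB), frob_sq_herm (hA.sub hB)]
    have e1 : rtr ((cfc f A - cfc f B) * (cfc f A - cfc f B)) =
        rtr (cfc f A * cfc f A) - 2 * rtr (cfc f A * cfc f B) + rtr (cfc f B * cfc f B) := by
      have : (cfc f A - cfc f B) * (cfc f A - cfc f B) = cfc f A * cfc f A - cfc f A * cfc f B
          - cfc f B * cfc f A + cfc f B * cfc f B := by noncomm_ring
      rw [this, rtr_add, rtr_sub, rtr_sub, rtr_mul_comm (cfc f B) (cfc f A)]
      ring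
    have e2 : rtr ((A - B) * (A - B)) =
        rtr (A * A) - 2 * rtr (A * B) + rtr (B * B) := by
      have : (A - B) * (A - B) = A * A - A * B - B * A + B * B := by noncomm_ring
      rw [this, rtr_add, rtr_sub, rtr_sub, rtr_mul_comm B A]
      ring
    rw [e1, e2]
    linarith
  exact abs_le_of_sq_le_sq' hsq (by positivity) |>.2

end frob

end Crest.Agent.R332.Ode
end

-- ▼ part R332/OdeClass
section

/-! # Row 332: classification of the limit system of S0516 (F4). -/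

set_option autoImplicit false
open Matrix MeasureTheory Set Filter Topology
open scoped ComplexOrder Matrix.Norms.Frobenius
open Crest.MathPhysics.LiebThirring

namespace Crest.Agent.R332.Ode

/-- The limit system (matrix level). -/
structure RSQ {m : ℕ} (r κ : ℝ) (R S Q : ℝ → Matrix (Fin m) (Fin m) ℂ) : Prop where
  hR : ∀ x, (R x).PosSemidef
  hS : ∀ x, (S x).IsHermitian
  dR : ∀ x, HasDerivAt R ((2:ℂ) • S x) x
  dS : ∀ x, HasDerivAt S ((2:ℂ) • Q x - (r:ℂ) • mpow (R x) (1 + r)) x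
  cQ : Continuous Q
  comm : ∀ x, R x * S x = S x * R x
  RQ : ∀ x, mpow (R x) r * Q x = S x * mpow (R x) (r - 1) * S x
  b1 : ∀ x, (κ • R x - S x).PosSemidef
  b2 : ∀ x, (κ • R x + S x).PosSemidef

variable {m : ℕ} {r κ : ℝ} {R S Q : ℝ → Matrix (Fin m) (Fin m) ℂ}

lemma RSQ.contR (h : RSQ r κ R S Q) : Continuous R :=
  continuous_iff_continuousAt.2 fun x => (h.dR x).continuousAt

lemma RSQ.contS (h : RSQ r κ R S Q) : Continuous S :=
  continuous_iff_continuousAt.2 fun x => (h.dS x).continuousAt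

/-- `R Q = S²`. -/
lemma RSQ.RQ' (h : RSQ r κ R S Q) (x : ℝ) : R x * Q x = S x * S x := by
  set A := R x with hA
  have hAh : A.IsHermitian := (h.hR x).1
  set U : Matrix (Fin m) (Fin m) ℂ := (hAh.eigenvectorUnitary : Matrix (Fin m) (Fin m) ℂ) with hU
  have u1 : Uᴴ * U = 1 := unitary_conj_mul hAh
  have u2 : U * Uᴴ = 1 := unitary_mul_conj hAh
  set d : Fin m → ℝ := hAh.eigenvalues with hd
  have hd0 : ∀ i, 0 ≤ d i := fun i => (h.hR x).eigenvalues_nonneg i
  have eA : A = U * diagonal (fun i => ((d i : ℝ) : ℂ)) * Uᴴ := eq_conj hAh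
  have eP : ∀ q, mpow A q = U * diagonal (fun i => ((d i ^ q : ℝ) : ℂ)) * Uᴴ := fun q =>
    cfc_eq_conj hAh _
  set S' := Uᴴ * S x * U with hS'
  set Q' := Uᴴ * Q x * U with hQ'
  have hS'h : S'.IsHermitian := by
    have := Matrix.isHermitian_conjTranspose_mul_mul U (h.hS x)
    exact this
  have eS : S x = U * S' * Uᴴ := by
    rw [hS']
    calc S x = (U * Uᴴ) * S x * (U * Uᴴ) := by rw [u2]; simp
      _ = _ := by simp only [Matrix.mul_assoc]
  have eQ : Q x = U * Q' * Uᴴ := by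
    rw [hQ']
    calc Q x = (U * Uᴴ) * Q x * (U * Uᴴ) := by rw [u2]; simp
      _ = _ := by simp only [Matrix.mul_assoc]
  -- conj: cancel U
  have cancel : ∀ X Y : Matrix (Fin m) (Fin m) ℂ, U * X * Uᴴ = U * Y * Uᴴ → X = Y := by
    intro X Y hXY
    have : Uᴴ * (U * X * Uᴴ) * U = Uᴴ * (U * Y * Uᴴ) * U := by rw [hXY]
    calc X = (Uᴴ * U) * X * (Uᴴ * U) := by rw [u1]; simp
      _ = Uᴴ * (U * X * Uᴴ) * U := by simp only [Matrix.mul_assoc]
      _ = Uᴴ * (U * Y * Uᴴ) * U := this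
      _ = (Uᴴ * U) * Y * (Uᴴ * U) := by simp only [Matrix.mul_assoc]
      _ = Y := by rw [u1]; simp
  have mm : ∀ X Y : Matrix (Fin m) (Fin m) ℂ, (U * X * Uᴴ) * (U * Y * Uᴴ) = U * (X * Y) * Uᴴ := by
    intro X Y
    calc (U * X * Uᴴ) * (U * Y * Uᴴ) = U * X * (Uᴴ * U) * Y * Uᴴ := by simp only [Matrix.mul_assoc]
      _ = _ := by rw [u1]; simp only [Matrix.mul_one, Matrix.mul_assoc]
  have hcomm : diagonal (fun i => ((d i : ℝ) : ℂ)) * S' = S' * diagonal (fun i => ((d i : ℝ) : ℂ)) := by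
    apply cancel
    rw [← mm (diagonal (fun i => ((d i : ℝ) : ℂ))) S', ← mm S' (diagonal (fun i => ((d i : ℝ) : ℂ))),
      ← eA, ← eS]
    exact h.comm x
  have hc : ∀ i j, d i ≠ d j → S' i j = 0 := by
    intro i j hij
    have := congrFun (congrFun hcomm i) j
    rw [Matrix.diagonal_mul, Matrix.mul_diagonal] at this
    have h3 : (((d i : ℝ) : ℂ) - ((d j : ℝ) : ℂ)) * S' i j = 0 := by
      linear_combination this
    rcases mul_eq_zero.1 h3 with h4 | h4
    · exfalso; apply hij; exact_mod_cast sub_eq_zero.1 h4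
    · exact h4
  have hRQ : diagonal (fun i => ((d i ^ r : ℝ) : ℂ)) * Q' =
      S' * diagonal (fun i => ((d i ^ (r - 1) : ℝ) : ℂ)) * S' := by
    apply cancel
    rw [← mm (diagonal (fun i => ((d i ^ r : ℝ) : ℂ))) Q',
      ← mm (S' * diagonal (fun i => ((d i ^ (r - 1) : ℝ) : ℂ))) S',
      ← mm S' (diagonal (fun i => ((d i ^ (r - 1) : ℝ) : ℂ))), ← eP, ← eP, ← eS, ← eQ]
    exact h.RQ x
  -- kernel
  have hker : ∀ i, d i = 0 → ∀ j, S' i j = 0 := by
    intro i hi j
    have h1 : A *ᵥ (U *ᵥ Pi.single i 1) = 0 := by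
      rw [Matrix.mulVec_mulVec, eA, Matrix.mul_assoc, u1, Matrix.mul_one, ← Matrix.mulVec_mulVec]
      have : diagonal (fun i => ((d i : ℝ) : ℂ)) *ᵥ (Pi.single i 1) = 0 := by
        ext k
        rw [Matrix.mulVec_diagonal]
        by_cases hk : k = i
        · subst hk; simp [hi]
        · simp [hk]
      rw [this, Matrix.mulVec_zero]
    have h2 := mulVec_eq_zero_of_bound (h.b1 x) (h.b2 x) h1
    have h3 : S' *ᵥ Pi.single i 1 = 0 := by
      rw [hS', ← Matrix.mulVec_mulVec, ← Matrix.mulVec_mulVec, h2, Matrix.mulVec_zero]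
    have h4 : S' j i = 0 := by
      have := congrFun h3 j
      simpa using this
    rw [← hS'h.apply, h4]; simp
  have hfin : diagonal (fun i => ((d i : ℝ) : ℂ)) * Q' = S' * S' := by
    ext i j
    rw [Matrix.diagonal_mul]
    by_cases hi : d i = 0
    · rw [hi, Matrix.mul_apply]
      simp [hker i hi]
    · have h1 := congrFun (congrFun hRQ i) j
      rw [Matrix.diagonal_mul, Matrix.mul_apply] at h1
      have h2 : ∀ k, (S' * diagonal (fun i => ((d i ^ (r - 1) : ℝ) : ℂ))) i k * S' k j =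
          ((d i ^ (r - 1) : ℝ) : ℂ) * (S' i k * S' k j) := by
        intro k
        rw [Matrix.mul_diagonal]
        by_cases hk : d i = d k
        · rw [← hk]; ring
        · rw [hc i k hk]; ring
      simp_rw [h2] at h1
      rw [← Finset.mul_sum, ← Matrix.mul_apply] at h1
      have hdi : 0 < d i := lt_of_le_of_ne (hd0 i) (Ne.symm hi)
      have h3 : ((d i ^ r : ℝ) : ℂ) = ((d i ^ (r - 1) : ℝ) : ℂ) * ((d i : ℝ) : ℂ) := by
        rw [← Complex.ofReal_mul, ← Real.rpow_add_one hdi.ne']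
        congr 2; ring
      rw [h3, mul_assoc] at h1
      have h4 : ((d i ^ (r - 1) : ℝ) : ℂ) ≠ 0 := by
        have : 0 < d i ^ (r - 1) := Real.rpow_pos_of_pos hdi _
        exact_mod_cast this.ne'
      exact mul_left_cancel₀ h4 h1
  rw [eA, eQ, eS, mm (diagonal (fun i => ((d i : ℝ) : ℂ))) Q', mm S' S', hfin]


/-- reflection symmetry -/
lemma RSQ.reflect (h : RSQ r κ R S Q) :
    RSQ r κ (fun x => R (-x)) (fun x => -S (-x)) (fun x => Q (-x)) where
  hR x := h.hR (-x)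
  hS x := (h.hS (-x)).neg
  dR x := by
    have h1 := (h.dR (-x)).scomp x (hasDerivAt_neg x)
    refine h1.congr_deriv ?_
    simp
  dS x := by
    have h1 := ((h.dS (-x)).scomp x (hasDerivAt_neg x)).neg
    refine h1.congr_deriv ?_
    simp
  cQ := h.cQ.comp continuous_neg
  comm x := by rw [mul_neg, neg_mul, h.comm]
  RQ x := by rw [h.RQ (-x)]; simp
  b1 x := by simpa using h.b2 (-x)
  b2 x := by simpa [sub_eq_add_neg] using h.b1 (-x)

/-- unitary covariance -/
lemma RSQ.conj (h : RSQ r κ R S Q) (V : Matrix.unitaryGroup (Fin m) ℂ) :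
    RSQ r κ (fun x => (V : Matrix (Fin m) (Fin m) ℂ) * R x * star (V : Matrix (Fin m) (Fin m) ℂ))
      (fun x => (V : Matrix (Fin m) (Fin m) ℂ) * S x * star (V : Matrix (Fin m) (Fin m) ℂ))
      (fun x => (V : Matrix (Fin m) (Fin m) ℂ) * Q x * star (V : Matrix (Fin m) (Fin m) ℂ)) where
  hR x := (h.hR x).mul_mul_conjTranspose_same _
  hS x := Matrix.isHermitian_mul_mul_conjTranspose _ (h.hS x)
  dR x := by
    have h1 := ((h.dR x).const_mul (V : Matrix (Fin m) (Fin m) ℂ)).mul_const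
      (star (V : Matrix (Fin m) (Fin m) ℂ))
    refine h1.congr_deriv ?_
    simp
  dS x := by
    have h1 := ((h.dS x).const_mul (V : Matrix (Fin m) (Fin m) ℂ)).mul_const
      (star (V : Matrix (Fin m) (Fin m) ℂ))
    refine h1.congr_deriv ?_
    unfold mpow
    rw [cfc_unitary_conj V (h.hR x).1]
    simp [mul_sub, sub_mul]
  cQ := (continuous_const.mul h.cQ).mul continuous_const
  comm x := by
    have hV : star (V : Matrix (Fin m) (Fin m) ℂ) * (V : Matrix (Fin m) (Fin m) ℂ) = 1 :=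
      Unitary.coe_star_mul_self V
    have mm : ∀ X Y : Matrix (Fin m) (Fin m) ℂ,
        ((V : Matrix (Fin m) (Fin m) ℂ) * X * star (V : Matrix (Fin m) (Fin m) ℂ)) *
        ((V : Matrix (Fin m) (Fin m) ℂ) * Y * star (V : Matrix (Fin m) (Fin m) ℂ)) =
        (V : Matrix (Fin m) (Fin m) ℂ) * (X * Y) * star (V : Matrix (Fin m) (Fin m) ℂ) := by
      intro X Y
      calc _ = (V : Matrix (Fin m) (Fin m) ℂ) * X *
            (star (V : Matrix (Fin m) (Fin m) ℂ) * (V : Matrix (Fin m) (Fin m) ℂ)) * Y *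
            star (V : Matrix (Fin m) (Fin m) ℂ) := by simp only [mul_assoc]
        _ = _ := by rw [hV]; simp only [mul_one, mul_assoc]
    rw [mm, mm, h.comm]
  RQ x := by
    have hV : star (V : Matrix (Fin m) (Fin m) ℂ) * (V : Matrix (Fin m) (Fin m) ℂ) = 1 :=
      Unitary.coe_star_mul_self V
    have mm : ∀ X Y : Matrix (Fin m) (Fin m) ℂ,
        ((V : Matrix (Fin m) (Fin m) ℂ) * X * star (V : Matrix (Fin m) (Fin m) ℂ)) *
        ((V : Matrix (Fin m) (Fin m) ℂ) * Y * star (V : Matrix (Fin m) (Fin m) ℂ)) =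
        (V : Matrix (Fin m) (Fin m) ℂ) * (X * Y) * star (V : Matrix (Fin m) (Fin m) ℂ) := by
      intro X Y
      calc _ = (V : Matrix (Fin m) (Fin m) ℂ) * X *
            (star (V : Matrix (Fin m) (Fin m) ℂ) * (V : Matrix (Fin m) (Fin m) ℂ)) * Y *
            star (V : Matrix (Fin m) (Fin m) ℂ) := by simp only [mul_assoc]
        _ = _ := by rw [hV]; simp only [mul_one, mul_assoc]
    unfold mpow
    rw [cfc_unitary_conj V (h.hR x).1, cfc_unitary_conj V (h.hR x).1, mm, mm, mm]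
    have := h.RQ x
    unfold mpow at this
    rw [this]
  b1 x := by
    have := (h.b1 x).mul_mul_conjTranspose_same (V : Matrix (Fin m) (Fin m) ℂ)
    convert this using 1
    simp [mul_sub, sub_mul, star_eq_conjTranspose]
  b2 x := by
    have := (h.b2 x).mul_mul_conjTranspose_same (V : Matrix (Fin m) (Fin m) ℂ)
    convert this using 1
    simp [mul_add, add_mul, star_eq_conjTranspose]

/-- the kernel of `R` can only grow to the right -/
lemma RSQ.ker_right (h : RSQ r κ R S Q) {x0 : ℝ} {v : Fin m → ℂ} (hv : R x0 *ᵥ v = 0) :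
    ∀ x, x0 ≤ x → R x *ᵥ v = 0 := by
  intro x hx
  let f : ℝ → ℝ := fun x => (star v ⬝ᵥ (R x *ᵥ v)).re
  let f' : ℝ → ℝ := fun x => 2 * (star v ⬝ᵥ (S x *ᵥ v)).re
  let Lc : Matrix (Fin m) (Fin m) ℂ →ₗ[ℝ] ℝ :=
    { toFun := fun A => (star v ⬝ᵥ (A *ᵥ v)).re
      map_add' := fun A B => by simp [Matrix.add_mulVec, dotProduct_add]
      map_smul' := fun c A => by
        rw [Matrix.smul_mulVec, dotProduct_smul]; simp }
  have hLc : ∀ A, Lc A = (star v ⬝ᵥ (A *ᵥ v)).re := fun A => rfl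
  have hf : ∀ x, HasDerivAt f (f' x) x := by
    intro x
    have h1 := (LinearMap.toContinuousLinearMap Lc).hasFDerivAt.comp_hasDerivAt x (h.dR x)
    refine h1.congr_deriv ?_
    show Lc ((2:ℂ) • S x) = 2 * (star v ⬝ᵥ (S x *ᵥ v)).re
    rw [hLc, Matrix.smul_mulVec, dotProduct_smul]
    simp
  have hb : ∀ x, ‖f' x‖ ≤ (2 * κ) * ‖f x‖ := by
    intro x
    have p0 := (h.hR x).dotProduct_mulVec_nonneg v
    have p1 := (h.b1 x).dotProduct_mulVec_nonneg v
    have p2 := (h.b2 x).dotProduct_mulVec_nonneg v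
    have q0 := (Complex.le_def.1 p0).1
    have q1 := (Complex.le_def.1 p1).1
    have q2 := (Complex.le_def.1 p2).1
    rw [Matrix.sub_mulVec, Matrix.smul_mulVec, dotProduct_sub, dotProduct_smul] at q1
    rw [Matrix.add_mulVec, Matrix.smul_mulVec, dotProduct_add, dotProduct_smul] at q2
    simp only [Complex.zero_re, Complex.sub_re, Complex.add_re, Complex.real_smul, Complex.mul_re,
      Complex.ofReal_re, Complex.ofReal_im, zero_mul, sub_zero] at q0 q1 q2
    rw [Real.norm_eq_abs, Real.norm_eq_abs, abs_of_nonneg (show 0 ≤ f x from q0)]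
    rw [abs_le]
    constructor
    · show -(2 * κ * (star v ⬝ᵥ (R x *ᵥ v)).re) ≤ 2 * (star v ⬝ᵥ (S x *ᵥ v)).re
      linarith
    · show 2 * (star v ⬝ᵥ (S x *ᵥ v)).re ≤ 2 * κ * (star v ⬝ᵥ (R x *ᵥ v)).re
      linarith
  have h0 := eq_zero_of_abs_deriv_le_mul_abs_self_of_eq_zero_right (f := f) (f' := f') (K := 2 * κ)
    (a := x0) (b := x)
    (continuous_iff_continuousAt.2 fun x => (hf x).continuousAt).continuousOn
    (fun x _ => (hf x).hasDerivWithinAt) (by simp [f, hv]) (fun x _ => hb x) x ⟨hx, le_rfl⟩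
  have p0 := (h.hR x).dotProduct_mulVec_nonneg v
  apply ((h.hR x).dotProduct_mulVec_zero_iff v).1
  apply Complex.ext
  · exact h0
  · exact (Complex.le_def.1 p0).2.symm

/-- the kernel of `R` is constant -/
lemma RSQ.ker_const (h : RSQ r κ R S Q) {x0 : ℝ} {v : Fin m → ℂ} (hv : R x0 *ᵥ v = 0) (x : ℝ) :
    R x *ᵥ v = 0 := by
  rcases le_total x0 x with hx | hx
  · exact h.ker_right hv x hx
  · have := h.reflect.ker_right (x0 := -x0) (v := v) (by simpa using hv) (-x) (by linarith)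
    simpa using this


lemma mpow_one_add {A : Matrix (Fin m) (Fin m) ℂ} (hA : A.PosSemidef) (hr : 0 < r) :
    mpow A (1 + r) = mpow A r * A := by
  have hid : cfc (fun t : ℝ => t) A = A := cfc_id' ℝ A hA.1
  have h1 : mpow A (1 + r) = cfc (fun t : ℝ => t ^ r * t) A := by
    apply cfc_congr_eig hA.1
    intro i
    have h0 := hA.eigenvalues_nonneg i
    rcases h0.eq_or_lt with h | h
    · simp only [← h]
      rw [Real.zero_rpow (by linarith), mul_zero]
    · rw [add_comm, Real.rpow_add_one h.ne']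
  rw [h1, cfc_mul', hid]
  rfl

/-- rows with vanishing initial eigenvalue vanish for all times -/
lemma RSQ.row_zero (hr : 0 < r) (h : RSQ r κ R S Q) {ρ : Fin m → ℝ}
    (h0 : R 0 = diagonal (fun i => (ρ i : ℂ))) {i : Fin m} (hi : ρ i = 0) (x : ℝ) (j : Fin m) :
    R x i j = 0 ∧ S x i j = 0 ∧ mpow (R x) (1 + r) i j = 0 ∧ Q x i j = 0 := by
  have hk0 : R 0 *ᵥ (Pi.single i 1) = 0 := by
    rw [h0]
    ext k
    rw [Matrix.mulVec_diagonal]
    by_cases hk : k = i
    · subst hk; simp [hi]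
    · simp [hk]
  have hk : ∀ x, R x *ᵥ (Pi.single i 1) = 0 := fun x => h.ker_const hk0 x
  have hs : ∀ x, S x *ᵥ (Pi.single i 1) = 0 := fun x => mulVec_eq_zero_of_bound (h.b1 x) (h.b2 x) (hk x)
  have hp : ∀ x, mpow (R x) (1 + r) *ᵥ (Pi.single i 1) = 0 := fun x => by
    rw [mpow_one_add (h.hR x) hr, ← Matrix.mulVec_mulVec, hk, Matrix.mulVec_zero]
  have tr : ∀ {A : Matrix (Fin m) (Fin m) ℂ}, A.IsHermitian → A *ᵥ (Pi.single i 1) = 0 → ∀ j, A i j = 0 := by
    intro A hA hA0 j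
    have h1 := congrFun hA0 j
    have h2 : A j i = 0 := by simpa using h1
    rw [← hA.apply, h2]; simp
  have eR : ∀ x j, R x i j = 0 := fun x => tr (h.hR x).1 (hk x)
  have eS : ∀ x j, S x i j = 0 := fun x => tr (h.hS x) (hs x)
  have eP : ∀ x j, mpow (R x) (1 + r) i j = 0 := fun x => tr (mpow_isHermitian _ _) (hp x)
  refine ⟨eR x j, eS x j, eP x j, ?_⟩
  have h1 := hasDerivAt_pi.1 (hasDerivAt_pi.1 (h.dS x) i) j
  have h2 : HasDerivAt (fun x => S x i j) 0 x := by
    have : (fun x => S x i j) = fun _ => 0 := funext fun x => eS x j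
    rw [this]; exact hasDerivAt_const _ _
  have h3 := h1.unique h2
  simp only [Matrix.sub_apply, Matrix.smul_apply, smul_eq_mul, eP x j, mul_zero, sub_zero] at h3
  simpa using h3

/-- projection on the common kernel -/
noncomputable def kerProj (ρ : Fin m → ℝ) : Matrix (Fin m) (Fin m) ℂ :=
  diagonal (fun i => if ρ i = 0 then (1:ℂ) else 0)

lemma RSQ.isUnit_add (h : RSQ r κ R S Q) {ρ : Fin m → ℝ}
    (h0 : R 0 = diagonal (fun i => (ρ i : ℂ))) (x : ℝ) : IsUnit (R x + kerProj ρ) := by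
  rw [← Matrix.mulVec_injective_iff_isUnit]
  have hP : (kerProj ρ).PosSemidef := by
    apply Matrix.PosSemidef.diagonal
    intro i
    show (0:ℂ) ≤ if ρ i = 0 then (1:ℂ) else 0
    split_ifs <;> simp
  intro v w hvw
  rw [← sub_eq_zero]
  set u := v - w with hu
  have hu0 : (R x + kerProj ρ) *ᵥ u = 0 := by
    rw [hu, Matrix.mulVec_sub, sub_eq_zero]; exact hvw
  have h1 : star u ⬝ᵥ (R x *ᵥ u) + star u ⬝ᵥ (kerProj ρ *ᵥ u) = 0 := by
    rw [← dotProduct_add, ← Matrix.add_mulVec, hu0, dotProduct_zero]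
  have p1 := (h.hR x).dotProduct_mulVec_nonneg u
  have p2 := hP.dotProduct_mulVec_nonneg u
  have h2 : star u ⬝ᵥ (R x *ᵥ u) = 0 := le_antisymm (by
    calc star u ⬝ᵥ (R x *ᵥ u) ≤ star u ⬝ᵥ (R x *ᵥ u) + star u ⬝ᵥ (kerProj ρ *ᵥ u) := le_add_of_nonneg_right p2
      _ = 0 := h1) p1
  have h3 : star u ⬝ᵥ (kerProj ρ *ᵥ u) = 0 := by rw [h2, zero_add] at h1; exact h1
  have k1 : R x *ᵥ u = 0 := ((h.hR x).dotProduct_mulVec_zero_iff u).1 h2
  have k2 : kerProj ρ *ᵥ u = 0 := (hP.dotProduct_mulVec_zero_iff u).1 h3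
  have k3 := h.ker_const k1 0
  rw [h0] at k3
  ext i
  have e3 := congrFun k3 i
  have e2 := congrFun k2 i
  rw [Matrix.mulVec_diagonal] at e3
  unfold kerProj at e2
  rw [Matrix.mulVec_diagonal] at e2
  by_cases hi : ρ i = 0
  · simpa [hi] using e2
  · rcases mul_eq_zero.1 e3 with e4 | e4
    · exfalso; apply hi; exact_mod_cast e4
    · simpa using e4

lemma RSQ.continuous_inv (h : RSQ r κ R S Q) {ρ : Fin m → ℝ}
    (h0 : R 0 = diagonal (fun i => (ρ i : ℂ))) : Continuous (fun x => (R x + kerProj ρ)⁻¹) := by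
  have hc : Continuous (fun x => R x + kerProj ρ) := h.contR.add continuous_const
  simp only [Matrix.inv_def, Ring.inverse_eq_inv']
  refine Continuous.smul (Continuous.inv₀ hc.matrix_det fun x => ?_) hc.matrix_adjugate
  have := h.isUnit_add h0 x
  rw [Matrix.isUnit_iff_isUnit_det] at this
  exact this.ne_zero

lemma eig_le_frob {A : Matrix (Fin m) (Fin m) ℂ} (hA : A.IsHermitian) (i : Fin m) :
    hA.eigenvalues i ≤ ‖A‖ := by
  have h1 : ‖A‖ ^ 2 = ∑ j, hA.eigenvalues j ^ 2 := by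
    rw [frob_sq_herm hA]
    have hid : cfc (fun t : ℝ => t) A = A := cfc_id' ℝ A hA
    have : A * A = cfc (fun t : ℝ => t ^ 2) A := by
      have := cfc_mul' (A := A) (fun t : ℝ => t) (fun t => t)
      rw [hid] at this
      rw [← this]
      congr 1; funext t; ring
    rw [this, rtr_cfc hA]
  have h2 : hA.eigenvalues i ^ 2 ≤ ‖A‖ ^ 2 := by
    rw [h1]
    exact Finset.single_le_sum (f := fun j => hA.eigenvalues j ^ 2) (fun j _ => sq_nonneg _) (Finset.mem_univ i)
  exact (abs_le_of_sq_le_sq' h2 (norm_nonneg _)).2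

lemma rpow_lip {q C : ℝ} (hq : 1 ≤ q) {a b : ℝ} (ha : 0 ≤ a) (haC : a ≤ C) (hb : 0 ≤ b)
    (hbC : b ≤ C) : |a ^ q - b ^ q| ≤ q * C ^ (q - 1) * |a - b| := by
  have := Convex.norm_image_sub_le_of_norm_hasDerivWithin_le (f := fun t : ℝ => t ^ q)
    (f' := fun t => q * t ^ (q - 1)) (s := Icc 0 C) (x := b) (y := a) (C := q * C ^ (q - 1))
    (fun x hx => (Real.hasDerivAt_rpow_const (Or.inr hq)).hasDerivWithinAt)
    (fun x hx => by
      rw [Real.norm_eq_abs, abs_mul, abs_of_nonneg (by linarith : 0 ≤ q),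
        abs_of_nonneg (Real.rpow_nonneg hx.1 _)]
      exact mul_le_mul_of_nonneg_left (Real.rpow_le_rpow hx.1 hx.2 (by linarith)) (by linarith))
    (convex_Icc 0 C) ⟨hb, hbC⟩ ⟨ha, haC⟩
  simpa [Real.norm_eq_abs] using this

lemma mpow_lip {A B : Matrix (Fin m) (Fin m) ℂ} (hA : A.PosSemidef) (hB : B.PosSemidef) {q C : ℝ}
    (hq : 1 ≤ q) (hC : 0 ≤ C) (hAC : ‖A‖ ≤ C) (hBC : ‖B‖ ≤ C) :
    ‖mpow A q - mpow B q‖ ≤ q * C ^ (q - 1) * ‖A - B‖ := by
  apply frob_cfc_sub_le hA.1 hB.1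
  · have := Real.rpow_nonneg hC (q - 1)
    positivity
  · intro i j
    exact rpow_lip hq (hA.eigenvalues_nonneg i) ((eig_le_frob hA.1 i).trans hAC)
      (hB.eigenvalues_nonneg j) ((eig_le_frob hB.1 j).trans hBC)


/-- forward uniqueness for the limit system with diagonal initial density -/
theorem RSQ.unique_right (hr : 0 < r) {R₁ S₁ Q₁ R₂ S₂ Q₂ : ℝ → Matrix (Fin m) (Fin m) ℂ}
    (h₁ : RSQ r κ R₁ S₁ Q₁) (h₂ : RSQ r κ R₂ S₂ Q₂) {ρ : Fin m → ℝ}
    (hR₁ : R₁ 0 = diagonal (fun i => (ρ i : ℂ))) (hR₂ : R₂ 0 = diagonal (fun i => (ρ i : ℂ)))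
    (hS : S₁ 0 = S₂ 0) : ∀ x, 0 ≤ x → R₁ x = R₂ x := by
  intro T hT
  have cG := h₁.continuous_inv hR₁
  set G : ℝ → Matrix (Fin m) (Fin m) ℂ := fun x => (R₁ x + kerProj ρ)⁻¹ with hG
  -- common bound
  obtain ⟨C, hC⟩ := (isCompact_Icc (a := (0:ℝ)) (b := T)).exists_bound_of_continuousOn
    (f := fun x => ‖G x‖ + ‖S₁ x‖ + ‖S₂ x‖ + ‖Q₂ x‖ + ‖R₁ x‖ + ‖R₂ x‖)
    (((((cG.norm.add h₁.contS.norm).add h₂.contS.norm).add h₂.cQ.norm).add h₁.contR.norm).add
      h₂.contR.norm).continuousOn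
  have hC' : ∀ x ∈ Icc (0:ℝ) T, ‖G x‖ ≤ C ∧ ‖S₁ x‖ ≤ C ∧ ‖S₂ x‖ ≤ C ∧ ‖Q₂ x‖ ≤ C ∧
      ‖R₁ x‖ ≤ C ∧ ‖R₂ x‖ ≤ C := by
    intro x hx
    have h0 := hC x hx
    rw [Real.norm_eq_abs] at h0
    have h1 := (le_abs_self _).trans h0
    have n1 := norm_nonneg (G x)
    have n2 := norm_nonneg (S₁ x)
    have n3 := norm_nonneg (S₂ x)
    have n4 := norm_nonneg (Q₂ x)
    have n5 := norm_nonneg (R₁ x)
    have n6 := norm_nonneg (R₂ x)
    refine ⟨?_, ?_, ?_, ?_, ?_, ?_⟩ <;> linarith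
  have hC0 : 0 ≤ C := (norm_nonneg _).trans (hC' 0 ⟨le_rfl, hT⟩).1
  set K : ℝ := 2 + 6 * C ^ 2 + r * ((1 + r) * C ^ r) with hK
  let f : ℝ → Matrix (Fin m) (Fin m) ℂ × Matrix (Fin m) (Fin m) ℂ := fun x => (R₁ x - R₂ x, S₁ x - S₂ x)
  let f' : ℝ → Matrix (Fin m) (Fin m) ℂ × Matrix (Fin m) (Fin m) ℂ := fun x =>
    ((2:ℂ) • S₁ x - (2:ℂ) • S₂ x, ((2:ℂ) • Q₁ x - (r:ℂ) • mpow (R₁ x) (1 + r)) -
      ((2:ℂ) • Q₂ x - (r:ℂ) • mpow (R₂ x) (1 + r)))
  have hf : ∀ x, HasDerivAt f (f' x) x := fun x =>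
    ((h₁.dR x).sub (h₂.dR x)).prodMk ((h₁.dS x).sub (h₂.dS x))
  have hb : ∀ x ∈ Ico (0:ℝ) T, ‖f' x‖ ≤ K * ‖f x‖ := by
    intro x hx
    obtain ⟨cG, c1, c2, c3, c4, c5⟩ := hC' x ⟨hx.1, hx.2.le⟩
    have nR : ‖R₁ x - R₂ x‖ ≤ ‖f x‖ := norm_fst_le (f x)
    have nS : ‖S₁ x - S₂ x‖ ≤ ‖f x‖ := norm_snd_le (f x)
    have nf := norm_nonneg (f x)
    have hQ : Q₁ x - Q₂ x = G x * (S₁ x * (S₁ x - S₂ x) + (S₁ x - S₂ x) * S₂ x - (R₁ x - R₂ x) * Q₂ x) := by
      have hu := h₁.isUnit_add hR₁ x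
      have hinv : G x * (R₁ x + kerProj ρ) = 1 :=
        Matrix.nonsing_inv_mul _ ((Matrix.isUnit_iff_isUnit_det _).1 hu)
      have hP : ∀ {R' S' Q' : ℝ → Matrix (Fin m) (Fin m) ℂ} (_ : RSQ r κ R' S' Q')
          (_ : R' 0 = diagonal (fun i => (ρ i : ℂ))), kerProj ρ * Q' x = 0 := by
        intro R' S' Q' h' h0'
        ext i j
        unfold kerProj
        rw [Matrix.diagonal_mul]
        by_cases hi : ρ i = 0
        · rw [(h'.row_zero hr h0' hi x j).2.2.2]; simp
        · simp [hi]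
      have e1 : (R₁ x + kerProj ρ) * (Q₁ x - Q₂ x) =
          S₁ x * (S₁ x - S₂ x) + (S₁ x - S₂ x) * S₂ x - (R₁ x - R₂ x) * Q₂ x := by
        have a1 := h₁.RQ' x
        have a2 := h₂.RQ' x
        have a3 := hP h₁ hR₁
        have a4 := hP h₂ hR₂
        calc (R₁ x + kerProj ρ) * (Q₁ x - Q₂ x)
            = R₁ x * Q₁ x + kerProj ρ * Q₁ x - kerProj ρ * Q₂ x - R₂ x * Q₂ x
              - (R₁ x - R₂ x) * Q₂ x := by noncomm_ring
          _ = S₁ x * S₁ x - S₂ x * S₂ x - (R₁ x - R₂ x) * Q₂ x := by rw [a1, a2, a3, a4]; simp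
          _ = _ := by noncomm_ring
      rw [← e1, ← mul_assoc, hinv, one_mul]
    have nQ : ‖Q₁ x - Q₂ x‖ ≤ 3 * C ^ 2 * ‖f x‖ := by
      rw [hQ]
      have b1 : ‖S₁ x * (S₁ x - S₂ x)‖ ≤ C * ‖f x‖ :=
        (norm_mul_le _ _).trans (mul_le_mul c1 nS (norm_nonneg _) hC0)
      have b2 : ‖(S₁ x - S₂ x) * S₂ x‖ ≤ ‖f x‖ * C :=
        (norm_mul_le _ _).trans (mul_le_mul nS c2 (norm_nonneg _) nf)
      have b3 : ‖(R₁ x - R₂ x) * Q₂ x‖ ≤ ‖f x‖ * C :=
        (norm_mul_le _ _).trans (mul_le_mul nR c3 (norm_nonneg _) nf)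
      calc ‖G x * (S₁ x * (S₁ x - S₂ x) + (S₁ x - S₂ x) * S₂ x - (R₁ x - R₂ x) * Q₂ x)‖
          ≤ ‖G x‖ * ‖S₁ x * (S₁ x - S₂ x) + (S₁ x - S₂ x) * S₂ x - (R₁ x - R₂ x) * Q₂ x‖ := norm_mul_le _ _
        _ ≤ C * (C * ‖f x‖ + ‖f x‖ * C + ‖f x‖ * C) := by
            apply mul_le_mul cG _ (norm_nonneg _) hC0
            exact (norm_sub_le _ _).trans (add_le_add ((norm_add_le _ _).trans (add_le_add b1 b2)) b3)
        _ = 3 * C ^ 2 * ‖f x‖ := by ring
    have nP : ‖mpow (R₁ x) (1 + r) - mpow (R₂ x) (1 + r)‖ ≤ (1 + r) * C ^ r * ‖f x‖ := by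
      have := mpow_lip (h₁.hR x) (h₂.hR x) (q := 1 + r) (by linarith) hC0 c4 c5
      rw [show 1 + r - 1 = r by ring] at this
      refine this.trans (mul_le_mul_of_nonneg_left nR ?_)
      have := Real.rpow_nonneg hC0 r
      positivity
    have e1 : ‖(2:ℂ) • S₁ x - (2:ℂ) • S₂ x‖ ≤ K * ‖f x‖ := by
      rw [← smul_sub, norm_smul]
      have h2 : ‖(2:ℂ)‖ = 2 := by simp
      rw [h2]
      have h3 : 0 ≤ 6 * C ^ 2 + r * ((1 + r) * C ^ r) := by
        have := Real.rpow_nonneg hC0 r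
        positivity
      calc 2 * ‖S₁ x - S₂ x‖ ≤ 2 * ‖f x‖ := by linarith
        _ ≤ K * ‖f x‖ := by
          apply mul_le_mul_of_nonneg_right _ nf
          rw [hK]; linarith
    have e2 : ‖((2:ℂ) • Q₁ x - (r:ℂ) • mpow (R₁ x) (1 + r)) -
      ((2:ℂ) • Q₂ x - (r:ℂ) • mpow (R₂ x) (1 + r))‖ ≤ K * ‖f x‖ := by
      have e3 : ((2:ℂ) • Q₁ x - (r:ℂ) • mpow (R₁ x) (1 + r)) -
          ((2:ℂ) • Q₂ x - (r:ℂ) • mpow (R₂ x) (1 + r)) = (2:ℂ) • (Q₁ x - Q₂ x) -
          (r:ℂ) • (mpow (R₁ x) (1 + r) - mpow (R₂ x) (1 + r)) := by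
        rw [smul_sub, smul_sub]; abel
      rw [e3]
      have h2 : ‖(2:ℂ)‖ = 2 := by simp
      have h3 : ‖(r:ℂ)‖ = r := by simp [abs_of_pos hr]
      calc ‖(2:ℂ) • (Q₁ x - Q₂ x) - (r:ℂ) • (mpow (R₁ x) (1 + r) - mpow (R₂ x) (1 + r))‖
          ≤ 2 * ‖Q₁ x - Q₂ x‖ + r * ‖mpow (R₁ x) (1 + r) - mpow (R₂ x) (1 + r)‖ := by
            refine (norm_sub_le _ _).trans ?_
            rw [norm_smul, norm_smul, h2, h3]
        _ ≤ 2 * (3 * C ^ 2 * ‖f x‖) + r * ((1 + r) * C ^ r * ‖f x‖) :=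
            add_le_add (by linarith) (mul_le_mul_of_nonneg_left nP hr.le)
        _ ≤ K * ‖f x‖ := by
            rw [hK]
            nlinarith [nf]
    exact max_le e1 e2
  have := eq_zero_of_abs_deriv_le_mul_abs_self_of_eq_zero_right (f := f) (f' := f') (K := K)
    (a := 0) (b := T)
    (continuous_iff_continuousAt.2 fun x => (hf x).continuousAt).continuousOn
    (fun x _ => (hf x).hasDerivWithinAt) (by
      show (R₁ 0 - R₂ 0, S₁ 0 - S₂ 0) = 0
      rw [hR₁, hR₂, hS]; simp) hb T ⟨hT, le_rfl⟩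
  exact sub_eq_zero.1 (congrArg Prod.fst this)

theorem RSQ.unique (hr : 0 < r) {R₁ S₁ Q₁ R₂ S₂ Q₂ : ℝ → Matrix (Fin m) (Fin m) ℂ}
    (h₁ : RSQ r κ R₁ S₁ Q₁) (h₂ : RSQ r κ R₂ S₂ Q₂) {ρ : Fin m → ℝ}
    (hR₁ : R₁ 0 = diagonal (fun i => (ρ i : ℂ))) (hR₂ : R₂ 0 = diagonal (fun i => (ρ i : ℂ)))
    (hS : S₁ 0 = S₂ 0) (x : ℝ) : R₁ x = R₂ x := by
  rcases le_total 0 x with hx | hx
  · exact RSQ.unique_right hr h₁ h₂ hR₁ hR₂ hS x hx
  · have := RSQ.unique_right hr h₁.reflect h₂.reflect (ρ := ρ) (by simpa using hR₁)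
      (by simpa using hR₂) (by simpa using hS) (-x) (by linarith)
    simpa using this


/-- the scalar soliton ODE -/
lemma scalar_soliton (hr : 0 < r) {ρ σ q : ℝ → ℝ} (hρ : ∀ x, 0 < ρ x)
    (dρ : ∀ x, HasDerivAt ρ (2 * σ x) x)
    (dσ : ∀ x, HasDerivAt σ (2 * q x - r * (ρ x) ^ (1 + r)) x)
    (hq : ∀ x, ρ x * q x = σ x ^ 2) :
    ∃ k c : ℝ, 0 ≤ k ∧ ∀ x, (r + 1) * (ρ x) ^ r = soliton r k c x := by
  set v : ℝ → ℝ := fun x => σ x / ρ x with hv
  have hpow : ∀ x, ρ x ^ (1 + r) = ρ x * ρ x ^ r := fun x => by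
    rw [Real.rpow_add (hρ x), Real.rpow_one]
  have dv : ∀ x, HasDerivAt v (-(r * ρ x ^ r)) x := by
    intro x
    have h1 := (dσ x).div (dρ x) (hρ x).ne'
    refine h1.congr_deriv ?_
    have := (hρ x).ne'
    rw [hpow, div_eq_iff (by positivity)]
    have := hq x
    linear_combination 2 * this
  have dE : ∀ x, HasDerivAt (fun x => v x ^ 2 + ρ x ^ r) 0 x := by
    intro x
    have h1 := ((dv x).pow 2).add ((dρ x).rpow_const (p := r) (Or.inl (hρ x).ne'))
    refine h1.congr_deriv ?_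
    rw [Real.rpow_sub_one (hρ x).ne']
    have h0 := (hρ x).ne'
    have hs : σ x = v x * ρ x := by simp only [hv]; field_simp
    rw [hs]
    generalize v x = w
    field_simp
    push_cast
    ring
  have cE : ∀ x, v x ^ 2 + ρ x ^ r = v 0 ^ 2 + ρ 0 ^ r := by
    intro x
    exact is_const_of_deriv_eq_zero (fun x => (dE x).differentiableAt) (fun x => (dE x).deriv) x 0
  have hE0 : 0 < v 0 ^ 2 + ρ 0 ^ r := by
    have := Real.rpow_pos_of_pos (hρ 0) r
    positivity
  set k : ℝ := Real.sqrt (v 0 ^ 2 + ρ 0 ^ r) with hk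
  have hk0 : 0 < k := Real.sqrt_pos.2 hE0
  have hk2 : ∀ x, ρ x ^ r = k ^ 2 - v x ^ 2 := by
    intro x
    rw [hk, Real.sq_sqrt hE0.le, ← cE x]; ring
  have hlt : ∀ x, v x ^ 2 < k ^ 2 := by
    intro x
    have := Real.rpow_pos_of_pos (hρ x) r
    rw [hk2] at this; linarith
  have hvk : ∀ x, -k < v x ∧ v x < k := fun x => abs_lt.1 (by
    have := (sq_lt_sq.1 (hlt x)); rwa [abs_of_pos hk0] at this)
  have dL : ∀ x, HasDerivAt (fun x => Real.log (k + v x) - Real.log (k - v x) + 2 * k * r * x) 0 x := by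
    intro x
    have p1 : 0 < k + v x := by linarith [(hvk x).1]
    have p2 : 0 < k - v x := by linarith [(hvk x).2]
    have h1 := (((dv x).const_add k).log p1.ne').sub (((dv x).const_sub k).log p2.ne')
    have h2 := h1.add ((hasDerivAt_id x).const_mul (2 * k * r))
    refine h2.congr_deriv ?_
    rw [hk2]
    have : k ^ 2 - v x ^ 2 = (k + v x) * (k - v x) := by ring
    rw [this]
    field_simp
    ring
  have cL : ∀ x, Real.log (k + v x) - Real.log (k - v x) + 2 * k * r * x =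
      Real.log (k + v 0) - Real.log (k - v 0) := by
    intro x
    have := is_const_of_deriv_eq_zero (fun x => (dL x).differentiableAt) (fun x => (dL x).deriv) x 0
    simpa using this
  set c : ℝ := (Real.log (k + v 0) - Real.log (k - v 0)) / (2 * k * r) with hc
  refine ⟨k, c, hk0.le, fun x => ?_⟩
  have p1 : 0 < k + v x := by linarith [(hvk x).1]
  have p2 : 0 < k - v x := by linarith [(hvk x).2]
  have hLx : Real.log (k + v x) - Real.log (k - v x) = -(2 * (r * k * (x - c))) := by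
    have h1 := cL x
    have h2 : 2 * k * r * c = Real.log (k + v 0) - Real.log (k - v 0) := by
      rw [hc]; field_simp
    linear_combination h1 + h2.symm
  have hratio : (k + v x) = (k - v x) * Real.exp (-(2 * (r * k * (x - c)))) := by
    rw [← hLx, Real.exp_sub, Real.exp_log p1, Real.exp_log p2]
    field_simp
  unfold soliton
  rw [hk2, eq_div_iff (by positivity)]
  set y := r * k * (x - c) with hy
  have e1 : Real.exp (-(2 * y)) = Real.exp (-y) * Real.exp (-y) := by rw [← Real.exp_add]; ring_nf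
  have e2 : Real.exp y * Real.exp (-y) = 1 := by rw [← Real.exp_add]; simp
  rw [e1] at hratio
  rw [Real.cosh_eq]
  -- (k+v) e^{y} = (k-v) e^{-y}
  have h3 : (k + v x) * Real.exp y = (k - v x) * Real.exp (-y) := by
    rw [hratio]
    linear_combination (k - v x) * Real.exp (-y) * e2
  -- v (e^y + e^{-y}) = -k (e^y - e^{-y})
  have h4 : v x * (Real.exp y + Real.exp (-y)) = -k * (Real.exp y - Real.exp (-y)) := by
    linear_combination h3
  have h5 : (v x * (Real.exp y + Real.exp (-y))) ^ 2 = (-k * (Real.exp y - Real.exp (-y))) ^ 2 := by rw [h4]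
  linear_combination (-(r + 1) / 4) * h5 + (r + 1) * k ^ 2 * e2

/-- diagonality is preserved -/
lemma RSQ.offdiag (hr : 0 < r) (h : RSQ r κ R S Q) {ρ σ : Fin m → ℝ}
    (h0 : R 0 = diagonal (fun i => (ρ i : ℂ))) (h0' : S 0 = diagonal (fun i => (σ i : ℂ)))
    {i j : Fin m} (hij : i ≠ j) (x : ℝ) : R x i j = 0 := by
  let θ : Fin m → ℂ := fun k => if k = i then -1 else 1
  have hθ : ∀ k, θ k * star (θ k) = 1 := by
    intro k; simp only [θ]; split_ifs <;> simp
  have hVm : diagonal θ ∈ Matrix.unitaryGroup (Fin m) ℂ := by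
    rw [Matrix.mem_unitaryGroup_iff, star_eq_conjTranspose, Matrix.diagonal_conjTranspose,
      Matrix.diagonal_mul_diagonal]
    ext a b
    by_cases hab : a = b
    · subst hab
      rw [Matrix.diagonal_apply_eq, Matrix.one_apply_eq]
      exact hθ a
    · simp [hab]
  let V : Matrix.unitaryGroup (Fin m) ℂ := ⟨diagonal θ, hVm⟩
  have hVd : ∀ d : Fin m → ℝ, (V : Matrix (Fin m) (Fin m) ℂ) * diagonal (fun i => (d i : ℂ)) *
      star (V : Matrix (Fin m) (Fin m) ℂ) = diagonal (fun i => (d i : ℂ)) := by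
    intro d
    show diagonal θ * diagonal (fun i => (d i : ℂ)) * star (diagonal θ) = _
    rw [star_eq_conjTranspose, Matrix.diagonal_conjTranspose, Matrix.diagonal_mul_diagonal,
      Matrix.diagonal_mul_diagonal]
    congr 1
    funext k
    have := hθ k
    simp only [Pi.star_apply]
    linear_combination (d k : ℂ) * this
  have h2 := RSQ.unique hr h (h.conj V) h0 (by simp only [h0]; exact hVd ρ)
    (by simp only [h0']; exact (hVd σ).symm) x
  have h3 := congrFun (congrFun h2 i) j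
  have h4 : ((V : Matrix (Fin m) (Fin m) ℂ) * R x * star (V : Matrix (Fin m) (Fin m) ℂ)) i j =
      - R x i j := by
    show (diagonal θ * R x * star (diagonal θ)) i j = _
    rw [star_eq_conjTranspose, Matrix.diagonal_conjTranspose, Matrix.mul_diagonal, Matrix.diagonal_mul]
    simp [θ, Ne.symm hij]
  simp only [h4] at h3
  have h5 : (2:ℂ) * R x i j = 0 := by linear_combination h3
  simpa using h5


/-- classification with diagonal initial data -/
theorem RSQ.classify_diag (hr : 0 < r) (h : RSQ r κ R S Q) {ρ σ : Fin m → ℝ}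
    (h0 : R 0 = diagonal (fun i => (ρ i : ℂ))) (h0' : S 0 = diagonal (fun i => (σ i : ℂ))) :
    ∃ a c : Fin m → ℝ, (∀ i, 0 ≤ a i) ∧ ∀ x, ((r + 1 : ℝ) : ℂ) • mpow (R x) r =
      diagonal (fun i => ((soliton r (a i) (c i) x : ℝ) : ℂ)) := by
  have hoff : ∀ i j, i ≠ j → ∀ x, R x i j = 0 := fun i j hij x => h.offdiag hr h0 h0' hij x
  have hSoff : ∀ i j, i ≠ j → ∀ x, S x i j = 0 := by
    intro i j hij x
    have h1 := hasDerivAt_pi.1 (hasDerivAt_pi.1 (h.dR x) i) j
    have h2 : HasDerivAt (fun x => R x i j) 0 x := by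
      have : (fun x => R x i j) = fun _ => 0 := funext fun x => hoff i j hij x
      rw [this]; exact hasDerivAt_const _ _
    have h3 := h1.unique h2
    simpa [Matrix.smul_apply] using h3
  set p : Fin m → ℝ → ℝ := fun i x => (R x i i).re with hp
  have hRd : ∀ x, R x = diagonal (fun i => ((p i x : ℝ) : ℂ)) := by
    intro x
    ext i j
    by_cases hij : i = j
    · subst hij
      rw [Matrix.diagonal_apply_eq]
      exact ((h.hR x).1.coe_re_apply_self i).symm
    · rw [Matrix.diagonal_apply_ne _ hij, hoff i j hij x]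
  have hpos : ∀ i x, 0 ≤ p i x := by
    intro i x
    have := (h.hR x).diag_nonneg (i := i)
    exact (Complex.le_def.1 this).1
  have hscal : ∀ i, ∃ k c : ℝ, 0 ≤ k ∧ ∀ x, (r + 1) * (p i x) ^ r = soliton r k c x := by
    intro i
    by_cases hi : ρ i = 0
    · refine ⟨0, 0, le_rfl, fun x => ?_⟩
      have h1 : p i x = 0 := by
        show (R x i i).re = 0
        rw [(h.row_zero hr h0 hi x i).1]; simp
      rw [h1, Real.zero_rpow hr.ne']
      unfold soliton
      simp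
    · have hp0 : ∀ x, 0 < p i x := by
        intro x
        refine lt_of_le_of_ne (hpos i x) (fun h1 => hi ?_)
        have h2 : R x *ᵥ (Pi.single i 1) = 0 := by
          rw [hRd x]
          ext k
          rw [Matrix.mulVec_diagonal]
          by_cases hk : k = i
          · subst hk; simp [← h1]
          · simp [hk]
        have h3 := h.ker_const h2 0
        rw [h0] at h3
        have h4 := congrFun h3 i
        rw [Matrix.mulVec_diagonal] at h4
        simpa using h4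
      have hSre : ∀ x, S x i i = (((S x i i).re : ℝ) : ℂ) := fun x =>
        ((h.hS x).coe_re_apply_self i).symm
      refine scalar_soliton hr (ρ := p i) (σ := fun x => (S x i i).re) (q := fun x => (Q x i i).re)
        hp0 ?_ ?_ ?_
      · intro x
        have h1 := hasDerivAt_pi.1 (hasDerivAt_pi.1 (h.dR x) i) i
        have h2 := (Complex.reCLM.hasFDerivAt (x := R x i i)).comp_hasDerivAt x h1
        refine h2.congr_deriv ?_
        simp [Matrix.smul_apply]
      · intro x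
        have h1 := hasDerivAt_pi.1 (hasDerivAt_pi.1 (h.dS x) i) i
        have h2 := (Complex.reCLM.hasFDerivAt (x := S x i i)).comp_hasDerivAt x h1
        refine h2.congr_deriv ?_
        have h3 : mpow (R x) (1 + r) i i = ((p i x ^ (1 + r) : ℝ) : ℂ) := by
          unfold mpow
          conv_lhs => rw [hRd x]
          rw [cfc_diagonal (fun i => p i x) (fun t => t ^ (1 + r)), Matrix.diagonal_apply_eq]
        simp only [Matrix.sub_apply, Matrix.smul_apply, h3, smul_eq_mul, Complex.reCLM_apply]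
        simp only [Complex.sub_re, Complex.mul_re, Complex.ofReal_re, Complex.ofReal_im, mul_zero,
          sub_zero]
        simp
      · intro x
        have h1 := congrFun (congrFun (h.RQ' x) i) i
        have h2 : (R x * Q x) i i = ((p i x : ℝ) : ℂ) * Q x i i := by
          rw [hRd x, Matrix.diagonal_mul]
        have h3 : (S x * S x) i i = ((((S x i i).re) ^ 2 : ℝ) : ℂ) := by
          rw [Matrix.mul_apply, Finset.sum_eq_single i]
          · conv_lhs => rw [hSre x]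
            push_cast; ring
          · intro k _ hk
            rw [hSoff i k (Ne.symm hk) x, zero_mul]
          · intro hk; exact absurd (Finset.mem_univ i) hk
        rw [h2, h3] at h1
        have h4 := congrArg Complex.re h1
        rw [Complex.re_ofReal_mul, Complex.ofReal_re] at h4
        exact h4
  choose a c ha hac using hscal
  refine ⟨a, c, ha, fun x => ?_⟩
  have h3 : mpow (R x) r = diagonal (fun i => ((p i x ^ r : ℝ) : ℂ)) := by
    unfold mpow
    conv_lhs => rw [hRd x]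
    rw [cfc_diagonal (fun i => p i x) (fun t => t ^ r)]
  rw [h3]
  ext i j
  by_cases hij : i = j
  · subst hij
    rw [Matrix.smul_apply, Matrix.diagonal_apply_eq, Matrix.diagonal_apply_eq, ← hac i x]
    push_cast
    rfl
  · rw [Matrix.smul_apply, Matrix.diagonal_apply_ne _ hij, Matrix.diagonal_apply_ne _ hij, smul_zero]

/-- **(F4)** classification of the limit system. -/
theorem RSQ.classify (hr : 0 < r) (h : RSQ r κ R S Q) :
    ∃ (U : Matrix.unitaryGroup (Fin m) ℂ) (a c : Fin m → ℝ), (∀ i, 0 ≤ a i) ∧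
      ∀ x, ((r + 1 : ℝ) : ℂ) • mpow (R x) r = (U : Matrix (Fin m) (Fin m) ℂ) *
        diagonal (fun i => ((soliton r (a i) (c i) x : ℝ) : ℂ)) *
          star (U : Matrix (Fin m) (Fin m) ℂ) := by
  obtain ⟨U, d, e, hd, he⟩ := simul_diag (R 0) (S 0) (h.hR 0).1 (h.hS 0) (h.comm 0)
  have u1 : star (U : Matrix (Fin m) (Fin m) ℂ) * (U : Matrix (Fin m) (Fin m) ℂ) = 1 :=
    Unitary.coe_star_mul_self U
  have u2 : (U : Matrix (Fin m) (Fin m) ℂ) * star (U : Matrix (Fin m) (Fin m) ℂ) = 1 :=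
    Unitary.coe_mul_star_self U
  have hV : ((star U : Matrix.unitaryGroup (Fin m) ℂ) : Matrix (Fin m) (Fin m) ℂ) =
      star (U : Matrix (Fin m) (Fin m) ℂ) := rfl
  have hcancel : ∀ D : Matrix (Fin m) (Fin m) ℂ,
      ((star U : Matrix.unitaryGroup (Fin m) ℂ) : Matrix (Fin m) (Fin m) ℂ) *
        ((U : Matrix (Fin m) (Fin m) ℂ) * D * star (U : Matrix (Fin m) (Fin m) ℂ)) *
        star ((star U : Matrix.unitaryGroup (Fin m) ℂ) : Matrix (Fin m) (Fin m) ℂ) = D := by
    intro D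
    rw [hV, star_star]
    calc _ = (star (U : Matrix (Fin m) (Fin m) ℂ) * (U : Matrix (Fin m) (Fin m) ℂ)) * D *
          (star (U : Matrix (Fin m) (Fin m) ℂ) * (U : Matrix (Fin m) (Fin m) ℂ)) := by
          simp only [mul_assoc]
      _ = D := by rw [u1]; simp
  obtain ⟨a, c, ha, hac⟩ := (h.conj (star U)).classify_diag hr (ρ := d) (σ := e)
    (by rw [hd]; exact hcancel _) (by rw [he]; exact hcancel _)
  refine ⟨U, a, c, ha, fun x => ?_⟩
  rw [← hac x]
  have h1 : mpow (((star U : Matrix.unitaryGroup (Fin m) ℂ) : Matrix (Fin m) (Fin m) ℂ) * R x *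
      star ((star U : Matrix.unitaryGroup (Fin m) ℂ) : Matrix (Fin m) (Fin m) ℂ)) r =
      ((star U : Matrix.unitaryGroup (Fin m) ℂ) : Matrix (Fin m) (Fin m) ℂ) * mpow (R x) r *
      star ((star U : Matrix.unitaryGroup (Fin m) ℂ) : Matrix (Fin m) (Fin m) ℂ) :=
    cfc_unitary_conj (star U) (h.hR x).1 _
  rw [h1, hV, star_star, Matrix.mul_smul, Matrix.smul_mul]
  congr 1
  calc mpow (R x) r = ((U : Matrix (Fin m) (Fin m) ℂ) * star (U : Matrix (Fin m) (Fin m) ℂ)) * mpow (R x) r *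
        ((U : Matrix (Fin m) (Fin m) ℂ) * star (U : Matrix (Fin m) (Fin m) ℂ)) := by rw [u2]; simp
    _ = _ := by simp only [mul_assoc]

/-- **(F4)**, entrywise interface. -/
theorem ode_classification (hr : 0 < r) (hR : ∀ x, (R x).PosSemidef) (hS : ∀ x, (S x).IsHermitian)
    (dR : ∀ x i j, HasDerivAt (fun x => R x i j) (2 * S x i j) x)
    (dS : ∀ x i j, HasDerivAt (fun x => S x i j) (2 * Q x i j - r * mpow (R x) (1 + r) i j) x)
    (cQ : ∀ i j, Continuous fun x => Q x i j)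
    (comm : ∀ x, R x * S x = S x * R x)
    (RQ : ∀ x, mpow (R x) r * Q x = S x * mpow (R x) (r - 1) * S x)
    (b1 : ∀ x, (κ • R x - S x).PosSemidef) (b2 : ∀ x, (κ • R x + S x).PosSemidef) :
    ∃ (U : Matrix.unitaryGroup (Fin m) ℂ) (a c : Fin m → ℝ), (∀ i, 0 ≤ a i) ∧
      ∀ x, ((r + 1 : ℝ) : ℂ) • mpow (R x) r = (U : Matrix (Fin m) (Fin m) ℂ) *
        diagonal (fun i => ((soliton r (a i) (c i) x : ℝ) : ℂ)) *
          star (U : Matrix (Fin m) (Fin m) ℂ) := by
  have h : RSQ r κ R S Q :=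
    { hR := hR
      hS := hS
      dR := fun x => hasDerivAt_pi.2 fun i => hasDerivAt_pi.2 fun j => by
        simpa [Matrix.smul_apply] using dR x i j
      dS := fun x => hasDerivAt_pi.2 fun i => hasDerivAt_pi.2 fun j => by
        simpa [Matrix.smul_apply] using dS x i j
      cQ := continuous_matrix cQ
      comm := comm
      RQ := RQ
      b1 := b1
      b2 := b2 }
  exact h.classify hr

end Crest.Agent.R332.Ode
end

-- ▼ part R332/GlueFinal
section

/-! # Row 332: extremal potentials are sums of solitons -/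

set_option autoImplicit false
set_option linter.unusedSectionVars false

namespace Crest.Agent.R332.Glue

open Matrix Unitary MeasureTheory Set
open scoped ComplexOrder Topology ContDiff
open Crest.MathPhysics.LiebThirring
open Crest.Agent.R332

theorem soliton_of_extremal
    (γ : ℝ) (hγ : 1 / 2 < γ) (hγ' : γ < 3 / 2) (m : ℕ)
    (W : ℝ → Matrix (Fin m) (Fin m) ℂ) (hW : ∀ i j, Measurable fun x => W x i j)
    (hWp : ∀ x, (W x).PosSemidef)
    (hWi : Integrable fun x => tracePow (W x) (γ + 1 / 2))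
    (H : ∀ ε : ℝ, 0 < ε → ∃ (n : ℕ) (φ : Fin n → ℝ → Vec m), IsTrialFamily φ ∧
        sharpConst γ * (∫ x, tracePow (W x) (γ + 1 / 2)) - ε < negMoment (energyMatrix W φ) γ) :
      ∃ (U : Matrix.unitaryGroup (Fin m) ℂ) (a c : Fin m → ℝ), (∀ i, 0 ≤ a i) ∧
        ∀ᵐ x : ℝ, W x = (U : Matrix (Fin m) (Fin m) ℂ) *
          Matrix.diagonal (fun i => ((soliton (γ - 1 / 2)⁻¹ (a i) (c i) x : ℝ) : ℂ)) *
            star (U : Matrix (Fin m) (Fin m) ℂ) := by
  obtain ⟨α, hαdef⟩ : ∃ α, α = γ - 1 / 2 := ⟨_, rfl⟩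
  have hγα : γ = α + 1 / 2 := by linarith
  have hα : 0 < α := by linarith
  have hα1 : α < 1 := by linarith
  have hβ := betaC_pos hα
  have hs : sharpConst γ * betaC α = cC α := by
    rw [hαdef]; exact sharpConst_mul_betaC hγ
  rw [← hαdef]
  have e1 : γ + 1 / 2 = 1 + α := by rw [hγα]; ring
  have hWi' : Integrable fun x => trp (W x) (1 + α) := by
    rw [← e1]; exact hWi
  obtain ⟨w, hw⟩ : ∃ w, w = ∫ x, trp (W x) (1 + α) := ⟨_, rfl⟩
  have hw' : (∫ x, tracePow (W x) (γ + 1 / 2)) = w := by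
    rw [hw, ← e1]; rfl
  have hw0 : 0 ≤ w := by
    rw [hw]
    exact integral_nonneg fun x => Lim.rtr_nonneg_of_posSemidef (mpow_posSemidef (hWp x) _)
  have hK0 := KK_pos hα hw0
  have hD0 := DD_pos hα hw0
  have near : ∀ ε : ℝ, 0 < ε → ∃ (ι : Type) (_ : Fintype ι) (_ : DecidableEq ι) (L : ℝ)
      (Ψ Ψ' : ℝ → Matrix (Fin m) ι ℂ) (K : Matrix ι ι ℂ) (F : ℝ → Matrix ι ι ℂ),
      Lim.NearData α (KK α w) (DD α w) ε W L Ψ Ψ' K F := by
    intro ε hε
    have hζ0 : 0 ≤ ZZ m α w := by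
      unfold ZZ Lim.supB
      positivity
    have hcoef := CoerI.coefD_pos (κ := KK α w) (ζ := ZZ m α w) hα hα1 hζ0
    obtain ⟨δ, hδ0, hδ1, hδ2, hδ3⟩ : ∃ δ : ℝ, 0 < δ ∧ δ ≤ betaC α ∧ δ ≤ ε ∧
        δ ≤ CoerI.coefD α (KK α w) (ZZ m α w) * ε :=
      ⟨min (betaC α) (min ε (CoerI.coefD α (KK α w) (ZZ m α w) * ε)),
        lt_min hβ (lt_min hε (mul_pos hcoef hε)), min_le_left _ _,
        (min_le_right _ _).trans (min_le_left _ _),
        (min_le_right _ _).trans (min_le_right _ _)⟩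
    obtain ⟨n, φ, hφ, hlt⟩ := H (δ / betaC α) (div_pos hδ0 hβ)
    obtain ⟨ι, i1, i2, S, hS⟩ := exists_red (p := γ + 1 / 2) (by linarith) hW hWp hWi hφ
      (show 0 < γ by linarith)
    obtain ⟨C, K, F, h⟩ := exists_fullData S hα hα1
    refine ⟨ι, i1, i2, S.L, S.Ψ C, S.DΨ C, K, F,
      nearData_of_fullData h hα hα1 hWp hWi' hw hδ1 hδ2 hδ3 ?_⟩
    rw [← hγα, hS, ← hs]
    rw [hw'] at hlt
    have h1 := mul_lt_mul_of_pos_left hlt hβ
    have h2 : betaC α * (sharpConst γ * w - δ / betaC α) = sharpConst γ * betaC α * w - δ := by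
      field_simp
    rw [h2] at h1
    linarith
  obtain ⟨R, S, Q, hR, hS, cR, cS, cQ, dR, dS, hcomm, hRQ, hb1, hb2, hWR⟩ :=
    Lim.limit_of_near hα hα1 hK0 hWp near
  have hr : 0 < 1 / α := by positivity
  obtain ⟨U, a, c, ha, hU⟩ := Ode.ode_classification (r := 1 / α) (κ := KK α w) (R := R) (S := S)
    (Q := Q) hr hR hS dR dS (fun i j => cQ.matrix_elem i j) (fun x => (hcomm x).symm) hRQ
    (fun x => by
      have := hb2 x
      have e : ((KK α w : ℝ) : ℂ) • R x = KK α w • R x := by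
        ext i j; simp [Matrix.smul_apply]
      rwa [e] at this)
    (fun x => by
      have := hb1 x
      have e : ((KK α w : ℝ) : ℂ) • R x = KK α w • R x := by
        ext i j; simp [Matrix.smul_apply]
      rwa [e] at this)
  refine ⟨U, a, c, ha, ?_⟩
  filter_upwards [hWR] with x hx
  have e : ((1 / α + 1 : ℝ) : ℂ) = ((1 + 1 / α : ℝ) : ℂ) := by rw [add_comm]
  rw [← one_div, ← hU x, hx, e]
  ext i j
  simp [Matrix.smul_apply]

end Crest.Agent.R332.Glue
end

-- ▼ part R332/SolitonE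

set_option autoImplicit false
open MeasureTheory Set Filter Topology
open scoped ContDiff
open Crest.MathPhysics.LiebThirring

namespace Crest.Agent.R332

/-- ground state profile `sech^{1/r}(r a (x-c))` -/
noncomputable def gs (r a c x : ℝ) : ℝ := Real.cosh (r * a * (x - c)) ^ (-(1 / r))

lemma gs_pos (r a c x : ℝ) : 0 < gs r a c x := Real.rpow_pos_of_pos (Real.cosh_pos _) _

lemma contDiff_gs (r a c : ℝ) : ContDiff ℝ ∞ (gs r a c) := by
  unfold gs
  apply ContDiff.rpow_const_of_ne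
  · exact Real.contDiff_cosh.comp (by fun_prop)
  · intro x; exact (Real.cosh_pos _).ne'

lemma continuous_gs (r a c : ℝ) : Continuous (gs r a c) := (contDiff_gs r a c).continuous

lemma hasDerivAt_gs {r : ℝ} (hr : 0 < r) (a c x : ℝ) :
    HasDerivAt (gs r a c) (-a * (Real.sinh (r * a * (x - c)) / Real.cosh (r * a * (x - c))) * gs r a c x) x := by
  have h1 : HasDerivAt (fun x : ℝ => r * a * (x - c)) (r * a) x := by
    simpa using ((hasDerivAt_id x).sub_const c).const_mul (r * a)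
  have h2 : HasDerivAt (fun x : ℝ => Real.cosh (r * a * (x - c)))
    (Real.sinh (r * a * (x - c)) * (r * a)) x := h1.cosh
  have hc := Real.cosh_pos (r * a * (x - c))
  have h3 := h2.rpow_const (p := -(1 / r)) (Or.inl hc.ne')
  unfold gs
  convert h3 using 1
  rw [Real.rpow_sub_one hc.ne']
  field_simp

lemma hasDerivAt_gs' {r : ℝ} (hr : 0 < r) (a c x : ℝ) :
    HasDerivAt (fun x => -a * (Real.sinh (r * a * (x - c)) / Real.cosh (r * a * (x - c))) * gs r a c x)
      ((a ^ 2 - soliton r a c x) * gs r a c x) x := by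
  have h1 : HasDerivAt (fun x : ℝ => r * a * (x - c)) (r * a) x := by
    simpa using ((hasDerivAt_id x).sub_const c).const_mul (r * a)
  have h2 : HasDerivAt (fun x : ℝ => Real.cosh (r * a * (x - c)))
    (Real.sinh (r * a * (x - c)) * (r * a)) x := h1.cosh
  have h3 : HasDerivAt (fun x : ℝ => Real.sinh (r * a * (x - c)))
    (Real.cosh (r * a * (x - c)) * (r * a)) x := h1.sinh
  have hc := Real.cosh_pos (r * a * (x - c))
  have h4 := ((h3.div h2 hc.ne').const_mul (-a)).mul (hasDerivAt_gs hr a c x)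
  refine h4.congr_deriv ?_
  simp only [Pi.div_apply]
  unfold soliton
  have hs : Real.sinh (r * a * (x - c)) ^ 2 = Real.cosh (r * a * (x - c)) ^ 2 - 1 := Real.sinh_sq _
  generalize Real.cosh (r * a * (x - c)) = C at *
  generalize Real.sinh (r * a * (x - c)) = S at *
  generalize gs r a c x = g at *
  field_simp
  rw [hs]
  ring

/-- the master identity: for a smooth compactly supported `χ`,
`∫ ((χ g)')² - w (χ g)² = ∫ χ'² g² - a² ∫ (χ g)²`. -/
lemma energy_identity {r : ℝ} (hr : 0 < r) (a c : ℝ) {χ : ℝ → ℝ} (hχ : ContDiff ℝ ∞ χ)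
    (hχc : HasCompactSupport χ) :
    ∫ x, ((deriv (fun x => χ x * gs r a c x) x) ^ 2 - soliton r a c x * (χ x * gs r a c x) ^ 2)
      = (∫ x, (deriv χ x * gs r a c x) ^ 2) - a ^ 2 * ∫ x, (χ x * gs r a c x) ^ 2 := by
  set g := gs r a c with hg
  set G : ℝ → ℝ := fun x => -a * (Real.sinh (r * a * (x - c)) / Real.cosh (r * a * (x - c))) * gs r a c x
    with hG
  have hgd : ∀ x, HasDerivAt g (G x) x := fun x => hasDerivAt_gs hr a c x
  have hGd : ∀ x, HasDerivAt G ((a ^ 2 - soliton r a c x) * g x) x := fun x => hasDerivAt_gs' hr a c x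
  have hχd : ∀ x, HasDerivAt χ (deriv χ x) x := fun x =>
    (hχ.differentiable (by simp)).differentiableAt.hasDerivAt
  have hχ'c : Continuous (deriv χ) := hχ.continuous_deriv (by simp)
  have hχcont : Continuous χ := hχ.continuous
  have hgc : Continuous g := continuous_gs r a c
  have hGc : Continuous G := continuous_iff_continuousAt.2 fun x => (hGd x).continuousAt
  have hsc : Continuous (soliton r a c) := by
    unfold soliton
    refine Continuous.div (by fun_prop) ?_ (fun x => by positivity)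
    exact (Real.continuous_cosh.comp (by fun_prop)).pow 2
  -- h = χ² g G
  set h : ℝ → ℝ := fun x => (χ x) ^ 2 * (g x * G x) with hh
  set h' : ℝ → ℝ := fun x => 2 * χ x * deriv χ x * (g x * G x) +
      (χ x) ^ 2 * (G x * G x + g x * ((a ^ 2 - soliton r a c x) * g x)) with hh'
  have hhd : ∀ x, HasDerivAt h (h' x) x := by
    intro x
    have := ((hχd x).pow 2).mul ((hgd x).mul (hGd x))
    refine this.congr_deriv ?_
    simp only [hh', Pi.pow_apply, Pi.mul_apply]
    push_cast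
    ring
  have hdc : HasCompactSupport (deriv χ) := hχc.deriv
  have hh'c : Continuous h' := by fun_prop
  have hh's : HasCompactSupport h' := by
    apply HasCompactSupport.intro hχc
    intro x hx
    have h0 : χ x = 0 := image_eq_zero_of_notMem_tsupport hx
    simp [hh', h0]
  have hhs : HasCompactSupport h := by
    apply HasCompactSupport.intro hχc
    intro x hx
    have h0 : χ x = 0 := image_eq_zero_of_notMem_tsupport hx
    simp [hh, h0]
  have hint0 : ∫ x, h' x = 0 := by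
    apply integral_eq_zero_of_hasDerivAt_of_integrable hhd (hh'c.integrable_of_hasCompactSupport hh's)
    refine Continuous.integrable_of_hasCompactSupport ?_ hhs
    fun_prop
  have hd : ∀ x, deriv (fun x => χ x * g x) x = deriv χ x * g x + χ x * G x := fun x =>
    ((hχd x).mul (hgd x)).deriv
  have e1 : ∀ x, (deriv (fun x => χ x * g x) x) ^ 2 - soliton r a c x * (χ x * g x) ^ 2
      = ((deriv χ x * g x) ^ 2 - a ^ 2 * (χ x * g x) ^ 2) + h' x := by
    intro x
    rw [hd]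
    simp only [hh']
    ring
  have i1 : Integrable (fun x => (deriv χ x * g x) ^ 2) := by
    refine Continuous.integrable_of_hasCompactSupport (by fun_prop) ?_
    apply HasCompactSupport.intro hdc
    intro x hx
    have h0 : deriv χ x = 0 := image_eq_zero_of_notMem_tsupport hx
    simp [h0]
  have i2 : Integrable (fun x => a ^ 2 * (χ x * g x) ^ 2) := by
    refine Continuous.integrable_of_hasCompactSupport (by fun_prop) ?_
    apply HasCompactSupport.intro hχc
    intro x hx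
    have h0 : χ x = 0 := image_eq_zero_of_notMem_tsupport hx
    simp [h0]
  have i3 : Integrable (fun x => (deriv χ x * g x) ^ 2 - a ^ 2 * (χ x * g x) ^ 2) := i1.sub i2
  simp_rw [e1]
  rw [integral_add i3 (hh'c.integrable_of_hasCompactSupport hh's), hint0, add_zero,
    integral_sub i1 i2, integral_const_mul]

lemma integrable_gs_sq {r a : ℝ} (hr : 0 < r) (ha : 0 < a) (c : ℝ) :
    Integrable (fun x => (gs r a c x) ^ 2) := by
  have h1 := integrable_sech_rpow (p := 1 / r) (by positivity)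
  have h2 := (h1.comp_mul_left' (R := r * a) (by positivity)).comp_sub_right c
  refine h2.congr (Eventually.of_forall fun x => ?_)
  have hc := Real.cosh_pos (r * a * (x - c))
  simp only
  unfold gs
  have key : (Real.cosh (r * a * (x - c)) ^ 2) ^ (1 / r) = (Real.cosh (r * a * (x - c)) ^ (1 / r)) ^ 2 := by
    rw [← Real.rpow_natCast _ 2, ← Real.rpow_mul hc.le, mul_comm ((2:ℕ):ℝ) (1 / r),
      Real.rpow_mul hc.le, Real.rpow_natCast]
  rw [Real.inv_rpow (by positivity), key, Real.rpow_neg hc.le, inv_pow]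

/-- scalar trial functions with energy close to `-a²` -/
lemma exists_scalar_trial {r : ℝ} (hr : 0 < r) (a c : ℝ) {δ : ℝ} (hδ : 0 < δ) :
    ∃ f : ℝ → ℝ, ContDiff ℝ ∞ f ∧ HasCompactSupport f ∧ ∫ x, f x ^ 2 = 1 ∧
      (0 < a → ∫ x, ((deriv f x) ^ 2 - soliton r a c x * f x ^ 2) ≤ -a ^ 2 + δ) := by
  classical
  let b : ContDiffBump (0:ℝ) := ⟨1, 2, one_pos, one_lt_two⟩
  have hb : ContDiff ℝ ∞ (b : ℝ → ℝ) := b.contDiff
  have hbc : HasCompactSupport (b : ℝ → ℝ) := b.hasCompactSupport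
  obtain ⟨M, hM⟩ := (hb.continuous_deriv (by simp)).bounded_above_of_compact_support hbc.deriv
  set g := gs r a c with hg
  have hgc : Continuous g := continuous_gs r a c
  -- cut-offs
  let χ : ℝ → ℝ → ℝ := fun L x => b (x / L)
  have hχ : ∀ L, 0 < L → ContDiff ℝ ∞ (χ L) := fun L hL => hb.comp (by fun_prop)
  have hχc : ∀ L, 0 < L → HasCompactSupport (χ L) := by
    intro L hL
    have := hbc.comp_homeomorph (Homeomorph.mulRight₀ (L⁻¹) (inv_ne_zero hL.ne'))
    have e : (χ L) = ((b : ℝ → ℝ) ∘ (Homeomorph.mulRight₀ (L⁻¹) (inv_ne_zero hL.ne'))) := by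
      funext x; simp [χ, div_eq_mul_inv]
    rw [e]; exact this
  have hχ' : ∀ L, 0 < L → ∀ x, deriv (χ L) x = deriv b (x / L) / L := by
    intro L hL x
    have h1 : HasDerivAt (b : ℝ → ℝ) (deriv b (x / L)) (x / L) :=
      (hb.differentiable (by simp)).differentiableAt.hasDerivAt
    have h2 : HasDerivAt (fun x : ℝ => x / L) (1 / L) x := (hasDerivAt_id x).div_const L
    have := (h1.comp x h2).deriv
    rw [show χ L = (b : ℝ → ℝ) ∘ (fun x : ℝ => x / L) from rfl, this]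
    ring
  -- masses
  have hsupp : ∀ L, 0 < L → HasCompactSupport (fun x => (χ L x * g x) ^ 2) := by
    intro L hL
    apply HasCompactSupport.intro (hχc L hL)
    intro x hx
    have h0 : χ L x = 0 := image_eq_zero_of_notMem_tsupport hx
    simp [h0]
  have hint : ∀ L, 0 < L → Integrable (fun x => (χ L x * g x) ^ 2) := by
    intro L hL
    have := (hχ L hL).continuous
    exact Continuous.integrable_of_hasCompactSupport (by fun_prop) (hsupp L hL)
  set A0 : ℝ := ∫ x in Icc (-1:ℝ) 1, g x ^ 2 with hA0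
  have hA0pos : 0 < A0 := by
    rw [hA0, integral_Icc_eq_integral_Ioc, ← intervalIntegral.integral_of_le (by norm_num)]
    apply intervalIntegral.intervalIntegral_pos_of_pos_on
    · exact (hgc.pow 2).intervalIntegrable _ _
    · intro x _
      exact pow_pos (gs_pos r a c x) 2
    · norm_num
  have hA : ∀ L, 1 ≤ L → A0 ≤ ∫ x, (χ L x * g x) ^ 2 := by
    intro L hL
    have hL0 : 0 < L := by linarith
    have : A0 = ∫ x in Icc (-1:ℝ) 1, (χ L x * g x) ^ 2 := by
      refine setIntegral_congr_fun measurableSet_Icc fun x hx => ?_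
      have : χ L x = 1 := by
        apply b.one_of_mem_closedBall
        rw [mem_closedBall_zero_iff, Real.norm_eq_abs, abs_div, abs_of_pos hL0, div_le_iff₀ hL0]
        have : |x| ≤ 1 := abs_le.2 hx
        simp only [b]
        linarith
      simp [this]
    rw [this]
    exact setIntegral_le_integral (hint L hL0) (Eventually.of_forall fun x => sq_nonneg _)
  -- choose L
  obtain ⟨L, hL1, hL2⟩ : ∃ L : ℝ, 1 ≤ L ∧
      (0 < a → (M ^ 2 * ∫ x, g x ^ 2) / L ^ 2 ≤ δ * A0) := by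
    have : Tendsto (fun L : ℝ => (M ^ 2 * ∫ x, g x ^ 2) / L ^ 2) atTop (𝓝 0) :=
      tendsto_const_nhds.div_atTop (tendsto_pow_atTop (by norm_num))
    have h2 := (this.eventually_le_const (show (0:ℝ) < δ * A0 by positivity)).and (eventually_ge_atTop (1:ℝ))
    obtain ⟨L, hL⟩ := h2.exists
    exact ⟨L, hL.2, fun _ => hL.1⟩
  have hL0 : 0 < L := by linarith
  set A : ℝ := ∫ x, (χ L x * g x) ^ 2 with hAdef
  have hApos : 0 < A := lt_of_lt_of_le hA0pos (hA L hL1)
  have hχg : ContDiff ℝ ∞ (fun x => χ L x * g x) := (hχ L hL0).mul (contDiff_gs r a c)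
  refine ⟨fun x => (Real.sqrt A)⁻¹ * (χ L x * g x), ?_, ?_, ?_, ?_⟩
  · exact contDiff_const.mul hχg
  · apply HasCompactSupport.intro (hχc L hL0)
    intro x hx
    have h0 : χ L x = 0 := image_eq_zero_of_notMem_tsupport hx
    simp [h0]
  · have : ∀ x, ((Real.sqrt A)⁻¹ * (χ L x * g x)) ^ 2 = A⁻¹ * (χ L x * g x) ^ 2 := by
      intro x
      rw [mul_pow, inv_pow, Real.sq_sqrt hApos.le]
    simp_rw [this]
    rw [integral_const_mul, ← hAdef, inv_mul_cancel₀ hApos.ne']
  · intro ha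
    have e1 : ∀ x, (deriv (fun x => (Real.sqrt A)⁻¹ * (χ L x * g x)) x) ^ 2
        - soliton r a c x * ((Real.sqrt A)⁻¹ * (χ L x * g x)) ^ 2
        = A⁻¹ * ((deriv (fun x => χ L x * g x) x) ^ 2 - soliton r a c x * (χ L x * g x) ^ 2) := by
      intro x
      rw [deriv_const_mul _ (hχg.differentiable (by simp)).differentiableAt, mul_pow, mul_pow, inv_pow,
        Real.sq_sqrt hApos.le]
      ring
    simp_rw [e1]
    rw [integral_const_mul, energy_identity hr a c (hχ L hL0) (hχc L hL0), ← hAdef]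
    have hgi := integrable_gs_sq hr ha c
    have hB : ∫ x, (deriv (χ L) x * g x) ^ 2 ≤ δ * A := by
      calc ∫ x, (deriv (χ L) x * g x) ^ 2 ≤ ∫ x, (M ^ 2 / L ^ 2) * g x ^ 2 := by
            apply integral_mono
            · refine Continuous.integrable_of_hasCompactSupport ?_ ?_
              · have := (hχ L hL0).continuous_deriv (by simp)
                fun_prop
              · apply HasCompactSupport.intro (hχc L hL0).deriv
                intro x hx
                have h0 : deriv (χ L) x = 0 := image_eq_zero_of_notMem_tsupport hx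
                simp [h0]
            · exact hgi.const_mul _
            · intro x
              simp only
              rw [mul_pow]
              apply mul_le_mul_of_nonneg_right _ (sq_nonneg _)
              rw [hχ' L hL0 x, div_pow]
              apply div_le_div_of_nonneg_right _ (by positivity)
              rw [← sq_abs (deriv b (x / L))]
              have := hM (x / L)
              rw [Real.norm_eq_abs] at this
              exact pow_le_pow_left₀ (abs_nonneg _) this 2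
        _ = (M ^ 2 * ∫ x, g x ^ 2) / L ^ 2 := by rw [integral_const_mul]; ring
        _ ≤ δ * A0 := hL2 ha
        _ ≤ δ * A := mul_le_mul_of_nonneg_left (hA L hL1) hδ.le
    calc A⁻¹ * ((∫ x, (deriv (χ L) x * g x) ^ 2) - a ^ 2 * A) ≤ A⁻¹ * (δ * A - a ^ 2 * A) := by
          apply mul_le_mul_of_nonneg_left _ (by positivity)
          linarith
      _ = -a ^ 2 + δ := by field_simp; ring




lemma soliton_integral {γ : ℝ} (hγ : 1 / 2 < γ) (a c : ℝ) (ha : 0 ≤ a) :
    Integrable (fun x => soliton (γ - 1 / 2)⁻¹ a c x ^ (γ + 1 / 2)) ∧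
    sharpConst γ * ∫ x, soliton (γ - 1 / 2)⁻¹ a c x ^ (γ + 1 / 2) = a ^ (2 * γ) := by
  rcases ha.eq_or_lt with rfl | ha
  · have h0 : ∀ x, soliton (γ - 1 / 2)⁻¹ 0 c x ^ (γ + 1 / 2) = 0 := by
      intro x
      unfold soliton
      simp only [ne_eq, OfNat.ofNat_ne_zero, not_false_eq_true, zero_pow, mul_zero, zero_div]
      exact Real.zero_rpow (by linarith)
    simp_rw [h0]
    refine ⟨by simp, ?_⟩
    rw [integral_zero, mul_zero, Real.zero_rpow (by linarith)]
  · set r : ℝ := (γ - 1 / 2)⁻¹ with hr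
    have hα : 0 < γ - 1 / 2 := by linarith
    have hr0 : 0 < r := inv_pos.2 hα
    have hra : r * a ≠ 0 := by positivity
    have hp : 0 < γ + 1 / 2 := by linarith
    have e1 : ∀ x, soliton r a c x ^ (γ + 1 / 2) =
        ((r + 1) * a ^ 2) ^ (γ + 1 / 2) * ((Real.cosh (r * a * (x - c)) ^ 2)⁻¹) ^ (γ + 1 / 2) := by
      intro x
      unfold soliton
      rw [div_eq_mul_inv, Real.mul_rpow (by positivity) (by positivity)]
    have h1 := integrable_sech_rpow hp
    have h2 : Integrable (fun x => ((Real.cosh (r * a * (x - c)) ^ 2)⁻¹) ^ (γ + 1 / 2)) :=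
      (h1.comp_mul_left' (R := r * a) hra).comp_sub_right c
    have h3 : ∫ x, ((Real.cosh (r * a * (x - c)) ^ 2)⁻¹) ^ (γ + 1 / 2) =
        (r * a)⁻¹ * (Real.sqrt Real.pi * Real.Gamma (γ + 1 / 2) / Real.Gamma (γ + 1 / 2 + 1 / 2)) := by
      rw [← integral_sech_rpow hp]
      have e := integral_sub_right_eq_self
        (fun x => ((Real.cosh (r * a * x) ^ 2)⁻¹) ^ (γ + 1 / 2)) c (μ := volume)
      rw [e]
      have e' := Measure.integral_comp_mul_left
        (fun x => ((Real.cosh x ^ 2)⁻¹) ^ (γ + 1 / 2)) (r * a)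
      rw [e', abs_of_pos (by positivity)]
      simp
    constructor
    · simp_rw [e1]
      exact h2.const_mul _
    · simp_rw [e1]
      rw [integral_const_mul, h3]
      unfold sharpConst
      have hG1 : 0 < Real.Gamma (γ + 1 / 2) := Real.Gamma_pos_of_pos hp
      have hG2 : 0 < Real.Gamma (γ + 1) := Real.Gamma_pos_of_pos (by linarith)
      have hG3 : Real.Gamma (γ + 3 / 2) = (γ + 1 / 2) * Real.Gamma (γ + 1 / 2) := by
        rw [show γ + 3 / 2 = (γ + 1 / 2) + 1 by ring, Real.Gamma_add_one hp.ne']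
      have hG4 : γ + 1 / 2 + 1 / 2 = γ + 1 := by ring
      rw [hG3, hG4]
      have hr1 : r + 1 = (γ + 1 / 2) / (γ - 1 / 2) := by
        rw [hr, eq_div_iff hα.ne', add_mul, inv_mul_cancel₀ hα.ne']; ring
      have e2 : ((γ - 1 / 2) / (γ + 1 / 2)) ^ (γ - 1 / 2) = ((r + 1) ^ (γ - 1 / 2))⁻¹ := by
        rw [hr1, ← Real.inv_rpow (by positivity), inv_div]
      have e3 : ((r + 1) * a ^ 2) ^ (γ + 1 / 2) = (r + 1) ^ (γ - 1 / 2) * (r + 1) * (a ^ (2 * γ) * a) := by
        rw [Real.mul_rpow (by positivity) (by positivity), show γ + 1 / 2 = (γ - 1 / 2) + 1 by ring,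
          Real.rpow_add_one (by positivity), ← Real.rpow_natCast a 2, ← Real.rpow_mul ha.le,
          ← Real.rpow_add_one ha.ne']
        congr 2
        push_cast
        ring
      have hpi : 0 < Real.sqrt Real.pi := Real.sqrt_pos.2 Real.pi_pos
      have hX : 0 < (r + 1) ^ (γ - 1 / 2) := by positivity
      rw [e2, e3]
      have hr2 : r * (γ - 1 / 2) = 1 := by rw [hr]; exact inv_mul_cancel₀ hα.ne'
      have hr3 : r + 1 = r * (γ + 1 / 2) := by
        have : r * (γ + 1 / 2) = r * (γ - 1 / 2) + r := by ring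
        rw [this, hr2]; ring
      generalize (r + 1) ^ (γ - 1 / 2) = X at *
      rw [hr3]
      field_simp

/-- the inner product of columns of a unitary matrix -/
lemma inner_col {m : ℕ} (U : Matrix.unitaryGroup (Fin m) ℂ) (k l : Fin m) :
    inner ℂ (WithLp.toLp 2 (fun j => (U : Matrix (Fin m) (Fin m) ℂ) j k) : Vec m)
      (WithLp.toLp 2 (fun j => (U : Matrix (Fin m) (Fin m) ℂ) j l)) = if k = l then (1:ℂ) else 0 := by
  have h := congrFun (congrFun (Unitary.coe_star_mul_self U) k) l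
  rw [Matrix.mul_apply, Matrix.one_apply] at h
  rw [← h, PiLp.inner_apply]
  refine Finset.sum_congr rfl fun j _ => ?_
  simp [Matrix.star_apply, mul_comm]

lemma mulVec_col {m : ℕ} (U : Matrix.unitaryGroup (Fin m) ℂ) (d : Fin m → ℝ) (l : Fin m) :
    Matrix.toEuclideanLin ((U : Matrix (Fin m) (Fin m) ℂ) *
        Matrix.diagonal (fun i => (d i : ℂ)) * star (U : Matrix (Fin m) (Fin m) ℂ))
      (WithLp.toLp 2 (fun j => (U : Matrix (Fin m) (Fin m) ℂ) j l) : Vec m)
      = (d l : ℂ) • (WithLp.toLp 2 (fun j => (U : Matrix (Fin m) (Fin m) ℂ) j l) : Vec m) := by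
  have h : ((U : Matrix (Fin m) (Fin m) ℂ) *
        Matrix.diagonal (fun i => (d i : ℂ)) * star (U : Matrix (Fin m) (Fin m) ℂ)) *
        (U : Matrix (Fin m) (Fin m) ℂ) = (U : Matrix (Fin m) (Fin m) ℂ) *
        Matrix.diagonal (fun i => (d i : ℂ)) := by
    rw [mul_assoc, Unitary.coe_star_mul_self, mul_one]
  ext j
  have h2 := congrFun (congrFun h j) l
  rw [Matrix.mul_apply, Matrix.mul_diagonal] at h2
  simp only [PiLp.smul_apply, smul_eq_mul]
  rw [mul_comm, ← h2]
  rfl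


/-- S0516, direction `<=`. -/
theorem soliton_attained (γ : ℝ) (hγ : 1 / 2 < γ) (m : ℕ)
    (W : ℝ → Matrix (Fin m) (Fin m) ℂ)
    (U : Matrix.unitaryGroup (Fin m) ℂ) (a c : Fin m → ℝ) (ha : ∀ i, 0 ≤ a i)
    (hW : ∀ᵐ x : ℝ, W x = (U : Matrix (Fin m) (Fin m) ℂ) *
          Matrix.diagonal (fun i => ((soliton (γ - 1 / 2)⁻¹ (a i) (c i) x : ℝ) : ℂ)) *
            star (U : Matrix (Fin m) (Fin m) ℂ))
    (ε : ℝ) (hε : 0 < ε) :
    ∃ (n : ℕ) (φ : Fin n → ℝ → Vec m), IsTrialFamily φ ∧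
        sharpConst γ * (∫ x, tracePow (W x) (γ + 1 / 2)) - ε < negMoment (energyMatrix W φ) γ := by
  classical
  set r : ℝ := (γ - 1 / 2)⁻¹ with hr
  have hα : 0 < γ - 1 / 2 := by linarith
  have hr0 : 0 < r := inv_pos.2 hα
  -- the right-hand side
  have hR : sharpConst γ * (∫ x, tracePow (W x) (γ + 1 / 2)) = ∑ i, a i ^ (2 * γ) := by
    have h1 : ∫ x, tracePow (W x) (γ + 1 / 2) = ∫ x, ∑ i, soliton r (a i) (c i) x ^ (γ + 1 / 2) := by
      apply integral_congr_ae
      filter_upwards [hW] with x hx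
      rw [hx]
      exact trace_cfc_conj_diagonal U (fun i => soliton r (a i) (c i) x) (fun t => t ^ (γ + 1 / 2))
    rw [h1, integral_finsetSum _ (fun i _ => (soliton_integral hγ (a i) (c i) (ha i)).1), Finset.mul_sum]
    exact Finset.sum_congr rfl fun i _ => (soliton_integral hγ (a i) (c i) (ha i)).2
  -- choose δ
  obtain ⟨δ, hδ, hδ2⟩ : ∃ δ : ℝ, 0 < δ ∧ ∑ i, a i ^ (2 * γ) - ε < ∑ i, (max (a i ^ 2 - δ) 0) ^ γ := by
    have hcont : Continuous (fun δ : ℝ => ∑ i, (max (a i ^ 2 - δ) 0) ^ γ) := by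
      refine continuous_finsetSum _ fun i _ => ?_
      exact Continuous.rpow_const (by fun_prop) (fun x => Or.inr (by linarith))
    have h0 : ∑ i, (max (a i ^ 2 - 0) 0) ^ γ = ∑ i, a i ^ (2 * γ) := by
      refine Finset.sum_congr rfl fun i _ => ?_
      rw [sub_zero, max_eq_left (sq_nonneg _), Real.rpow_mul (ha i), Real.rpow_ofNat]
    have ht : Tendsto (fun δ : ℝ => ∑ i, (max (a i ^ 2 - δ) 0) ^ γ) (𝓝[>] 0) (𝓝 (∑ i, a i ^ (2 * γ))) := by
      rw [← h0]
      exact (hcont.tendsto 0).mono_left nhdsWithin_le_nhds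
    have h1 : ∀ᶠ δ in 𝓝[>] (0:ℝ), ∑ i, a i ^ (2 * γ) - ε < ∑ i, (max (a i ^ 2 - δ) 0) ^ γ :=
      ht.eventually (lt_mem_nhds (by linarith))
    obtain ⟨δ, h2, h3⟩ := (h1.and self_mem_nhdsWithin).exists
    exact ⟨δ, h3, h2⟩
  choose f hf1 hf2 hf3 hf4 using fun i => exists_scalar_trial hr0 (a i) (c i) hδ
  set u : Fin m → Vec m := fun k => WithLp.toLp 2 (fun j => (U : Matrix (Fin m) (Fin m) ℂ) j k) with hu
  have huu : ∀ k l, inner ℂ (u k) (u l) = if k = l then (1:ℂ) else 0 := inner_col U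
  let φ : Fin m → ℝ → Vec m := fun k x => (f k x : ℂ) • u k
  have hdf : ∀ k x, HasDerivAt (φ k) (((deriv (f k) x : ℝ) : ℂ) • u k) x := by
    intro k x
    have h1 : HasDerivAt (f k) (deriv (f k) x) x :=
      ((hf1 k).differentiable (by simp)).differentiableAt.hasDerivAt
    exact h1.ofReal_comp.smul_const (u k)
  have hdφ : ∀ k x, deriv (φ k) x = ((deriv (f k) x : ℝ) : ℂ) • u k := fun k x => (hdf k x).deriv
  refine ⟨m, φ, ⟨?_, ?_, ?_⟩, ?_⟩
  · intro k
    have : ContDiff ℝ ∞ (fun x => (f k x : ℂ)) := Complex.ofRealCLM.contDiff.comp (hf1 k)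
    exact this.smul contDiff_const
  · intro k
    apply HasCompactSupport.intro (hf2 k)
    intro x hx
    have h0 : f k x = 0 := image_eq_zero_of_notMem_tsupport hx
    simp [φ, h0]
  · intro k l
    have h1 : ∀ x, inner ℂ (φ k x) (φ l x) = ((f k x * f l x : ℝ) : ℂ) * (if k = l then (1:ℂ) else 0) := by
      intro x
      simp only [φ, inner_smul_left, inner_smul_right, huu, Complex.conj_ofReal]
      push_cast
      ring
    simp_rw [h1]
    by_cases hkl : k = l
    · subst hkl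
      simp only [if_true, mul_one]
      rw [integral_complex_ofReal]
      have : ∫ x, f k x * f k x = 1 := by
        rw [← hf3 k]; congr 1; funext x; ring
      rw [this]; simp
    · simp [hkl]
  · rw [hR]
    have hE : energyMatrix W φ = Matrix.diagonal
        (fun i => ((∫ x, ((deriv (f i) x) ^ 2 - soliton r (a i) (c i) x * f i x ^ 2) : ℝ) : ℂ)) := by
      ext k l
      unfold energyMatrix
      rw [Matrix.of_apply, Matrix.diagonal_apply]
      have h1 : ∀ᵐ x : ℝ, inner ℂ (deriv (φ k) x) (deriv (φ l) x) -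
          inner ℂ (φ k x) (Matrix.toEuclideanLin (W x) (φ l x)) =
          ((deriv (f k) x * deriv (f l) x - soliton r (a l) (c l) x * (f k x * f l x) : ℝ) : ℂ) *
            (if k = l then (1:ℂ) else 0) := by
        filter_upwards [hW] with x hx
        rw [hx, hdφ, hdφ]
        simp only [φ, map_smul, hu]
        rw [mulVec_col U (fun i => soliton r (a i) (c i) x) l]
        simp only [inner_smul_left, inner_smul_right]
        rw [inner_col]
        simp only [Complex.conj_ofReal]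
        push_cast
        ring
      rw [integral_congr_ae h1]
      by_cases hkl : k = l
      · subst hkl
        simp only [if_true, mul_one]
        rw [integral_complex_ofReal]
        congr 2
        funext x; ring
      · simp [hkl]
    rw [hE]
    unfold negMoment
    rw [trace_cfc_diagonal (fun i => ∫ x, ((deriv (f i) x) ^ 2 - soliton r (a i) (c i) x * f i x ^ 2))
      (fun t => (max (-t) 0) ^ γ)]
    refine hδ2.trans_le (Finset.sum_le_sum fun i _ => ?_)
    apply Real.rpow_le_rpow (le_max_right _ _) _ (by linarith)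
    rcases (ha i).eq_or_lt with h0 | h0
    · rw [← h0]
      have : max ((0:ℝ) ^ 2 - δ) 0 = 0 := max_eq_right (by nlinarith)
      rw [this]
      exact le_max_right _ _
    · apply max_le_max _ le_rfl
      have := hf4 i h0
      linarith

end Crest.Agent.R332
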